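import Vale.Agent.P307.SDefs

/-! P307: closure under disjoint unions. -/

open FirstOrder FirstOrder.Language

universe u

namespace Vale.Agent.P307S

/-- `K` is closed under disjoint unions, with the parts strong. -/
def AEC.DisjCl {L : FirstOrder.Language.{u, u}} (K : AEC L) : Prop :=
  ∀ (U : Type u) [L.Structure U] (S₁ S₂ : L.Substructure U), K.mem S₁ → K.mem S₂ →
    (∀ x : U, x ∈ S₁ → x ∉ S₂) → (∀ x : U, x ∈ S₁ ∨ x ∈ S₂) →
    (∀ (n : ℕ) (R : L.Relations n) (v : Fin n → U), Structure.RelMap R v →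
      (∀ k, v k ∈ S₁) ∨ (∀ k, v k ∈ S₂)) → K.le S₁.subtype

end Vale.Agent.P307S
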