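import Vale.Agent.P307.DDefs

/-! P307: Gaifman graph in an arbitrary vocabulary. -/

open FirstOrder FirstOrder.Language Cardinal Set

universe u

namespace Vale.Agent.P307S

variable (L : FirstOrder.Language.{u, u})

/-- Adjacency in the Gaifman graph: both points occur in one tuple of a relation, or among the
arguments and the value of one function application. -/
def AdjG {M : Type u} [L.Structure M] (x y : M) : Prop :=
  (∃ (n : ℕ) (R : L.Relations n) (v : Fin n → M),
    Structure.RelMap R v ∧ x ∈ range v ∧ y ∈ range v) ∨
  ∃ (n : ℕ) (f : L.Functions n) (v : Fin n → M),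
    x ∈ insert (Structure.funMap f v) (range v) ∧ y ∈ insert (Structure.funMap f v) (range v)

/-- At most `l` points have more than `l` neighbours in the Gaifman graph. -/
def SparseG (l : Cardinal.{u}) (M : Type u) [L.Structure M] : Prop :=
  #{x : M | l < #{y : M | AdjG L x y}} ≤ l

end Vale.Agent.P307S
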