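import Vale.Agent.P307.SDisj
import Vale.Agent.P307.GDefs

/-! P307: replacing function symbols by their graphs. -/

open Cardinal hiding univ
open FirstOrder FirstOrder.Language Set Structure

universe u

namespace Vale.Agent.P307S

variable (L : FirstOrder.Language.{u, u})

/-- Graph symbols. -/
def GF : ℕ → Type u
  | 0 => PEmpty
  | n + 1 => L.Functions n

/-- The relational vocabulary. -/
def RL : FirstOrder.Language.{u, u} := ⟨fun _ => PEmpty, fun n => L.Relations n ⊕ GF L n⟩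

instance : (RL L).IsRelational := fun _ => inferInstanceAs (IsEmpty PEmpty)

/-- The relational structure codes the given structure. -/
def Gr (M : Type u) [L.Structure M] [(RL L).Structure M] : Prop :=
  (∀ n (R : L.Relations n) (v : Fin n → M), RelMap (L := RL L) (Sum.inl R) v ↔ RelMap R v) ∧
  ∀ n (f : L.Functions n) (v : Fin (n + 1) → M),
    RelMap (L := RL L) (n := n + 1) (Sum.inr f) v ↔ funMap f (Fin.init v) = v (Fin.last n)

/-- The code of a structure. -/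
@[reducible] def relS (M : Type u) [L.Structure M] : (RL L).Structure M where
  funMap := fun f => f.elim
  RelMap := fun {n} R v => match n, R, v with
    | _, Sum.inl R, v => RelMap R v
    | 0, Sum.inr f, _ => f.elim
    | n + 1, Sum.inr f, v => funMap (L := L) f (Fin.init v) = v (Fin.last n)

variable {L}

theorem gr_relS (M : Type u) [L.Structure M] : @Gr L M _ (relS L M) :=
  ⟨fun n _ _ => by cases n <;> rfl, fun _ _ _ => Iff.rfl⟩

theorem rl_card : (RL L).card ≤ L.card := by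
  refine mk_le_of_surjective (f := fun s : L.Symbols => (match s with
    | Sum.inl ⟨n, f⟩ => Sum.inr ⟨n + 1, Sum.inr f⟩
    | Sum.inr ⟨n, R⟩ => Sum.inr ⟨n, Sum.inl R⟩ : (RL L).Symbols)) ?_
  rintro (⟨n, f⟩ | ⟨_ | n, R | f⟩)
  · exact f.elim
  · exact ⟨Sum.inr ⟨0, R⟩, rfl⟩
  · exact f.elim
  · exact ⟨Sum.inr ⟨n + 1, R⟩, rfl⟩
  · exact ⟨Sum.inl ⟨n, f⟩, rfl⟩

variable {M N : Type u}

theorem gr_uniq [(RL L).Structure M] {t t' : L.Structure M} (h : @Gr L M t _) (h' : @Gr L M t' _) :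
    t = t' := by
  ext n f v
  · have h1 := (h.2 n f (Fin.snoc v (@funMap L M t n f v))).2 (by simp)
    simpa using ((h'.2 n f _).1 h1).symm
  · exact (h.1 n f v).symm.trans (h'.1 n f v)

theorem mkStr [(RL L).Structure M] (h : ∀ n (f : L.Functions n) (v : Fin n → M), ∃ y,
    ∀ w : Fin (n + 1) → M, Fin.init w = v →
      (RelMap (L := RL L) (n := n + 1) (Sum.inr f) w ↔ y = w (Fin.last n))) :
    ∃ _ : L.Structure M, Gr L M := by
  choose F hF using h
  exact ⟨⟨fun f v => F _ f v, fun R v => RelMap (L := RL L) (Sum.inl R) v⟩,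
    fun _ _ _ => Iff.rfl, fun n f v => hF n f _ v rfl⟩

section
variable [L.Structure M] [(RL L).Structure M] [L.Structure N] [(RL L).Structure N]

/-- An embedding of codes is an embedding. -/
def embUp (hM : Gr L M) (hN : Gr L N) (f : M ↪[RL L] N) : M ↪[L] N where
  toEmbedding := f.toEmbedding
  map_fun' := fun {n} g v => by
    have h1 := (hM.2 n g (Fin.snoc v (funMap g v))).2 (by simp)
    have h2 := (hN.2 n g _).1 ((f.map_rel (n := n + 1) (Sum.inr g) _).2 h1)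
    rw [Fin.comp_snoc] at h2
    simp only [Fin.init_snoc, Fin.snoc_last] at h2
    exact h2.symm
  map_rel' := fun {n} R v =>
    (hN.1 n R _).symm.trans ((f.map_rel (Sum.inl R) v).trans (hM.1 n R v))

/-- An embedding is an embedding of codes. -/
def embDown (hM : Gr L M) (hN : Gr L N) (f : M ↪[L] N) : M ↪[RL L] N where
  toEmbedding := f.toEmbedding
  map_fun' := fun g => g.elim
  map_rel' := fun {n} R v => match n, R, v with
    | _, Sum.inl R, v => (hN.1 _ R _).trans ((f.map_rel R v).trans (hM.1 _ R v).symm)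
    | 0, Sum.inr g, _ => g.elim
    | n + 1, Sum.inr g, v => by
      refine (hN.2 n g _).trans (Iff.trans ?_ (hM.2 n g v).symm)
      exact (iff_of_eq (congrArg (· = _) (f.map_fun g (Fin.init v)).symm)).trans f.injective.eq_iff

/-- An isomorphism of codes is an isomorphism. -/
def eqvUp (hM : Gr L M) (hN : Gr L N) (e : M ≃[RL L] N) : M ≃[L] N :=
  ⟨e.toEquiv, (embUp hM hN e.toEmbedding).map_fun', (embUp hM hN e.toEmbedding).map_rel'⟩

/-- An isomorphism is an isomorphism of codes. -/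
def eqvDown (hM : Gr L M) (hN : Gr L N) (e : M ≃[L] N) : M ≃[RL L] N :=
  ⟨e.toEquiv, (embDown hM hN e.toEmbedding).map_fun', (embDown hM hN e.toEmbedding).map_rel'⟩

theorem gr_sub (hN : Gr L N) (S : L.Substructure N) :
    @Gr L S _ (inferInstanceAs ((RL L).Structure (sub (RL L) (S : Set N)))) :=
  ⟨fun n R _ => hN.1 n R _, fun n f v => (hN.2 n f _).trans
    (Subtype.ext_iff (a1 := funMap f (Fin.init v)) (a2 := v (Fin.last n))).symm⟩

/-- A coded substructure. -/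
def subUp (hN : Gr L N) (S : (RL L).Substructure N) [L.Structure S] (hS : Gr L S) :
    L.Substructure N :=
  ⟨S, fun f v hv => by
    have := (embUp hS hN S.subtype).map_fun f fun k => ⟨v k, hv k⟩
    exact (show funMap f v = _ from this.symm) ▸ (funMap f fun k => (⟨v k, hv k⟩ : S)).2⟩

/-- The coded substructure carries the induced structure. -/
def subEqv (hN : Gr L N) (S : (RL L).Substructure N) [L.Structure S] (hS : Gr L S) :
    S ≃[L] subUp hN S hS :=
  ⟨_root_.Equiv.refl _, fun f v => Subtype.ext ((embUp hS hN S.subtype).map_fun f v),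
    fun R v => (embUp hS hN S.subtype).map_rel R v⟩

theorem adj_iff (hM : Gr L M) (x y : M) : Adj (RL L) x y ↔ AdjG L x y := by
  constructor
  · rintro ⟨_ | n, R | f, v, h1, h2⟩
    · exact Or.inl ⟨0, R, v, (hM.1 _ _ _).1 h1, h2⟩
    · exact f.elim
    · exact Or.inl ⟨n + 1, R, v, (hM.1 _ _ _).1 h1, h2⟩
    · refine Or.inr ⟨n, f, Fin.init v, ?_⟩
      rwa [(hM.2 n f v).1 h1, ← Fin.range_snoc, Fin.snoc_init_self]
  · rintro (⟨n, R, v, h1, h2⟩ | ⟨n, f, v, h⟩)
    · exact ⟨n, Sum.inl R, v, (hM.1 _ _ _).2 h1, h2⟩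
    · exact ⟨n + 1, Sum.inr f, Fin.snoc v (funMap f v), (hM.2 _ _ _).2 (by simp),
        by rwa [Fin.range_snoc]⟩

theorem sparse_iff (hM : Gr L M) {l : Cardinal.{u}} : Sparse (RL L) l M ↔ SparseG L l M := by
  simp only [Sparse, SparseG, adj_iff hM]

end

theorem exists_ub {I : Type u} [LinearOrder I] [Nonempty I] {S : I → Set M} (hS : Monotone S)
    {n : ℕ} {v : Fin n → M} (h : ∀ k, ∃ i, v k ∈ S i) : ∃ i, ∀ k, v k ∈ S i := by
  choose j hj using h
  obtain ⟨i, hi⟩ := Finite.exists_le j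
  exact ⟨i, fun k => hS (hi k) (hj k)⟩

theorem le_up {K : AEC L} [(RL L).Structure M] [(RL L).Structure N] {f : M ↪[RL L] N}
    (h : ∃ (_ : L.Structure M) (_ : L.Structure N) (hM : Gr L M) (hN : Gr L N),
      K.le (embUp hM hN f)) [L.Structure M] [L.Structure N] (hM : Gr L M) (hN : Gr L N) :
    K.le (embUp hM hN f) := by
  obtain ⟨_, _, h1, h2, k⟩ := h
  obtain rfl := gr_uniq h1 hM
  obtain rfl := gr_uniq h2 hN
  exact k

/-- The class of codes. -/
def AEC.rel (K : AEC L) : AEC (RL L) where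
  mem M _ := ∃ _ : L.Structure M, Gr L M ∧ K.mem M
  le {M N} _ _ f := ∃ (_ : L.Structure M) (_ : L.Structure N) (hM : Gr L M) (hN : Gr L N),
    K.le (embUp hM hN f)
  le_mem := fun _ ⟨t, t', h, h', k⟩ => ⟨⟨t, h, (K.le_mem _ k).1⟩, ⟨t', h', (K.le_mem _ k).2⟩⟩
  iso := by
    rintro M N _ _ e ⟨t, h, k⟩
    let _ : L.Structure N := e.toEquiv.inducedStructure
    have h' : Gr L N := ⟨fun n R v => (e.symm.map_rel (Sum.inl R) v).symm.trans (h.1 n R _),
      fun n f v => (e.symm.map_rel (n := n + 1) (Sum.inr f) v).symm.trans ((h.2 n f _).trans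
        e.toEquiv.eq_symm_apply)⟩
    exact ⟨t, inferInstance, h, h', K.iso (eqvUp h h' e) k⟩
  trans := by
    rintro M N P _ _ _ f g ⟨t, t', h, h', k⟩ ⟨t₂, t₃, h₂, h₃, k'⟩
    obtain rfl := gr_uniq h' h₂
    exact ⟨t, t₃, h, h₃, K.trans _ _ k k'⟩
  coh := by
    rintro M N P _ _ _ f g ⟨t, t', h, h', k⟩ ⟨t₂, t₃, h₂, h₃, k'⟩
    obtain rfl := gr_uniq h' h₃
    exact ⟨t, t₂, h, h₂, K.coh (embUp h h₂ f) (embUp h₂ h' g) k k'⟩
  chain := by
    intro U I _ _ _ _ S hS hle hU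
    have : ∀ i, ∃ _ : L.Structure (S i), Gr L (S i) := fun i =>
      let ⟨t, _, h, _⟩ := hle i i le_rfl
      ⟨t, h⟩
    choose t g using this
    have k' : ∀ i j (h : i ≤ j), K.le (embUp (g i) (g j) (Substructure.inclusion (hS h))) :=
      fun i j h => le_up (hle i j h) _ _
    obtain ⟨_, hG⟩ := mkStr (L := L) (M := U) fun n f v => by
      obtain ⟨i, hi⟩ := exists_ub (S := fun i => (S i : Set U)) hS fun k => hU (v k)
      refine ⟨(funMap f fun k => (⟨v k, hi k⟩ : S i)).1, fun w hw => ?_⟩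
      obtain ⟨j, hj⟩ := exists_ub (S := fun i => (S i : Set U)) hS fun k => hU (w k)
      have hj' : ∀ k, w k ∈ S (max i j) := fun k => hS (le_max_right i j) (hj k)
      refine ((g _).2 n f fun k => ⟨w k, hj' k⟩).trans (Subtype.ext_iff.trans ?_)
      have := (embUp (g i) (g _) (Substructure.inclusion (hS (le_max_left i j)))).map_fun f
        fun k => ⟨v k, hi k⟩
      subst hw
      exact iff_of_eq (congrArg (· = _) (congrArg Subtype.val this).symm)
    have key := K.chain (fun i => subUp hG (S i) (g i)) (fun i j h => hS h)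
      (fun i j h => le_congr (subEqv hG _ (g i)) (subEqv hG _ (g j)) _ _ (fun _ => rfl) (k' i j h))
      hU
    exact ⟨⟨_, hG, key.1⟩, fun i => ⟨_, _, g i, hG, le_congr (subEqv hG _ (g i)).symm
      (Language.Equiv.refl L U) _ _ (fun _ => rfl) (key.2 i)⟩⟩
  smooth := by
    intro N I _ _ _ _ S hS _ hle U hU
    have : ∀ i, ∃ _ : L.Structure (S i), Gr L (S i) := fun i =>
      let ⟨t, _, h, _⟩ := hle i
      ⟨t, h⟩
    choose t ht using this
    obtain ⟨-, _, -, hG, -⟩ := hle (Classical.arbitrary I)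
    have k' : ∀ i, K.le (subUp hG (S i) (ht i)).subtype := fun i =>
      le_congr (subEqv hG _ (ht i)) (Language.Equiv.refl L N) _ _ (fun _ => rfl)
        (le_up (hle i) (ht i) hG)
    let U' : L.Substructure N := ⟨U, fun f v hv => by
      obtain ⟨i, hi⟩ := exists_ub (S := fun i => (S i : Set N)) hS fun k => (hU _).1 (hv k)
      exact (hU _).2 ⟨i, (subUp hG (S i) (ht i)).fun_mem f v hi⟩⟩
    exact ⟨inferInstanceAs (L.Structure U'), _, gr_sub hG U', hG, K.smooth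
      (fun i => subUp hG (S i) (ht i)) (fun i j h => hS h)
      (fun i j h => K.coh _ (subUp hG (S j) (ht j)).subtype (k' i) (k' j)) k' U' hU⟩

variable {K : AEC L} {l k : Cardinal.{u}}

theorem rel_ls (hK : K.LSle l) : K.rel.LSle l := by
  refine ⟨hK.1, rl_card.trans hK.2.1, ?_⟩
  rintro M _ ⟨t, h, hM⟩ A
  obtain ⟨S, h1, h2, h3⟩ := hK.2.2 M hM A
  exact ⟨sub (RL L) (S : Set M), ⟨inferInstanceAs (L.Structure S), t, gr_sub h S, h, h1⟩, h2, h3⟩

theorem rel_cat : K.rel.Cat k ↔ K.Cat k := by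
  constructor
  · rintro ⟨⟨M, _, ⟨t, -, hM⟩, hc⟩, h⟩
    refine ⟨⟨M, t, hM, hc⟩, fun M N _ _ hM hN hc hc' => ?_⟩
    let _ := relS L M
    let _ := relS L N
    exact (h M N ⟨_, gr_relS M, hM⟩ ⟨_, gr_relS N, hN⟩ hc hc').map (eqvUp (gr_relS M) (gr_relS N))
  · rintro ⟨⟨M, _, hM, hc⟩, h⟩
    refine ⟨⟨M, relS L M, ⟨_, gr_relS M, hM⟩, hc⟩, ?_⟩
    rintro M N _ _ ⟨_, g, hM⟩ ⟨_, g', hN⟩ hc hc'
    exact (h M N hM hN hc hc').map (eqvDown g g')

theorem glue_str {U : Type u} [(RL L).Structure U] {S₁ S₂ : (RL L).Substructure U}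
    [L.Structure S₁] [L.Structure S₂] (g₁ : Gr L S₁) (g₂ : Gr L S₂)
    (hc : ∀ n (_ : L.Functions n) (v : Fin n → U), (∀ k, v k ∈ S₁) ∨ ∀ k, v k ∈ S₂)
    (ha : ∀ n (f : L.Functions n) (v : Fin n → U) (h₁ : ∀ k, v k ∈ S₁) (h₂ : ∀ k, v k ∈ S₂),
      (funMap f fun k => (⟨v k, h₁ k⟩ : S₁)).1 = (funMap f fun k => (⟨v k, h₂ k⟩ : S₂)).1)
    (hR : ∀ (n : ℕ) (R : (RL L).Relations n) (v : Fin n → U), RelMap R v →
      (∀ k, v k ∈ S₁) ∨ (∀ k, v k ∈ S₂)) : ∃ _ : L.Structure U, Gr L U := by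
  have key : ∀ (S : (RL L).Substructure U) [L.Structure S], Gr L S → ∀ n (f : L.Functions n)
      (w : Fin (n + 1) → U) (h : ∀ k, w k ∈ S), RelMap (L := RL L) (n := n + 1) (Sum.inr f) w ↔
        (funMap f fun k => (⟨Fin.init w k, h _⟩ : S)).1 = w (Fin.last n) :=
    fun S _ g n f w h => (g.2 n f fun k => ⟨w k, h k⟩).trans Subtype.ext_iff
  have mem : ∀ (S : (RL L).Substructure U) n (w : Fin (n + 1) → U), (∀ k, Fin.init w k ∈ S) →
      w (Fin.last n) ∈ S → ∀ k, w k ∈ S := fun S n w h1 h2 k => by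
    induction k using Fin.lastCases
    exacts [h2, h1 _]
  refine mkStr fun n f v => ?_
  rcases hc n f v with h | h
  · refine ⟨(funMap f fun k => (⟨v k, h k⟩ : S₁)).1, ?_⟩
    rintro w rfl
    refine ⟨fun hw => ?_, fun hw => (key S₁ g₁ n f w (mem _ _ _ h (hw ▸ Subtype.prop _))).2 hw⟩
    rcases hR _ _ _ hw with h' | h'
    · exact (key S₁ g₁ n f w h').1 hw
    · exact (ha n f _ h fun k => h' _).trans ((key S₂ g₂ n f w h').1 hw)
  · refine ⟨(funMap f fun k => (⟨v k, h k⟩ : S₂)).1, ?_⟩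
    rintro w rfl
    refine ⟨fun hw => ?_, fun hw => (key S₂ g₂ n f w (mem _ _ _ h (hw ▸ Subtype.prop _))).2 hw⟩
    rcases hR _ _ _ hw with h' | h'
    · exact (ha n f _ (fun k => h' _) h).symm.trans ((key S₁ g₁ n f w h').1 hw)
    · exact (key S₂ g₂ n f w h').1 hw

theorem un_cover {U : Type u} {S₁ S₂ : Set U} (hc : ∀ x, x ∈ S₁ ∨ x ∈ S₂) {n : ℕ} (hn : n ≤ 1)
    (v : Fin n → U) : (∀ k, v k ∈ S₁) ∨ ∀ k, v k ∈ S₂ := by
  obtain rfl | rfl : n = 0 ∨ n = 1 := by omega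
  · exact Or.inl fun k => k.elim0
  · exact (hc (v 0)).imp (fun h k => Subsingleton.elim 0 k ▸ h) fun h k => Subsingleton.elim 0 k ▸ h

theorem rel_disj (hL : ∀ n, L.Functions n → n = 1) (hK : K.DisjCl) : K.rel.DisjCl := by
  rintro U _ S₁ S₂ ⟨_, g₁, m₁⟩ ⟨_, g₂, m₂⟩ hd hc hR
  obtain ⟨_, hG⟩ := glue_str g₁ g₂ (fun n f v => un_cover hc (hL n f).le v) (fun n f v h₁ h₂ => by
    obtain rfl := hL n f
    exact absurd (h₂ 0) (hd _ (h₁ 0))) hR
  exact ⟨_, _, g₁, hG, le_congr (subEqv hG _ g₁).symm (Language.Equiv.refl L U) _ _ (fun _ => rfl)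
    (hK U (subUp hG _ g₁) (subUp hG _ g₂) (K.le_mem _ (K.iso (subEqv hG _ g₁) m₁)).2
      (K.le_mem _ (K.iso (subEqv hG _ g₂) m₂)).2 hd hc
      fun n R v hv => hR n (Sum.inl R) v ((hG.1 n R v).2 hv))⟩

theorem rel_free (hL : ∀ n, L.Functions n → n ≤ 1) (hK : K.FreeAP) : K.rel.FreeAP := by
  rintro U _ S₀ S₁ S₂ h₁ h₂ ⟨_, _, g₀, g₁, m₁⟩ ⟨_, _, g₀', g₂, m₂⟩ hi hc hR
  obtain rfl := gr_uniq g₀ g₀'
  obtain ⟨_, hG⟩ := glue_str g₁ g₂ (fun n f v => un_cover hc (hL n f) v) (fun n f v k₁ k₂ => by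
    have k₀ : ∀ k, v k ∈ S₀ := fun k => hi.le ⟨k₁ k, k₂ k⟩
    exact (congrArg Subtype.val ((embUp g₀ g₁ (Substructure.inclusion h₁)).map_fun f
      fun k => ⟨v k, k₀ k⟩)).symm.trans (congrArg Subtype.val
        ((embUp g₀ g₂ (Substructure.inclusion h₂)).map_fun f fun k => ⟨v k, k₀ k⟩))) hR
  exact ⟨_, _, g₁, hG, le_congr (subEqv hG _ g₁).symm (Language.Equiv.refl L U) _ _ (fun _ => rfl)
    (hK U (subUp hG _ g₀) (subUp hG _ g₁) (subUp hG _ g₂) h₁ h₂
      (le_congr (subEqv hG _ g₀) (subEqv hG _ g₁) _ _ (fun _ => rfl) m₁)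
      (le_congr (subEqv hG _ g₀) (subEqv hG _ g₂) _ _ (fun _ => rfl) m₂)
      (Substructure.ext fun x => SetLike.ext_iff.1 hi x) hc
      fun n R v hv => hR n (Sum.inl R) v ((hG.1 n R v).2 hv))⟩

end Vale.Agent.P307S
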