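import Vale.Agent.P307.SComp

/-! P307: closed unbounded families of small sets. -/

open Cardinal hiding univ
open FirstOrder FirstOrder.Language Set

universe u

namespace Vale.Agent.P307S

/-- Cofinal among sets of size at most `σ` and closed under unions of sequences. -/
def Club {α : Type u} (σ : Cardinal.{u}) (𝒞 : Set (Set α)) : Prop :=
  (∀ Y : Set α, #Y ≤ σ → ∃ Y' ∈ 𝒞, Y ⊆ Y' ∧ #Y' ≤ σ) ∧
  ∀ s : ℕ → Set α, Monotone s → (∀ n, s n ∈ 𝒞) → (⋃ n, s n) ∈ 𝒞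

section
variable {α I P : Type u} {σ : Cardinal.{u}}

theorem inter_seq {s a : ℕ → Set α} (h1 : ∀ n, s n ⊆ a n) (h2 : ∀ n, a n ⊆ s (n + 1)) :
    Monotone a ∧ ⋃ n, s n = ⋃ n, a n :=
  ⟨monotone_nat_of_le_succ fun n => (h2 n).trans (h1 (n + 1)), Subset.antisymm (iUnion_mono h1)
    (iUnion_subset fun n => (h2 n).trans (subset_iUnion s (n + 1)))⟩

theorem Club.inter (hσ : ℵ₀ ≤ σ) {𝒞 𝒟 : Set (Set α)} (h : Club σ 𝒞) (h' : Club σ 𝒟) :
    Club σ (𝒞 ∩ 𝒟) := by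
  refine ⟨fun Y hY => ?_, fun s hs hm => ⟨h.2 s hs fun n => (hm n).1, h'.2 s hs fun n => (hm n).2⟩⟩
  obtain ⟨s, h0, -, hs, hU⟩ := exists_seq hσ (fun _ => True)
    (fun Y Y' : Set α => ∃ a ∈ 𝒞, ∃ b ∈ 𝒟, Y ⊆ a ∧ a ⊆ Y' ∧ Y ⊆ b ∧ b ⊆ Y') (fun Y _ hY => by
      obtain ⟨a, ha, h1, h2⟩ := h.1 Y hY
      obtain ⟨b, hb, h3, h4⟩ := h'.1 Y hY
      exact ⟨a ∪ b, trivial, (mk_union_le _ _).trans (add_le_of_le hσ h2 h4),
        h1.trans subset_union_left, a, ha, b, hb, h1, subset_union_left, h3, subset_union_right⟩)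
    Y trivial hY
  choose a ha b hb h1 h2 h3 h4 using fun n => (hs n).2
  refine ⟨⋃ n, s n, ⟨?_, ?_⟩, h0 ▸ subset_iUnion s 0, hU⟩
  · rw [(inter_seq h1 h2).2]; exact h.2 a (inter_seq h1 h2).1 ha
  · rw [(inter_seq h3 h4).2]; exact h'.2 b (inter_seq h3 h4).1 hb

theorem club_sub (hσ : ℵ₀ ≤ σ) {G G' : Set I → Set P} (hG : Pcs G) (hG' : Pcs G')
    (hc : ∀ a : Set I, #a ≤ σ → #(G a) ≤ σ) (h : G univ ⊆ G' univ) : Club σ {a | G a ⊆ G' a} := by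
  refine ⟨fun Y hY => ?_, fun s _ hm => ?_⟩
  · obtain ⟨s, h0, -, hs, hU⟩ := exists_seq hσ (fun _ => True)
      (fun Y Y' : Set I => G Y ⊆ G' Y') (fun Y _ hY => by
        obtain ⟨a, -, h1, h2⟩ := hG'.supp ((hG.mono (subset_univ Y)).trans h)
        exact ⟨Y ∪ a, trivial, (mk_union_le _ _).trans (add_le_of_le hσ hY (h1.trans (hc Y hY))),
          subset_union_left, h2.trans (hG'.mono subset_union_right)⟩)
      Y trivial hY
    refine ⟨⋃ n, s n, ?_, h0 ▸ subset_iUnion s 0, hU⟩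
    show G _ ⊆ G' _
    rw [hG.iUnion]
    exact iUnion_subset fun n => (hs n).2.trans (hG'.mono (subset_iUnion s (n + 1)))
  · show G _ ⊆ G' _
    rw [hG.iUnion, hG'.iUnion]
    exact iUnion_mono hm

theorem Pcs.image {P' : Type u} {G : Set I → Set P} (hG : Pcs G) (φ : P → P') :
    Pcs fun a => φ '' G a := by
  intro a x
  constructor
  · rintro ⟨y, hy, rfl⟩
    rcases (hG a y).1 hy with h | ⟨j, hj, h⟩
    · exact Or.inl ⟨y, h, rfl⟩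
    · exact Or.inr ⟨j, hj, y, h, rfl⟩
  · rintro (⟨y, h, rfl⟩ | ⟨j, hj, y, h, rfl⟩)
    · exact ⟨y, (hG a y).2 (Or.inl h), rfl⟩
    · exact ⟨y, (hG a y).2 (Or.inr ⟨j, hj, h⟩), rfl⟩

theorem sel {T : Type u} (c : I → T) (hσ : ℵ₀ ≤ σ) (hT : #(range c) ≤ σ) {τ : Cardinal.{u}}
    (hτ : τ ≤ σ) (E : Set I) : ∃ Y, Y ⊆ E ∧ #Y ≤ σ ∧ ∀ C, τ ≤ mu c E C → τ ≤ mu c Y C := by
  have key : ∀ C, ∃ Y : Set I, Y ⊆ {i | i ∈ E ∧ c i = C} ∧ #Y ≤ σ ∧ (τ ≤ mu c E C → τ ≤ #Y) := by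
    intro C
    by_cases h : τ ≤ mu c E C
    · obtain ⟨p, hp, hc⟩ := le_mk_iff_exists_subset.1 h
      exact ⟨p, hp, hc.le.trans hτ, fun _ => hc.ge⟩
    · exact ⟨∅, empty_subset _, by simp, fun h' => absurd h' h⟩
  choose Y h1 h2 h3 using key
  refine ⟨⋃ C : range c, Y C, iUnion_subset fun C i hi => (h1 _ hi).1,
    (mk_iUnion_le _).trans (mul_le_of_le hσ hT (ciSup_le' fun C => h2 _)), fun C hC => ?_⟩
  exact (h3 C hC).trans (mk_le_mk_of_subset fun i hi =>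
    ⟨mem_iUnion.2 ⟨⟨C, i, (h1 _ hi).2⟩, hi⟩, (h1 _ hi).2⟩)

theorem few {T : Type u} (c : I → T) (hσ : ℵ₀ ≤ σ) (hT : #(range c) ≤ σ) :
    #{i | mu c univ (c i) ≤ σ} ≤ σ := by
  have h : {i | mu c univ (c i) ≤ σ} ⊆ ⋃ C : range c, {i | c i = C ∧ mu c univ C ≤ σ} :=
    fun i hi => mem_iUnion.2 ⟨⟨c i, mem_range_self i⟩, rfl, hi⟩
  refine (mk_le_mk_of_subset h).trans ((mk_iUnion_le _).trans
    (mul_le_of_le hσ hT (ciSup_le' fun C => ?_)))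
  by_cases hC : mu c univ C ≤ σ
  · exact (mk_le_mk_of_subset (t := {i | i ∈ univ ∧ c i = C}) fun i hi => ⟨trivial, hi.1⟩).trans hC
  · simp [hC]

theorem exists_notMem {E Y : Set α} (h : #Y < #E) : ∃ x ∈ E, x ∉ Y := by
  by_contra hn
  exact h.not_ge (mk_le_mk_of_subset fun x hx => by_contra fun h' => hn ⟨x, hx, h'⟩)

theorem mk_fp_le {S : Type u} {s t : Set P} {a : Set S} (hσ : ℵ₀ ≤ σ) (hs : s ⊆ t) (ht : #t ≤ σ)
    (ha : #a ≤ σ) : #(FP s t a) ≤ σ :=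
  mk_xs_le hσ ((mk_le_mk_of_subset hs).trans ht) ha fun _ =>
    (mk_le_mk_of_subset sdiff_subset).trans ht

end

variable {L : FirstOrder.Language.{u, u}} [L.IsRelational] {K : AEC L}
variable {P P' I : Type u} [L.Structure P] [L.Structure P']

theorem club_le {l σ : Cardinal.{u}} (hK : K.LSle l) (hl : l ≤ σ) {F : Set I → Set P} (hF : Pcs F)
    (hc : ∀ a : Set I, #a ≤ σ → #(F a) ≤ σ) {Z : Set I} (hZ : Le K (F Z) (F Z)) :
    Club σ {Y | Le K (F (Y ∩ Z)) (F Z)} := by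
  refine ⟨fun Y hY => ?_, fun s hs hm => ?_⟩
  · obtain ⟨Z₀, h1, h2, h3, h4⟩ := pcs_ls hK hl hF hc hZ (inter_subset_right (s := Y))
      ((mk_le_mk_of_subset inter_subset_left).trans hY)
    refine ⟨Y ∪ Z₀, ?_, subset_union_left,
      (mk_union_le _ _).trans (add_le_of_le (hK.1.trans hl) hY h3)⟩
    have e : (Y ∪ Z₀) ∩ Z = Z₀ := Subset.antisymm
      (fun x hx => hx.1.elim (fun h => h1 ⟨h, hx.2⟩) id) fun x hx => ⟨Or.inr hx, h2 hx⟩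
    show Le K (F (_ ∩ Z)) _
    rwa [e]
  · show Le K (F (_ ∩ Z)) _
    rw [iUnion_inter, hF.iUnion]
    exact smooth_le _ (fun i j => (le_total i j).imp
      (fun h => hF.mono (inter_subset_inter_left _ (hs h)))
      fun h => hF.mono (inter_subset_inter_left _ (hs h))) hm

theorem cat_piso [Nonempty P'] {k : Cardinal.{u}} (h : K.Cat k) {t : Set P} {t' : Set P'}
    (ht : Le K t t) (ht' : Le K t' t') (hc : #t = k) (hc' : #t' = k) : ∃ g, PIso L g t t' := by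
  obtain ⟨e⟩ := h.2 _ _ (le_self_iff.1 ht) (le_self_iff.1 ht') hc hc'
  exact exists_piso e

end Vale.Agent.P307S
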