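import Vale.Agent.P307.MDefs
import Vale.Agent.P307.SClub

/-! P307: strong inclusions between submodules. -/

open Cardinal hiding univ
open Set

universe u

namespace Vale.Agent.P307S

variable {R : Type u} [Ring R] (K : MAEC R)

/-- `s` is a strong submodule of `t`. -/
def MLe {M : Type u} [AddCommGroup M] [Module R M] (s t : Submodule R M) : Prop :=
  ∃ h : s ≤ t, K.le (Submodule.inclusion h)

variable {K}
variable {M M' : Type u} [AddCommGroup M] [Module R M] [AddCommGroup M'] [Module R M']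

theorem mle_congr {N N' : Type u} [AddCommGroup N] [Module R N] [AddCommGroup N'] [Module R N']
    (es : M ≃ₗ[R] M') (et : N ≃ₗ[R] N') (f : M →ₗ[R] N) (f' : M' →ₗ[R] N')
    (h : ∀ x, f' (es x) = et (f x)) (hf : K.le f) : K.le f' := by
  have hM' : K.mem M' := (K.le_mem _ (K.iso es (K.le_mem f hf).2.1)).2.2
  have e : f' = (et.toLinearMap.comp f).comp es.symm.toLinearMap := by
    ext y
    have := h (es.symm y)
    simpa using this
  rw [e]
  exact K.trans _ _ (K.iso _ hM') (K.trans _ _ hf (K.iso _ (K.le_mem f hf).2.2))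

theorem MLe.sub {s t : Submodule R M} (h : MLe K s t) : s ≤ t := h.1

theorem MLe.trans {s t w : Submodule R M} (h : MLe K s t) (h' : MLe K t w) : MLe K s w :=
  ⟨h.1.trans h'.1, K.trans _ _ h.2 h'.2⟩

theorem MLe.coh {s t w : Submodule R M} (h : MLe K s w) (h' : MLe K t w) (hst : s ≤ t) :
    MLe K s t := ⟨hst, K.coh _ (Submodule.inclusion h'.1) h.2 h'.2⟩

theorem mle_self_iff {s : Submodule R M} : MLe K s s ↔ K.mem s :=
  ⟨fun h => (K.le_mem _ h.2).2.1, fun h => ⟨le_rfl, K.iso (LinearEquiv.refl R _) h⟩⟩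

theorem MLe.left {s t : Submodule R M} (h : MLe K s t) : MLe K s s :=
  mle_self_iff.2 (K.le_mem _ h.2).2.1

theorem MLe.right {s t : Submodule R M} (h : MLe K s t) : MLe K t t :=
  mle_self_iff.2 (K.le_mem _ h.2).2.2

theorem mem_congr (e : M ≃ₗ[R] M') (h : K.mem M) : K.mem M' := (K.le_mem _ (K.iso e h)).2.2

theorem mle_top_iff {s : Submodule R M} : MLe K s ⊤ ↔ K.le s.subtype :=
  ⟨fun h => mle_congr (LinearEquiv.refl R _) Submodule.topEquiv _ _ (fun _ => rfl) h.2,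
    fun h => ⟨le_top, mle_congr (LinearEquiv.refl R _) Submodule.topEquiv.symm _ _
      (fun _ => rfl) h⟩⟩

theorem mle_pre {w s t : Submodule R M} (hs : s ≤ t) (ht : t ≤ w) :
    MLe K (s.comap w.subtype) (t.comap w.subtype) ↔ MLe K s t :=
  ⟨fun h => ⟨hs, mle_congr (Submodule.comapSubtypeEquivOfLe (hs.trans ht))
      (Submodule.comapSubtypeEquivOfLe ht) _ _ (fun _ => rfl) h.2⟩,
    fun h => ⟨Submodule.comap_mono hs, mle_congr (Submodule.comapSubtypeEquivOfLe (hs.trans ht)).symm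
      (Submodule.comapSubtypeEquivOfLe ht).symm _ _ (fun _ => rfl) h.2⟩⟩

theorem mle_sub_iff {w s : Submodule R M} (hs : s ≤ w) :
    K.le (s.comap w.subtype).subtype ↔ MLe K s w := by
  rw [← mle_top_iff, ← Submodule.comap_subtype_self, mle_pre hs le_rfl]

theorem exists_wo' {ι : Sort*} [Nonempty ι] (F : ι → Submodule R M)
    (hF : ∀ i j, F i ≤ F j ∨ F j ≤ F i) :
    ∃ (I : Type u) (_ : LinearOrder I) (_ : WellFoundedLT I) (_ : Nonempty I) (S : I → ι),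
      Monotone (fun a => F (S a)) ∧ ∀ i, ∃ a, F i ≤ F (S a) := by
  obtain ⟨I, _, _, _, S, hS, hSc, hcof⟩ := exists_wo (range fun i => (F i : Set M))
    (range_nonempty _) (by
      rintro _ ⟨i, rfl⟩ _ ⟨j, rfl⟩ -
      exact hF i j)
  choose j hj using hSc
  refine ⟨I, inferInstance, inferInstance, inferInstance, j, fun a b h => ?_, fun i => ?_⟩
  · have := hS h
    rw [← hj a, ← hj b] at this
    exact this
  · obtain ⟨a, ha⟩ := hcof _ ⟨i, rfl⟩
    rw [← hj a] at ha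
    exact ⟨a, ha⟩

theorem mchain_le {ι : Sort*} [Nonempty ι] (F : ι → Submodule R M)
    (hF : ∀ i j, MLe K (F i) (F j) ∨ MLe K (F j) (F i)) {U : Submodule R M}
    (hU : ∀ x, x ∈ U ↔ ∃ i, x ∈ F i) (i : ι) : MLe K (F i) U := by
  have hle : ∀ i j, F i ≤ F j → MLe K (F i) (F j) := by
    intro i j h
    rcases hF i j with h' | h'
    · exact h'
    · rw [← h.antisymm h'.sub]
      exact h'.right
  obtain ⟨I, _, _, _, S, hS, hcof⟩ := exists_wo' F fun i j => (hF i j).imp MLe.sub MLe.sub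
  have hU' : ∀ j, F j ≤ U := fun j x hx => (hU x).2 ⟨j, hx⟩
  have key := (K.chain (U := U) (fun a => (F (S a)).comap U.subtype)
    (fun a b h => Submodule.comap_mono (hS h))
    (fun a b h => ((mle_pre (hS h) (hU' _)).2 (hle _ _ (hS h))).2)
    (fun x => by
      obtain ⟨j, hj⟩ := (hU x).1 x.2
      obtain ⟨a, ha⟩ := hcof j
      exact ⟨a, ha hj⟩)).2
  obtain ⟨a, ha⟩ := hcof i
  exact (hle _ _ ha).trans ((mle_sub_iff (hU' _)).1 (key a))

theorem msmooth_le {ι : Sort*} [Nonempty ι] (F : ι → Submodule R M) {w : Submodule R M}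
    (hF : ∀ i j, F i ≤ F j ∨ F j ≤ F i) (hw : ∀ i, MLe K (F i) w) {U : Submodule R M}
    (hU : ∀ x, x ∈ U ↔ ∃ i, x ∈ F i) : MLe K U w := by
  obtain ⟨I, _, _, _, S, hS, hcof⟩ := exists_wo' F hF
  have hUw : U ≤ w := fun x hx => by
    obtain ⟨i, hi⟩ := (hU x).1 hx
    exact (hw i).sub hi
  refine (mle_sub_iff hUw).1 (K.smooth (N := w) (fun a => (F (S a)).comap w.subtype)
    (fun a b h => Submodule.comap_mono (hS h))
    (fun a b h => ((mle_pre (hS h) (hw _).sub).2 ((hw _).coh (hw _) (hS h))).2)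
    (fun a => (mle_sub_iff (hw _).sub).2 (hw _)) _ fun x => ⟨fun hx => ?_, ?_⟩)
  · obtain ⟨j, hj⟩ := (hU x).1 hx
    obtain ⟨a, ha⟩ := hcof j
    exact ⟨a, ha hj⟩
  · rintro ⟨a, ha⟩
    exact (hU x).2 ⟨_, ha⟩

theorem mls_le {l : Cardinal.{u}} (hK : K.LSle l) {t : Submodule R M} {A : Set M} (ht : MLe K t t)
    (hA : A ⊆ t) {σ : Cardinal.{u}} (hl : l ≤ σ) (hσ : #A ≤ σ) :
    ∃ s : Submodule R M, A ⊆ s ∧ MLe K s t ∧ #s ≤ σ := by
  obtain ⟨S, hS, hAS, hc⟩ := hK.2.2 t (mle_self_iff.1 ht) (Subtype.val ⁻¹' A)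
  refine ⟨S.map t.subtype, fun x hx => ⟨⟨x, hA hx⟩, hAS hx, rfl⟩, ?_, ?_⟩
  · rw [← mle_sub_iff (Submodule.map_subtype_le t S),
      Submodule.comap_map_eq_of_injective t.injective_subtype]
    exact hS
  · refine (mk_image_le (f := t.subtype) (s := S)).trans
      (hc.trans (add_le_of_le (hK.1.trans hl) ?_ hl))
    exact (mk_preimage_of_injective _ _ Subtype.val_injective).trans hσ

/-- Monotone families of finite character. -/
def Fy {J M : Type u} (F : Set J → Set M) : Prop :=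
  Monotone F ∧ ∀ a x, x ∈ F a → ∃ b, b ⊆ a ∧ b.Finite ∧ x ∈ F b

section
variable {J I P : Type u} {F : Set J → Set P}

theorem Pcs.fy (h : Pcs F) : Fy F := by
  refine ⟨fun _ _ => h.mono, fun a x hx => ?_⟩
  rcases (h a x).1 hx with h1 | ⟨j, hj, h1⟩
  · exact ⟨∅, empty_subset _, finite_empty, h1⟩
  · exact ⟨{j}, singleton_subset_iff.2 hj, finite_singleton j, h1⟩

theorem Fy.fin (hF : Fy F) {a : Set J} {s : Set P} (hs : s.Finite) (h : s ⊆ F a) :
    ∃ b, b ⊆ a ∧ b.Finite ∧ s ⊆ F b := by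
  choose! b h1 h2 h3 using fun x (hx : x ∈ s) => hF.2 a x (h hx)
  exact ⟨⋃ x ∈ s, b x, iUnion₂_subset h1, hs.biUnion h2,
    fun x hx => hF.1 (subset_biUnion_of_mem (u := b) hx) (h3 x hx)⟩

theorem Fy.comp {G : Set I → Set J} (hF : Fy F) (hG : Fy G) : Fy fun a => F (G a) := by
  refine ⟨hF.1.comp hG.1, fun a x hx => ?_⟩
  obtain ⟨b, h1, h2, h3⟩ := hF.2 _ x hx
  obtain ⟨c, h4, h5, h6⟩ := hG.fin h2 h1
  exact ⟨c, h4, h5, hF.1 h6 h3⟩

theorem Fy.iUnion (hF : Fy F) {ι : Sort*} [Nonempty ι] (a : ι → Set J)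
    (ha : ∀ i j, a i ⊆ a j ∨ a j ⊆ a i) (x : P) : x ∈ F (⋃ i, a i) ↔ ∃ i, x ∈ F (a i) := by
  refine ⟨fun hx => ?_, fun ⟨i, hi⟩ => hF.1 (subset_iUnion a i) hi⟩
  obtain ⟨b, h1, h2, h3⟩ := hF.2 _ x hx
  have hd : Directed (· ⊆ ·) a := fun i j => (ha i j).elim (fun h => ⟨j, h, subset_rfl⟩)
    fun h => ⟨i, subset_rfl, h⟩
  obtain ⟨i, hi⟩ : ∃ i, b ⊆ a i := by
    clear h3
    induction b, h2 using Set.Finite.induction_on with
    | empty => exact ⟨Classical.arbitrary ι, empty_subset _⟩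
    | insert _ _ ih =>
      obtain ⟨i, hi⟩ := ih ((subset_insert _ _).trans h1)
      obtain ⟨j, hj⟩ := mem_iUnion.1 (h1 (mem_insert _ _))
      obtain ⟨k, h4, h5⟩ := hd i j
      exact ⟨k, insert_subset (h5 hj) (hi.trans h4)⟩
  exact ⟨i, hF.1 hi h3⟩

theorem Fy.supp (hF : Fy F) {b : Set J} {s : Set P} (hs : s ⊆ F b) {σ : Cardinal.{u}}
    (hσ : ℵ₀ ≤ σ) (hc : #s ≤ σ) : ∃ a, a ⊆ b ∧ #a ≤ σ ∧ s ⊆ F a := by
  choose! c h1 h2 h3 using fun x (hx : x ∈ s) => hF.2 b x (hs hx)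
  exact ⟨⋃ x ∈ s, c x, iUnion₂_subset h1, (mk_biUnion_le _ _).trans (mul_le_of_le hσ hc
    (ciSup_le' fun x => (h2 x x.2).lt_aleph0.le.trans hσ)),
    fun x hx => hF.1 (subset_biUnion_of_mem (u := c) hx) (h3 x hx)⟩

theorem Fy.image {P' : Type u} (hF : Fy F) (φ : P → P') : Fy fun a => φ '' F a := by
  refine ⟨fun a b h => image_mono (hF.1 h), ?_⟩
  rintro a _ ⟨y, hy, rfl⟩
  obtain ⟨b, h1, h2, h3⟩ := hF.2 a y hy
  exact ⟨b, h1, h2, y, h3, rfl⟩

theorem mono_tot {s : ℕ → Set J} (h : Monotone s) (i j : ℕ) : s i ⊆ s j ∨ s j ⊆ s i :=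
  (le_total i j).imp (fun h' => h h') fun h' => h h'

theorem fclub_sub {σ : Cardinal.{u}} (hσ : ℵ₀ ≤ σ) {G G' : Set I → Set P} (hG : Fy G) (hG' : Fy G')
    (hc : ∀ a : Set I, #a ≤ σ → #(G a) ≤ σ) (h : G univ ⊆ G' univ) : Club σ {a | G a ⊆ G' a} := by
  refine ⟨fun Y hY => ?_, fun s hs hm x hx => ?_⟩
  · obtain ⟨s, h0, hm, hs, hU⟩ := exists_seq hσ (fun _ => True)
      (fun Y Y' : Set I => G Y ⊆ G' Y') (fun Y _ hY => by
        obtain ⟨a, -, h1, h2⟩ := hG'.supp ((hG.1 (subset_univ Y)).trans h) hσ (hc Y hY)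
        exact ⟨Y ∪ a, trivial, (mk_union_le _ _).trans (add_le_of_le hσ hY h1),
          subset_union_left, h2.trans (hG'.1 subset_union_right)⟩)
      Y trivial hY
    refine ⟨⋃ n, s n, fun x hx => ?_, h0 ▸ subset_iUnion s 0, hU⟩
    obtain ⟨n, hn⟩ := (hG.iUnion s (mono_tot hm) x).1 hx
    exact hG'.1 (subset_iUnion s (n + 1)) ((hs n).2 hn)
  · obtain ⟨n, hn⟩ := (hG.iUnion s (mono_tot hs) x).1 hx
    exact hG'.1 (subset_iUnion s n) (hm n hn)

end

variable {J : Type u} {F : Set J → Submodule R M}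

theorem mzorn_le (hF : Fy fun a => (F a : Set M)) {a b : Set J} (hab : a ⊆ b)
    (h0 : MLe K (F a) (F a))
    (h : ∀ c, a ⊆ c → c ⊆ b → MLe K (F a) (F c) → ∀ j ∈ b, j ∉ c →
      MLe K (F c) (F (insert j c))) :
    MLe K (F a) (F b) := by
  let P := {c : Set J // a ⊆ c ∧ c ⊆ b ∧ MLe K (F a) (F c)}
  let r : P → P → Prop := fun c d => c.1 ⊆ d.1 ∧ MLe K (F c.1) (F d.1)
  have : Nonempty P := ⟨⟨a, subset_rfl, hab, h0⟩⟩
  obtain ⟨m, hm⟩ := exists_maximal_of_nonempty_chains_bounded (r := r) (fun c hc hne => by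
      have : Nonempty c := hne.to_subtype
      have ht : ∀ x y : c, r x y ∨ r y x := by
        intro x y
        by_cases hxy : x.1 = y.1
        · rw [hxy]; exact Or.inl ⟨subset_rfl, y.1.2.2.2.right⟩
        · exact hc x.2 y.2 hxy
      have hU : ∀ x : c, MLe K (F x.1.1) (F (⋃ y : c, y.1.1)) :=
        mchain_le (fun y : c => F y.1.1) (fun x y => (ht x y).imp And.right And.right)
          (hF.iUnion (fun y : c => y.1.1) fun x y => (ht x y).imp And.left And.left)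
      obtain ⟨x⟩ := this
      refine ⟨⟨⋃ y : c, y.1.1, x.1.2.1.trans (subset_iUnion (fun y : c => y.1.1) x),
        iUnion_subset fun y => y.1.2.2.1, x.1.2.2.2.trans (hU x)⟩, fun y hy => ?_⟩
      exact ⟨subset_iUnion (fun y : c => y.1.1) ⟨y, hy⟩, hU ⟨y, hy⟩⟩)
    (fun h1 h2 => ⟨h1.1.trans h2.1, h1.2.trans h2.2⟩)
  have e : m.1 = b := by
    refine Subset.antisymm m.2.2.1 fun j hj => ?_
    by_contra hjm
    have h1 := h m.1 m.2.1 m.2.2.1 m.2.2.2 j hj hjm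
    have h2 := hm ⟨insert j m.1, m.2.1.trans (subset_insert _ _), insert_subset hj m.2.2.1,
      m.2.2.2.trans h1⟩ ⟨subset_insert _ _, h1⟩
    exact hjm (h2.1 (mem_insert _ _))
  rw [← e]; exact m.2.2.2

theorem mpow_le (hF : Fy fun a => (F a : Set M)) {σ : Cardinal.{u}} (hσ : ℵ₀ ≤ σ)
    (h0 : MLe K (F ∅) (F ∅))
    (h : ∀ c : Set J, #c ≤ σ → ∀ j, j ∉ c → MLe K (F c) (F (insert j c))) (b : Set J) :
    ∀ a, a ⊆ b → MLe K (F a) (F b) := by
  have small : ∀ a b : Set J, a ⊆ b → #b ≤ σ → MLe K (F a) (F a) → MLe K (F a) (F b) :=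
    fun a b hab hb ha => mzorn_le hF hab ha fun c _ hcb _ j _ hj =>
      h c ((mk_le_mk_of_subset hcb).trans hb) j hj
  induction hk : #b using WellFoundedLT.induction generalizing b with
  | ind k ih =>
  intro a hab
  by_cases hb : #b ≤ σ
  · exact small a b hab hb (small ∅ a (empty_subset _)
      ((mk_le_mk_of_subset hab).trans hb) h0).right
  have hinf : ℵ₀ ≤ #b := hσ.trans (not_le.1 hb).le
  obtain ⟨_, _, ho⟩ := exists_ord_eq_type_lt b
  have : Nonempty b := mk_ne_zero_iff.1 (aleph0_pos.trans_le hinf).ne'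
  let B : b → Set J := fun i => Subtype.val '' Iic i
  have hB : ∀ i, #(B i) < k := fun i => hk ▸ mk_image_le.trans_lt (mk_Iic_lt i ho hinf)
  have hmono : ∀ i j, B i ⊆ B j ∨ B j ⊆ B i := fun i j =>
    (le_total i j).imp (fun h => image_mono (Iic_subset_Iic.2 h))
      fun h => image_mono (Iic_subset_Iic.2 h)
  have hU : ⋃ i, B i = b := by
    refine Subset.antisymm (iUnion_subset fun i => ?_) fun x hx =>
      mem_iUnion.2 ⟨⟨x, hx⟩, ⟨x, hx⟩, mem_Iic.2 le_rfl, rfl⟩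
    rintro _ ⟨y, -, rfl⟩; exact y.2
  have h1 : ∀ i, MLe K (F (B i)) (F b) := mchain_le (fun i => F (B i)) (fun i j => (hmono i j).imp
      (fun h => ih _ (hB j) _ rfl _ h) fun h => ih _ (hB i) _ rfl _ h)
      (by have := hF.iUnion B hmono; rwa [hU] at this)
  have hm2 : ∀ i j, a ∩ B i ⊆ a ∩ B j ∨ a ∩ B j ⊆ a ∩ B i := fun i j => (hmono i j).imp
    (inter_subset_inter_right _) (inter_subset_inter_right _)
  refine msmooth_le (fun i => F (a ∩ B i)) (fun i j => (hm2 i j).imp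
    (fun h => hF.1 h) fun h => hF.1 h)
    (fun i => (ih _ (hB i) _ rfl _ inter_subset_right).trans (h1 i)) ?_
  have := hF.iUnion _ hm2
  rwa [← inter_iUnion, hU, inter_eq_left.2 hab] at this

theorem fy_ls {l σ : Cardinal.{u}} (hK : K.LSle l) (hl : l ≤ σ) (hF : Fy fun a => (F a : Set M))
    (hc : ∀ a : Set J, #a ≤ σ → #(F a) ≤ σ) {Y Z : Set J} (hZ : MLe K (F Z) (F Z)) (hY : Y ⊆ Z)
    (hYc : #Y ≤ σ) : ∃ Z₀, Y ⊆ Z₀ ∧ Z₀ ⊆ Z ∧ #Z₀ ≤ σ ∧ MLe K (F Z₀) (F Z) := by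
  have hσ := hK.1.trans hl
  obtain ⟨s, h0, hm, hs, hU⟩ := exists_seq hσ (· ⊆ Z)
    (fun Y Y' => ∃ t, F Y ≤ t ∧ t ≤ F Y' ∧ MLe K t (F Z)) (fun Y hY hYc => by
      obtain ⟨t, h1, h2, h3⟩ := mls_le hK hZ (hF.1 hY) hl (hc Y hYc)
      obtain ⟨a, ha, hac, hta⟩ := hF.supp (s := t) h2.sub hσ h3
      exact ⟨Y ∪ a, union_subset hY ha, (mk_union_le _ _).trans (add_le_of_le hσ hYc hac),
        subset_union_left, t, h1, hta.trans (hF.1 subset_union_right), h2⟩)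
    Y hY hYc
  choose t h1 h2 h3 using fun n => (hs n).2
  refine ⟨⋃ n, s n, h0 ▸ subset_iUnion s 0, iUnion_subset fun n => (hs n).1, hU, ?_⟩
  have hmt : Monotone t := monotone_nat_of_le_succ fun n => (h2 n).trans (h1 (n + 1))
  refine msmooth_le t (fun i j => (le_total i j).imp (fun h => hmt h) fun h => hmt h) h3
    fun x => (hF.iUnion s (mono_tot hm) x).trans
      ⟨fun ⟨n, hn⟩ => ⟨n, h1 n hn⟩, fun ⟨n, hn⟩ => ⟨n + 1, h2 n hn⟩⟩

theorem fclub_le {l σ : Cardinal.{u}} (hK : K.LSle l) (hl : l ≤ σ) (hF : Fy fun a => (F a : Set M))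
    (hc : ∀ a : Set J, #a ≤ σ → #(F a) ≤ σ) {Z : Set J} (hZ : MLe K (F Z) (F Z)) :
    Club σ {Y | MLe K (F (Y ∩ Z)) (F Z)} := by
  refine ⟨fun Y hY => ?_, fun s hs hm => ?_⟩
  · obtain ⟨Z₀, h1, h2, h3, h4⟩ := fy_ls hK hl hF hc hZ (inter_subset_right (s := Y))
      ((mk_le_mk_of_subset inter_subset_left).trans hY)
    refine ⟨Y ∪ Z₀, ?_, subset_union_left,
      (mk_union_le _ _).trans (add_le_of_le (hK.1.trans hl) hY h3)⟩
    have e : (Y ∪ Z₀) ∩ Z = Z₀ := Subset.antisymm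
      (fun x hx => hx.1.elim (fun h => h1 ⟨h, hx.2⟩) id) fun x hx => ⟨Or.inr hx, h2 hx⟩
    show MLe K (F (_ ∩ Z)) _
    rwa [e]
  · show MLe K (F (_ ∩ Z)) _
    have h2 : Monotone fun n => s n ∩ Z := fun i j h => inter_subset_inter_left _ (hs h)
    rw [iUnion_inter]
    exact msmooth_le _ (fun i j => (mono_tot h2 i j).imp (fun h => hF.1 h) fun h => hF.1 h) hm
      (hF.iUnion _ (mono_tot h2))

end Vale.Agent.P307S
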