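import Vale.Agent.P307.SDefs

/-! P307: abstract elementary classes of modules. -/

open Cardinal Set

universe u

namespace Vale.Agent.P307S

/-- An abstract elementary class of `R`-modules: `mem M` says that `M` is in the class and `le f`
says that `f` is an isomorphism onto a strong submodule of the target. -/
structure MAEC (R : Type u) [Ring R] where
  mem : ∀ (M : Type u) [AddCommGroup M] [Module R M], Prop
  le : ∀ {M N : Type u} [AddCommGroup M] [Module R M] [AddCommGroup N] [Module R N],
    (M →ₗ[R] N) → Prop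
  le_mem : ∀ {M N : Type u} [AddCommGroup M] [Module R M] [AddCommGroup N] [Module R N]
    (f : M →ₗ[R] N), le f → Function.Injective f ∧ mem M ∧ mem N
  iso : ∀ {M N : Type u} [AddCommGroup M] [Module R M] [AddCommGroup N] [Module R N]
    (e : M ≃ₗ[R] N), mem M → le e.toLinearMap
  trans : ∀ {M N P : Type u} [AddCommGroup M] [Module R M] [AddCommGroup N] [Module R N]
    [AddCommGroup P] [Module R P] (f : M →ₗ[R] N) (g : N →ₗ[R] P), le f → le g → le (g.comp f)
  coh : ∀ {M N P : Type u} [AddCommGroup M] [Module R M] [AddCommGroup N] [Module R N]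
    [AddCommGroup P] [Module R P] (f : M →ₗ[R] N) (g : N →ₗ[R] P), le (g.comp f) → le g → le f
  chain : ∀ {U I : Type u} [AddCommGroup U] [Module R U] [LinearOrder I] [WellFoundedLT I]
    [Nonempty I] (S : I → Submodule R U) (hS : Monotone S),
    (∀ i j (h : i ≤ j), le (Submodule.inclusion (hS h))) → (∀ x : U, ∃ i, x ∈ S i) →
    mem U ∧ ∀ i, le (S i).subtype
  smooth : ∀ {N I : Type u} [AddCommGroup N] [Module R N] [LinearOrder I] [WellFoundedLT I]
    [Nonempty I] (S : I → Submodule R N) (hS : Monotone S),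
    (∀ i j (h : i ≤ j), le (Submodule.inclusion (hS h))) → (∀ i, le (S i).subtype) →
    ∀ U : Submodule R N, (∀ x : N, x ∈ U ↔ ∃ i, x ∈ S i) → le U.subtype

variable {R : Type u} [Ring R]

/-- The Loewenheim-Skolem number of `K` is at most `l`. -/
def MAEC.LSle (K : MAEC R) (l : Cardinal.{u}) : Prop :=
  ℵ₀ ≤ l ∧ #R ≤ l ∧ ∀ (M : Type u) [AddCommGroup M] [Module R M], K.mem M → ∀ A : Set M,
    ∃ S : Submodule R M, K.le S.subtype ∧ A ⊆ S ∧ #S ≤ #A + l

/-- `K` is categorical in `k`. -/
def MAEC.Cat (K : MAEC R) (k : Cardinal.{u}) : Prop :=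
  (∃ (M : Type u) (_ : AddCommGroup M) (_ : Module R M), K.mem M ∧ #M = k) ∧
  ∀ (M N : Type u) [AddCommGroup M] [Module R M] [AddCommGroup N] [Module R N],
    K.mem M → K.mem N → #M = k → #N = k → Nonempty (M ≃ₗ[R] N)

variable (R) in
/-- `M` is the internal direct sum of submodules of size at most `l`. -/
def SmallSum (l : Cardinal.{u}) (M : Type u) [AddCommGroup M] [Module R M] : Prop :=
  ∃ (I : Type u) (D : I → Submodule R M), iSupIndep D ∧ iSup D = ⊤ ∧ ∀ i, #(D i) ≤ l

/-- `K` is closed under direct sums, with summands strong. -/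
def MAEC.SumCl (K : MAEC R) : Prop :=
  ∀ (M N : Type u) [AddCommGroup M] [Module R M] [AddCommGroup N] [Module R N],
    K.mem M → K.mem N → K.le (LinearMap.inl R M N)

end Vale.Agent.P307S
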