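import Vale.Agent.P307.MMain

/-! P307: retracts of direct sums of small modules, and classes closed under direct sums. -/

open Cardinal hiding univ
open Set

universe u

namespace Vale.Agent.P307S

variable {R : Type u} [Ring R] {K : MAEC R}
variable {N P I : Type u} [AddCommGroup N] [Module R N] [AddCommGroup P] [Module R P]
  {l κ : Cardinal.{u}}

theorem indep_insert {s : Set (Submodule R N)} (hs : sSupIndep s) {a : Submodule R N}
    (ha : Disjoint a (sSup s)) : sSupIndep (insert a s) := by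
  intro x hx
  obtain rfl | xa := eq_or_ne x a
  · rw [insert_sdiff_of_mem _ (mem_singleton _)]
    exact ha.mono_right (sSup_le_sSup sdiff_subset)
  · have hx' := hx.resolve_left xa
    rw [insert_sdiff_of_notMem _ (fun h => xa (mem_singleton_iff.1 h).symm), sSup_insert, sup_comm]
    apply (hs hx').disjoint_sup_right_of_disjoint_sup_left (ha.mono_right _).symm
    rw [← sSup_insert, insert_sdiff_singleton, insert_eq_of_mem hx']

theorem kw (hl : ℵ₀ ≤ l) {c : I → Submodule R P} (hc : ∀ i, #(c i) ≤ l) (i : N →ₗ[R] XM c univ)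
    (s : XM c univ →ₗ[R] N) (h : ∀ y, s (i y) = y) : SmallSum R l N := by
  let F : Set I → Submodule R (XM c univ) := fun a => (XM c a).comap (XM c univ).subtype
  have hF : Fy fun a => (F a : Set (XM c univ)) :=
    ⟨fun a b h y hy => xm_mono h hy, fun a y hy => (xm_fy (c := c)).2 a y.1 hy⟩
  have hFc : ∀ a : Set I, #a ≤ l → #(F a) ≤ l := fun a ha => le_trans (mk_le_of_injective
    (f := fun y => (⟨y.1.1, y.2⟩ : XM c a)) fun x y h => Subtype.ext (Subtype.ext
      (congrArg Subtype.val h :))) (mk_xm_le hl ha hc)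
  have hU : ∀ a b, ∀ x ∈ F (a ∪ b), ∃ y ∈ F a, ∃ z ∈ F b, y + z = x := by
    intro a b x hx
    have hx' : x.1 ∈ XM c a ⊔ XM c b := xm_union (c := c) a b ▸ hx
    obtain ⟨y, hy, z, hz, e⟩ := Submodule.mem_sup.1 hx'
    exact ⟨⟨y, xm_mono (subset_univ _) hy⟩, hy, ⟨z, xm_mono (subset_univ _) hz⟩, hz, Subtype.ext e⟩
  have hC : ∀ a, IsCompl (F a) (F aᶜ) := fun a => ⟨Submodule.disjoint_def.2 fun x h1 h2 =>
    Subtype.ext (Submodule.disjoint_def.1 (xm_disj disjoint_compl_right) _ h1 h2),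
    codisjoint_iff.2 (eq_top_iff.2 fun x _ =>
      Submodule.mem_sup.2 (hU a aᶜ x (by rw [union_compl_self]; exact x.2)))⟩
  let Q : Set (Set I × Set (Submodule R N)) := {p | (∀ x ∈ F p.1, i (s x) ∈ F p.1) ∧
    sSupIndep p.2 ∧ (∀ C ∈ p.2, #C ≤ l) ∧ sSup p.2 = (F p.1).comap i}
  obtain ⟨⟨a, 𝒟⟩, -, ⟨hg, hi, hs, hsup⟩, hmax⟩ := zorn_le_nonempty₀ Q (fun ch hch hc y hy => by
      have : Nonempty ch := ⟨⟨y, hy⟩⟩
      have ht : ∀ p q : ch, p.1 ≤ q.1 ∨ q.1 ≤ p.1 := fun p q => hc.total p.2 q.2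
      have hm := hF.iUnion (fun p : ch => p.1.1) fun p q => (ht p q).imp And.left And.left
      refine ⟨(⋃ p : ch, p.1.1, ⋃ p : ch, p.1.2), ⟨fun x hx => ?_, sSupIndep_iUnion_of_directed
        (fun p q => (ht p q).elim (fun h => ⟨q, h.2, subset_rfl⟩) fun h => ⟨p, subset_rfl, h.2⟩)
        fun p => (hch p.2).2.1, fun C hC => ?_, le_antisymm (sSup_le fun C hC => ?_) fun y hy => ?_⟩,
        fun p hp => ⟨subset_iUnion (fun p : ch => p.1.1) ⟨p, hp⟩,
          subset_iUnion (fun p : ch => p.1.2) ⟨p, hp⟩⟩⟩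
      · obtain ⟨p, hp⟩ := (hm x).1 hx
        exact (hm _).2 ⟨p, (hch p.2).1 x hp⟩
      · obtain ⟨p, hp⟩ := mem_iUnion.1 hC
        exact (hch p.2).2.2.1 C hp
      · obtain ⟨p, hp⟩ := mem_iUnion.1 hC
        exact ((le_sSup hp).trans (hch p.2).2.2.2.le).trans fun y hy => (hm _).2 ⟨p, hy⟩
      · obtain ⟨p, hp⟩ := (hm _).1 hy
        exact sSup_le_sSup (subset_iUnion (fun p : ch => p.1.2) p) ((hch p.2).2.2.2.ge hp))
    (∅, ∅) (by
      have e : ∀ x ∈ F ∅, x = 0 := fun x hx => Subtype.ext (Finsupp.ext fun j => (hx j).2 id)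
      refine ⟨fun x hx => by rw [e x hx, map_zero, map_zero]; exact zero_mem _, sSupIndep_empty,
        fun _ h => h.elim, le_antisymm (by simp) fun y hy => ?_⟩
      rw [← h y, e _ hy, map_zero]; exact zero_mem _)
  simp only at hg hi hs hsup
  have ha : a = univ := by
    refine eq_univ_of_forall fun j => ?_
    obtain ⟨b, hb, hjb, hbc⟩ := (fclub_sub hl (hF.image fun x => i (s x)) hF
      (fun a ha => mk_image_le.trans (hFc a ha)) fun y _ => y.2).1 {j}
      (by simpa using one_le_aleph0.trans hl)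
    have hb' : ∀ x ∈ F b, i (s x) ∈ F b := fun x hx => hb ⟨x, hx, rfl⟩
    let r : N →ₗ[R] N := s ∘ₗ ((F a).projection _ (hC a)) ∘ₗ i
    have r1 : ∀ y, i (r y) ∈ F a := fun y => hg _ (Submodule.projection_apply_mem _ _)
    have r2 : ∀ y, i y ∈ F a → r y = y := fun y hy => by
      simp only [r, LinearMap.comp_apply, Submodule.projection_apply_of_mem_left _ hy, h]
    have m1 : F a ≤ F (a ∪ b) := hF.1 subset_union_left
    have m2 : F b ≤ F (a ∪ b) := hF.1 subset_union_right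
    have := hmax (y := (a ∪ b, insert ((F b).map ((LinearMap.id - r) ∘ₗ s)) 𝒟)) ⟨fun x hx => ?_,
      indep_insert hi ?_, ?_, ?_⟩ ⟨subset_union_left, subset_insert _ _⟩
    · exact this.1 (Or.inr (hjb rfl))
    · obtain ⟨y, hy, z, hz, rfl⟩ := hU a b x hx
      rw [map_add, map_add]
      exact add_mem (m1 (hg y hy)) (m2 (hb' z hz))
    · rw [hsup, Submodule.disjoint_def]
      rintro _ ⟨z, -, rfl⟩ hy
      rw [← r2 _ hy]
      simp [r2 _ (r1 _)]
    · rintro C (rfl | hC)
      · exact (mk_image_le (s := (F b : Set (XM c univ)))).trans (hFc b hbc)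
      · exact hs C hC
    · rw [sSup_insert, hsup]
      refine le_antisymm (sup_le ?_ (Submodule.comap_mono m1)) fun y hy => ?_
      · rintro _ ⟨z, hz, rfl⟩
        simp only [Submodule.mem_comap, LinearMap.comp_apply, LinearMap.sub_apply, map_sub]
        exact sub_mem (m2 (hb' z hz)) (m1 (r1 _))
      · obtain ⟨x, hx, z, hz, e⟩ := hU a b _ hy
        have e2 : y = (s z - r (s z)) + (s x + r (s z)) := by rw [← h y, ← e, map_add]; abel
        rw [e2]
        exact Submodule.add_mem_sup ⟨z, hz, rfl⟩ (add_mem (hg x hx) (r1 _))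
  subst ha
  refine ⟨𝒟, (↑), (sSupIndep_iff _).1 hi, ?_, fun C => hs C C.2⟩
  rw [← sSup_eq_iSup', hsup]
  exact eq_top_iff.2 fun y _ => (i y).2

theorem ss_proj (hl : ℵ₀ ≤ l) (hR : #R ≤ l) [h : Module.Projective R N] : SmallSum R l N := by
  obtain ⟨s, hs⟩ := h.out
  exact kw hl (c := fun _ : N => (⊤ : Submodule R R)) (fun _ => (mk_set_le _).trans hR)
    (s.codRestrict _ fun _ _ => ⟨trivial, fun h => absurd trivial h⟩)
    ((Finsupp.linearCombination R id).comp (Submodule.subtype _)) hs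

theorem sum_le (hS : K.SumCl) {s q t : Submodule R N} (hd : Disjoint s q) (h : s ⊔ q = t)
    (hs : K.mem s) (hq : K.mem q) : MLe K s t := by
  have h1 : s ≤ t := h ▸ le_sup_left
  have h2 : q ≤ t := h ▸ le_sup_right
  refine ⟨h1, mle_congr (LinearEquiv.refl R _) (LinearEquiv.ofBijective
    ((Submodule.inclusion h1).coprod (Submodule.inclusion h2)) ⟨?_, fun x => ?_⟩)
    (LinearMap.inl R s q) _ (fun x => Subtype.ext (add_zero x.1).symm) (hS s q hs hq)⟩
  · rw [injective_iff_map_eq_zero]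
    rintro ⟨x, y⟩ e
    have e' : x.1 + y.1 = 0 := congrArg Subtype.val e
    have hx : x.1 = 0 := Submodule.disjoint_def.1 hd _ x.2
      (by rw [eq_neg_of_add_eq_zero_left e']; exact neg_mem y.2)
    rw [hx, zero_add] at e'
    exact Prod.ext (Subtype.ext hx) (Subtype.ext e')
  · obtain ⟨y, hy, z, hz, e⟩ := Submodule.mem_sup.1 (h.ge x.2)
    exact ⟨(⟨y, hy⟩, ⟨z, hz⟩), Subtype.ext e⟩

theorem xm_mem (hS : K.SumCl) {c : I → Submodule R P} (hc : ∀ i, K.mem (c i)) (i₀ : I) :
    K.mem (XM c univ) := by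
  have h1 : ∀ i, K.mem (XM c {i}) := fun i => mem_congr (xm_single i).some (hc i)
  refine mle_self_iff.1 (mzorn_le xm_fy (subset_univ {i₀}) (mle_self_iff.2 (h1 i₀))
    fun a _ _ ha j _ hj => ?_).right
  exact sum_le hS (xm_disj (disjoint_singleton_right.2 hj)) (by rw [xm_union, union_singleton])
    (mle_self_iff.1 ha.right) (h1 j)

theorem ss_sum (hK : K.LSle l) (hκ : l < κ) (hcat : K.Cat κ) (hS : K.SumCl) (hN : K.mem N)
    (hc : #N ≤ κ) : SmallSum R l N := by
  have hinf := hK.1.trans hκ.le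
  obtain ⟨M, _, _, hM, hMc⟩ := hcat.1
  have : Nontrivial M := one_lt_iff_nontrivial.1 (hMc ▸ one_lt_aleph0.trans_le hinf)
  obtain ⟨x, hx⟩ := exists_ne (0 : M)
  obtain ⟨B, hB, hxB, hBc⟩ := hK.2.2 M hM {x}
  have hB' := (K.le_mem _ hB).2.1
  have hBl : #B ≤ l := hBc.trans (add_le_of_le hK.1 (by simpa using one_le_aleph0.trans hK.1) le_rfl)
  have hB0 : B ≠ ⊥ := fun h => hx (by simpa [h] using hxB rfl)
  obtain ⟨j⟩ : Nonempty κ.out := mk_ne_zero_iff.1 (by
    rw [mk_out]; exact (zero_le.trans_lt hκ).ne')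
  have hb0 : #(univ : Set κ.out) = κ := by rw [mk_univ, mk_out]
  let c : Option κ.out → Submodule R (N × M) := fun o =>
    o.elim (LinearMap.range (LinearMap.inl R N M)) fun _ => B.map (LinearMap.inr R N M)
  have e₀ := LinearEquiv.ofInjective _ (LinearMap.inl_injective (R := R) (M := N) (M₂ := M))
  have e₁ := B.equivMapOfInjective _ (LinearMap.inr_injective (R := R) (M := N) (M₂ := M))
  have k1 : κ ≤ #(XM c (range some)) := by
    refine le_trans ?_ (le_mk_xm ?_)
    · rw [mk_range_eq _ (Option.some_injective _), mk_out]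
    · rintro _ ⟨i, rfl⟩ h
      exact hB0 (Submodule.map_injective_of_injective
        (LinearMap.inr_injective (R := R) (M := N) (M₂ := M)) (h.trans (Submodule.map_bot _).symm))
  obtain ⟨e⟩ := hcat.2 (XM c univ) (XM (fun _ : κ.out => B) univ)
    (xm_mem hS (fun o => by cases o; exacts [mem_congr e₀ hN, mem_congr e₁ hB']) none)
    (xm_mem hS (fun _ => hB') j)
    (le_antisymm (mk_xm_le hinf (by simp [add_one_eq hinf]) fun o => by
        cases o
        exacts [(mk_congr e₀.toEquiv).ge.trans hc, (mk_congr e₁.toEquiv).ge.trans (hBl.trans hκ.le)])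
      (k1.trans (mk_le_mk_of_subset (xm_mono (subset_univ (range some))))))
    (le_antisymm (mk_xm_le hinf hb0.le fun _ => hBl.trans hκ.le)
      (hb0.ge.trans (le_mk_xm fun _ _ => hB0)))
  refine kw hK.1 (fun _ => hBl) (e.toLinearMap ∘ₗ ((Finsupp.lsingle none).comp
    (LinearMap.inl R N M)).codRestrict (XM c univ) fun y => single_mem (mem_univ none) ⟨y, rfl⟩)
    (LinearMap.fst R N M ∘ₗ Finsupp.lapply none ∘ₗ (XM c univ).subtype ∘ₗ e.symm.toLinearMap)
    fun y => ?_
  simp only [LinearMap.comp_apply, LinearEquiv.coe_coe, LinearEquiv.symm_apply_apply]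
  change (Finsupp.single (none : Option κ.out) ((y, 0) : N × M) none).1 = y
  rw [Finsupp.single_eq_same]

theorem mcat_down (hK : K.LSle l) (hκ : Order.succ (2 ^ l) < κ) (hcat : K.Cat κ) (hS : K.SumCl)
    {k : Cardinal.{u}} (hk : Order.succ (2 ^ l) < k) (hk' : k ≤ κ) : K.Cat k := by
  have hl := (cantor l).le
  have hlκ := (hl.trans (Order.le_succ _)).trans_lt hκ
  refine ⟨?_, fun N N' _ _ _ _ hN hN' hc hc' => mtransfer hK hκ hcat hN
    (ss_sum hK hlκ hcat hS hN (hc ▸ hk')) hN' (ss_sum hK hlκ hcat hS hN' (hc' ▸ hk')) (hc ▸ hk)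
    (hc.trans hc'.symm)⟩
  obtain ⟨M, _, _, hM, hMc⟩ := hcat.1
  obtain ⟨I, T, D, col, U₀, U₁, hT, sq, -⟩ := mpresent hK hκ hcat hM
    (ss_sum hK hlκ hcat hS hM hMc.le) (hMc ▸ hκ)
  have hb0 : #(univ : Set k.out) = k := by rw [mk_univ, mk_out]
  exact ⟨_, inferInstance, inferInstance, sq.ok hT (hK.1.trans hl) (univ : Set k.out),
    (sq.mk_eq hT (hK.1.trans hl) hl _ (hb0.symm ▸ (Order.le_succ _).trans hk.le)).trans hb0⟩

end Vale.Agent.P307S
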