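import Vale.Agent.P307.MSum

/-! P307: categoricity transfer for direct sums of small modules. -/

open Cardinal hiding univ
open Set

universe u

namespace Vale.Agent.P307S

variable {R : Type u} [Ring R] {K : MAEC R}
variable {N N' I I' I'' T T' S : Type u} [AddCommGroup N] [Module R N] [AddCommGroup N']
  [Module R N'] {D : I → Submodule R N} {col : I → T} {l κ σ : Cardinal.{u}}

/-- A coloured family of small nonzero submodules. -/
structure MT (l : Cardinal.{u}) (D : I → Submodule R N) (col : I → T) : Prop where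
  ne : ∀ i, D i ≠ ⊥
  cD : ∀ i, #(D i) ≤ l
  cT : #(range col) ≤ 2 ^ l
  sim : ∀ i j, col i = col j → Nonempty (D i ≃ₗ[R] D j)

theorem exists_mt (hK : K.LSle l) (h : SmallSum R l N) : ∃ (I T : Type u) (D : I → Submodule R N)
    (col : I → T), MT l D col ∧ Nonempty (N ≃ₗ[R] XM D univ) := by
  obtain ⟨I, D, h1, h2, h3⟩ := h
  obtain ⟨T, col, h4, h5⟩ := exists_col (c := fun i : {i // D i ≠ ⊥} => D i) hK.1 hK.2.1
    fun i => h3 i
  exact ⟨_, T, _, col, ⟨fun i => i.2, fun i => h3 i, (mk_set_le _).trans h4, h5⟩,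
    xm_top (h1.comp Subtype.val_injective) ((iSup_ne_bot_subtype D).trans h2)⟩

theorem MT.cnt [Nonempty I''] (hT : MT l D col) (π : I' → I) (π' : I'' → I) {Z : Set I'}
    {Z' : Set I''} (h : ∀ C, mu (fun p => col (π p)) Z C = mu (fun p => col (π' p)) Z' C) :
    Nonempty (XM (fun p => D (π p)) Z ≃ₗ[R] XM (fun p => D (π' p)) Z') := by
  obtain ⟨β, hβ, h1⟩ := exists_bij h
  exact xm_bij hβ fun i hi => hT.sim _ _ (h1 i hi).symm

theorem MT.le_congr [Nonempty I''] (hT : MT l D col) (π : I'' → I) {Z₀ Z₁ : Set I}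
    {Z₀' Z₁' : Set I''} (hZ : Z₀ ⊆ Z₁) (hZ' : Z₀' ⊆ Z₁')
    (h₀ : ∀ C, mu col Z₀ C = mu (fun p => col (π p)) Z₀' C)
    (h₁ : ∀ C, mu col (Z₁ \ Z₀) C = mu (fun p => col (π p)) (Z₁' \ Z₀') C)
    (h : MLe K (XM D Z₀) (XM D Z₁)) :
    MLe K (XM (fun p => D (π p)) Z₀') (XM (fun p => D (π p)) Z₁') :=
  pair_le (xm_disj disjoint_sdiff_right) (by rw [xm_union, union_sdiff_cancel hZ]; rfl)
    (xm_disj disjoint_sdiff_right) (by rw [xm_union, union_sdiff_cancel hZ'])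
    (hT.cnt id π h₀).some (hT.cnt id π h₁).some h

theorem MT.xm_le (hT : MT l D col) (hσ : ℵ₀ ≤ σ) (hl : l ≤ σ) (π : I' → I) (Z : Set I')
    (hZ : #Z ≤ σ) : #(XM (fun p => D (π p)) Z) ≤ σ :=
  mk_xm_le hσ hZ fun _ => (hT.cD _).trans hl

theorem MT.mk_eq (hT : MT l D col) (e : N ≃ₗ[R] XM D univ) (hl : ℵ₀ ≤ l) (hN : l < #N) :
    #I = #N := by
  have h := mk_congr e.toEquiv
  refine le_antisymm ?_ (not_lt.1 fun hI => ?_)
  · rw [h, ← mk_univ]; exact le_mk_xm fun i _ => hT.ne i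
  · have := hT.xm_le (σ := max l #I) (hl.trans (le_max_left _ _)) (le_max_left _ _)
      id univ (mk_univ.le.trans (le_max_right _ _))
    exact (max_lt hN hI).not_ge (h.le.trans this)

variable (K) in
/-- A strong pair of index sets with saturated colours. -/
structure MSP (D : I → Submodule R N) (col : I → T) (σ : Cardinal.{u}) (Z₀ Z₁ : Set I) : Prop where
  sub : Z₀ ⊆ Z₁
  le : MLe K (XM D Z₀) (XM D Z₁)
  card : #Z₁ ≤ σ
  sat : ∀ i ∈ Z₁ \ Z₀, σ ≤ mu col Z₀ (col i)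
  ne : (Z₁ \ Z₀).Nonempty

/-- The blown up module. -/
def MB (D : I → Submodule R N) (Z₀ Z₁ : Set I) (b : Set S) : Submodule R (W I S →₀ N) :=
  XM (fun p : W I S => D p.pt) (FP Z₀ Z₁ b)

variable {Z₀ Z₁ : Set I}

theorem mb_fy : Fy fun b : Set S => (MB D Z₀ Z₁ b : Set (W I S →₀ N)) := xm_fy.comp fp_pcs.fy

theorem MSP.mk_le {τ : Cardinal.{u}} (h : MSP K D col σ Z₀ Z₁) (hT : MT l D col)
    (hσ : ℵ₀ ≤ τ) (hl : l ≤ τ) (hτ : σ ≤ τ) (b : Set S) (hb : #b ≤ τ) : #(MB D Z₀ Z₁ b) ≤ τ :=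
  hT.xm_le hσ hl W.pt _ (mk_fp_le hσ h.sub (h.card.trans hτ) hb)

theorem MSP.mk_eq (h : MSP K D col σ Z₀ Z₁) (hT : MT l D col)
    (hσ : ℵ₀ ≤ σ) (hl : l ≤ σ) (b : Set S) (hb : σ ≤ #b) : #(MB D Z₀ Z₁ b) = #b :=
  le_antisymm (h.mk_le hT (hσ.trans hb) (hl.trans hb) hb b le_rfl)
    ((le_mk_xs (A := Z₀) (D := fun _ => Z₁ \ Z₀) fun _ _ => h.ne).trans
      (le_mk_xm fun p _ => hT.ne p.pt))

theorem MSP.ok (h : MSP K D col σ Z₀ Z₁) (hT : MT l D col) (hσ : ℵ₀ ≤ σ) (b : Set S) :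
    K.mem (MB D Z₀ Z₁ b) := by
  have : Nonempty I := ⟨h.ne.some⟩
  refine mle_self_iff.1 (mpow_le mb_fy hσ ?_ (fun c hcc j hj => ?_) b b subset_rfl)
  · refine hT.le_congr W.pt subset_rfl subset_rfl (fun C => ?_) (fun C => ?_) h.le.left
    · simp [mu_fp]
    · simp [mu]
  · refine hT.le_congr W.pt h.sub (fp_pcs.mono (subset_insert _ _)) (fun C => ?_) (fun C => ?_) h.le
    · rw [mu_fp]
      by_cases h0 : mu col (Z₁ \ Z₀) C = 0
      · simp [h0]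
      · obtain ⟨i, hi, rfl⟩ := mu_ne_zero.1 h0
        have h1 := h.sat i hi
        refine (add_eq_left (hσ.trans h1) (le_trans ?_ h1)).symm
        exact mul_le_of_le hσ ((mu_le _ _ _).trans
          ((mk_le_mk_of_subset sdiff_subset).trans h.card)) hcc
    · have e : insert j c \ c = {j} := by
        ext x; simp only [mem_sdiff, mem_insert_iff, mem_singleton_iff]
        exact ⟨fun h => h.1.resolve_right h.2, fun h => ⟨Or.inl h, h ▸ hj⟩⟩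
      rw [mu_fp_diff, e, mk_singleton, mul_one]

theorem exists_mstd (hK : K.LSle l) (hT : MT l D col) (hN : K.mem (XM D univ))
    (hI : 2 ^ l < #I) : ∃ Z₀ Z₁, MSP K D col (2 ^ l) Z₀ Z₁ ∧
      (∀ C, mu col univ C ≤ 2 ^ l → mu col Z₀ C = mu col univ C ∧ mu col (Z₁ \ Z₀) C = 0) ∧
      ∀ C, 2 ^ l < mu col univ C → mu col (Z₁ \ Z₀) C ≠ 0 := by
  have hl := (cantor l).le
  have hν := hK.1.trans hl
  have hc := hT.xm_le hν hl id
  have hN' := mle_self_iff.2 hN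
  obtain ⟨Y, -, hY1, hY2⟩ := sel col hν hT.cT le_rfl univ
  obtain ⟨Z₀, h1, -, h2, h3⟩ := fy_ls hK hl xm_fy hc hN'
    (subset_univ ({i | mu col univ (col i) ≤ 2 ^ l} ∪ Y))
    ((mk_union_le _ _).trans (add_le_of_le hν (few col hν hT.cT) hY1))
  obtain ⟨Y', h4, h5, h6⟩ := sel col hν hT.cT (one_le_aleph0.trans hν) Z₀ᶜ
  obtain ⟨Z₁, h7, -, h8, h9⟩ := fy_ls hK hl xm_fy hc hN' (subset_univ (Z₀ ∪ Y'))
    ((mk_union_le _ _).trans (add_le_of_le hν h2 h5))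
  have hs : Z₀ ⊆ Z₁ := subset_union_left.trans h7
  have hb : ∀ i, i ∉ Z₀ → 2 ^ l < mu col univ (col i) := fun i hi =>
    not_le.1 fun h => hi (h1 (Or.inl h))
  have hbig : ∀ C, 2 ^ l < mu col univ C → mu col (Z₁ \ Z₀) C ≠ 0 := by
    intro C hC
    obtain ⟨i, hi, hi'⟩ := exists_notMem (h2.trans_lt hC)
    have := h6 C (Cardinal.one_le_iff_ne_zero.2 (mu_ne_zero.2 ⟨i, hi', hi.2⟩))
    obtain ⟨j, hj, hj'⟩ := mu_ne_zero.1 (Cardinal.one_le_iff_ne_zero.1 this)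
    exact mu_ne_zero.2 ⟨j, ⟨h7 (Or.inr hj), h4 hj⟩, hj'⟩
  refine ⟨Z₀, Z₁, ⟨hs, h3.coh h9 (xm_mono hs), h8, fun i hi => (hY2 _ (hb i hi.2).le).trans
    (mu_mono _ (subset_union_right.trans h1) _), ?_⟩, fun C hC => ⟨?_, ?_⟩, hbig⟩
  · obtain ⟨i, -, hi⟩ := exists_notMem (E := univ) (h2.trans_lt (by rwa [mk_univ]))
    obtain ⟨j, hj, -⟩ := mu_ne_zero.1 (hbig _ (hb i hi))
    exact ⟨j, hj⟩
  · refine le_antisymm (mu_mono _ (subset_univ _) _) (mk_le_mk_of_subset fun i hi => ⟨?_, hi.2⟩)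
    exact h1 (Or.inl (hi.2 ▸ hC :))
  · by_contra h
    obtain ⟨j, hj, rfl⟩ := mu_ne_zero.1 h
    exact (hb j hj.2).not_ge hC

/-- A pair whose new colours have large multiplicity. -/
theorem exists_high (hK : K.LSle l) (hT : MT l D col) (hN : K.mem (XM D univ)) {ρ θ : Cardinal.{u}}
    (hνρ : 2 ^ l ≤ ρ) (hρθ : ρ ≤ θ) (hθ : θ < #I) : ∃ Z₀ Z₁, MSP K D col ρ Z₀ Z₁ ∧
      ∀ i ∈ Z₁ \ Z₀, θ < mu col univ (col i) := by
  have hlρ := (cantor l).le.trans hνρ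
  have hρ := hK.1.trans hlρ
  have hN' := mle_self_iff.2 hN
  obtain ⟨Y, -, hY1, hY2⟩ := sel col hρ (hT.cT.trans hνρ) le_rfl univ
  obtain ⟨Z', h1, -, h2, h3⟩ := fy_ls hK (hlρ.trans hρθ) xm_fy
    (hT.xm_le (hρ.trans hρθ) (hlρ.trans hρθ) id) hN'
    (subset_univ ({i | mu col univ (col i) ≤ θ} ∪ Y))
    ((mk_union_le _ _).trans (add_le_of_le (hρ.trans hρθ)
      (few col (hρ.trans hρθ) (hT.cT.trans (hνρ.trans hρθ))) (hY1.trans hρθ)))
  obtain ⟨i₀, -, hi₀⟩ := exists_notMem (E := univ) (h2.trans_lt (by rwa [mk_univ]))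
  have hc := hT.xm_le hρ hlρ id
  obtain ⟨Z₁, ⟨h4, h5⟩, h6, h7⟩ := ((fclub_le hK hlρ xm_fy hc h3.left).inter hρ
    (fclub_le hK hlρ xm_fy hc hN')).1 (insert i₀ Y) (mk_insert_le.trans
      (add_le_of_le hρ hY1 (one_le_aleph0.trans hρ)))
  have h4' : MLe K (XM D (Z₁ ∩ Z')) (XM D Z') := h4
  have h5' : MLe K (XM D (Z₁ ∩ univ)) (XM D univ) := h5
  rw [inter_univ] at h5'
  have hb : ∀ i ∈ Z₁ \ (Z₁ ∩ Z'), θ < mu col univ (col i) := fun i hi =>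
    not_le.1 fun h => hi.2 ⟨hi.1, h1 (Or.inl h)⟩
  have hYZ : Y ⊆ Z₁ ∩ Z' := subset_inter ((subset_insert _ _).trans h6)
    (subset_union_right.trans h1)
  exact ⟨_, _, ⟨inter_subset_left, (h4'.trans h3).coh h5' (xm_mono inter_subset_left), h7,
    fun i hi => (hY2 _ (hρθ.trans (hb i hi).le)).trans (mu_mono _ hYZ _),
    ⟨i₀, h6 (mem_insert _ _), fun h => hi₀ h.2⟩⟩, hb⟩

/-- Categoricity identifies small pieces of two blow ups. -/
theorem qiso (hcat : K.Cat κ) {D' : I' → Submodule R N'} {col' : I' → T'} {U₀ U₁ : Set I'}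
    {σ' ρ : Cardinal.{u}} (hT : MT l D col) (hT' : MT l D' col') (h : MSP K D col σ Z₀ Z₁)
    (h' : MSP K D' col' σ' U₀ U₁) (hl : ℵ₀ ≤ l) (h1 : l ≤ σ) (h2 : l ≤ σ') (h3 : σ ≤ ρ)
    (h4 : σ' ≤ ρ) (hρκ : ρ < κ) : ∃ a₀ a₁ : Set κ.out, a₀ ⊆ a₁ ∧ (a₁ \ a₀).Nonempty ∧ #a₁ ≤ ρ ∧
      Nonempty (XM (fun p : W I κ.out => D p.pt) (FP Z₀ Z₁ a₀) ≃ₗ[R]
        XM (fun p : W I' κ.out => D' p.pt) (FP U₀ U₁ a₀)) ∧
      Nonempty (XM (fun p : W I κ.out => D p.pt) (FP Z₀ Z₁ a₁ \ FP Z₀ Z₁ a₀) ≃ₗ[R]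
        XM (fun p : W I' κ.out => D' p.pt) (FP U₀ U₁ a₁ \ FP U₀ U₁ a₀)) := by
  have hb0 : #(univ : Set κ.out) = κ := by rw [mk_univ, mk_out]
  have hρ := hl.trans (h1.trans h3)
  obtain ⟨φ⟩ := hcat.2 _ _ (h.ok hT (hl.trans h1) (univ : Set κ.out))
    (h'.ok hT' (hl.trans h2) (univ : Set κ.out))
    ((h.mk_eq hT (hl.trans h1) h1 _ (hb0.symm ▸ h3.trans hρκ.le)).trans hb0)
    ((h'.mk_eq hT' (hl.trans h2) h2 _ (hb0.symm ▸ h4.trans hρκ.le)).trans hb0)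
  have hcl := club_iso hρ mb_fy mb_fy (h.mk_le hT hρ (h1.trans h3) h3)
    (h'.mk_le hT' hρ (h2.trans h4) h4) φ
  obtain ⟨a₀, -, hc₀, ha₀⟩ := hcl ∅ (by simp)
  obtain ⟨j, -, hj⟩ := exists_notMem (E := univ) (hc₀.trans_lt (hb0.symm ▸ hρκ))
  obtain ⟨a₁, h01, hc₁, ha₁⟩ := hcl (insert j a₀)
    (mk_insert_le.trans (add_le_of_le hρ hc₀ (one_le_aleph0.trans hρ)))
  have hsub := (subset_insert _ _).trans h01
  obtain ⟨E₀, -⟩ := res φ (mb_fy.1 (subset_univ a₀)) (mb_fy.1 (subset_univ a₀)) ha₀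
  obtain ⟨E₁, hE⟩ := res φ (mb_fy.1 (subset_univ a₁)) (mb_fy.1 (subset_univ a₁)) ha₁
  refine ⟨a₀, a₁, hsub, ⟨j, h01 (mem_insert _ _), hj⟩, hc₁, ⟨E₀⟩, compl_iso
    (xm_disj disjoint_sdiff_right) (by rw [xm_union, union_sdiff_cancel (fp_pcs.mono hsub)]; rfl)
    (xm_disj disjoint_sdiff_right) (by rw [xm_union, union_sdiff_cancel (fp_pcs.mono hsub)]; rfl)
    E₁ fun y => ?_⟩
  rw [hE]
  exact ha₀ ⟨y.1, mb_fy.1 (subset_univ a₁) y.2⟩

theorem mk_seg [LinearOrder I] [WellFoundedLT I] (m : Cardinal.{u}) :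
    #{x : I | #(Iio x) < m} ≤ m := by
  rcases lt_or_ge m.ord (Ordinal.type (α := I) (· < ·)) with h | h
  · obtain ⟨y, hy⟩ := Ordinal.typein_surj _ h
    have e : #(Iio y) = m := by rw [← card_ord m, ← hy]; rfl
    refine (mk_le_mk_of_subset fun x hx => ?_).trans e.le
    have h1 : Ordinal.typein (α := I) (· < ·) x < m.ord := lt_ord.2 hx
    rw [← hy] at h1
    exact (Ordinal.typein_lt_typein (α := I) (· < ·)).1 h1
  · refine (mk_set_le _).trans ?_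
    have := Ordinal.card_le_card h
    rwa [card_ord, Ordinal.card_type] at this

theorem mu_xs {A : Set I} {E : S → Set I} (C : T) :
    {p | p ∈ XS A E univ ∧ col p.pt = C} = XS {i | i ∈ A ∧ col i = C}
      (fun x => {i | i ∈ E x ∧ col i = C}) {x | ∃ i ∈ E x, col i = C} := by
  ext ⟨i, _ | x⟩
  · simp [xs_none]
  · simp only [mem_ofPred_eq, xs_some, mem_univ, true_and]
    exact ⟨fun h => ⟨⟨i, h⟩, h⟩, fun h => h.2⟩

theorem le_mu_xs {A : Set I} {E : S → Set I} (C : T) :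
    mu col A C ≤ mu (fun p : W I S => col p.pt) (XS A E univ) C := by
  rw [mu, ← mk_none (S := S)]
  refine mk_le_mk_of_subset ?_
  rintro ⟨i, o⟩ ⟨rfl, h⟩
  exact ⟨xs_none.2 h.1, h.2⟩

theorem mu_xs_zero {A : Set I} {E : S → Set I} {C : T} (h : ∀ x, mu col (E x) C = 0) :
    mu (fun p : W I S => col p.pt) (XS A E univ) C = mu col A C := by
  refine le_antisymm ?_ (le_mu_xs C)
  rw [mu, mu, ← mk_none (S := S) {i | i ∈ A ∧ col i = C}]
  refine mk_le_mk_of_subset ?_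
  rintro ⟨i, _ | x⟩ ⟨h1, h2⟩
  · exact ⟨rfl, xs_none.1 h1, h2⟩
  · exact absurd (h x) (mu_ne_zero.2 ⟨i, (xs_some.1 h1).2, h2⟩)

/-- Every big colour may be given full multiplicity. -/
theorem absorb (hK : K.LSle l) (hκ : Order.succ (2 ^ l) < κ) (hcat : K.Cat κ) (hT : MT l D col)
    (hN : K.mem (XM D univ)) (hI : Order.succ (2 ^ l) < #I) {U₀ U₁ : Set I}
    (sq : MSP K D col (2 ^ l) U₀ U₁)
    (hs : ∀ C, mu col univ C ≤ 2 ^ l → mu col (U₁ \ U₀) C = 0)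
    (hb : ∀ C, 2 ^ l < mu col univ C → mu col (U₁ \ U₀) C ≠ 0) :
    ∃ (J : Type u) (π : J → I) (Z : Set J), Nonempty (XM D univ ≃ₗ[R] XM (fun p => D (π p)) Z) ∧
      (∀ C, mu col univ C ≤ 2 ^ l → mu (fun p => col (π p)) Z C = mu col univ C) ∧
      ∀ C, 2 ^ l < mu col univ C → mu (fun p => col (π p)) Z C = #I := by
  have hl := (cantor l).le
  have hνρ : (2 : Cardinal.{u}) ^ l ≤ Order.succ (2 ^ l) := Order.le_succ _
  generalize Order.succ ((2 : Cardinal.{u}) ^ l) = ρ at *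
  have hρ := hK.1.trans (hl.trans hνρ)
  have hinf := hρ.trans hI.le
  have : Nonempty I := mk_ne_zero_iff.1 (zero_le.trans_lt hI).ne'
  obtain ⟨_, _, ho⟩ := exists_ord_eq_type_lt I
  choose Z₀ Z₁ sp hh using fun x : I => exists_high hK hT hN hνρ (le_max_left ρ #(Iio x))
    (max_lt hI (mk_Iio_lt x ho))
  choose a₀ a₁ h1 h2 h3 h4 h5 using fun x : I =>
    qiso hcat hT hT (sp x) sq hK.1 (hl.trans hνρ) hl le_rfl hνρ hκ
  let A : Set (W I κ.out) := FP univ univ ∅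
  have hA : ∀ C, mu (fun p : W I κ.out => col p.pt) A C = mu col univ C := fun C => by
    simp [A, mu_fp]
  have hE : ∀ {Y₀ Y₁ : Set I}, Y₀ ⊆ Y₁ → #Y₁ ≤ ρ → ∀ x C, #{p : W I κ.out |
      p ∈ FP Y₀ Y₁ (a₁ x) \ FP Y₀ Y₁ (a₀ x) ∧ col p.pt = C} ≤ ρ := fun h h' x C =>
    (mk_le_mk_of_subset fun p hp => hp.1.1).trans (mk_fp_le hρ h h' (h3 x))
  obtain ⟨e₁⟩ := hT.cnt id (fun p : W (W I κ.out) I => p.pt.pt) (Z := univ)
    (Z' := XS A (fun x => FP (Z₀ x) (Z₁ x) (a₁ x) \ FP (Z₀ x) (Z₁ x) (a₀ x)) univ) fun C => by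
      have k : ∀ x, mu (fun p : W I κ.out => col p.pt)
          (FP (Z₀ x) (Z₁ x) (a₁ x) \ FP (Z₀ x) (Z₁ x) (a₀ x)) C ≠ 0 →
          max ρ #(Iio x) < mu col univ C := fun x hx => by
        rw [mu_fp_diff] at hx
        obtain ⟨i, hi, rfl⟩ := mu_ne_zero.1 (left_ne_zero_of_mul hx)
        exact hh x i hi
      refine le_antisymm ((hA C).ge.trans (le_mu_xs (col := fun p : W I κ.out => col p.pt) C)) ?_
      rcases le_or_gt (mu col univ C) ρ with h | h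
      · exact ((mu_xs_zero (col := fun p : W I κ.out => col p.pt) fun x => by_contra fun hx =>
          ((le_max_left _ _).trans_lt (k x hx)).not_ge h).trans (hA C)).le
      · rw [mu, mu_xs (col := fun p : W I κ.out => col p.pt)]
        exact mk_xs_le (hρ.trans h.le) (hA C).le ((mk_le_mk_of_subset fun x hx =>
          (le_max_right _ _).trans_lt (k x (mu_ne_zero.2 hx))).trans (mk_seg _))
          fun x => (hE (sp x).sub (sp x).card x C).trans h.le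
  obtain ⟨e₂⟩ := xm_xs (c := fun p : W I κ.out => D p.pt) (A := A) ⟨LinearEquiv.refl _ _⟩ h5
  refine ⟨_, fun p : W (W I κ.out) I => p.pt.pt, _, ⟨e₁.trans e₂⟩, fun C hC => ?_, fun C hC => ?_⟩
  · exact (mu_xs_zero (col := fun p : W I κ.out => col p.pt) fun x => by
      rw [mu_fp_diff, hs C hC, zero_mul]).trans (hA C)
  · have k : ∀ x, ∃ i ∈ FP U₀ U₁ (a₁ x) \ FP U₀ U₁ (a₀ x), col i.pt = C := fun x =>
      (mu_ne_zero (c := fun p : W I κ.out => col p.pt)).1 (by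
        rw [mu_fp_diff]; exact mul_ne_zero (hb C hC) (mk_ne_zero_iff.2 (h2 x).to_subtype))
    rw [mu, mu_xs (col := fun p : W I κ.out => col p.pt)]
    refine le_antisymm (mk_xs_le hinf ((hA C).le.trans ((mu_le _ _ _).trans mk_univ.le))
      (mk_set_le _) fun x => (hE sq.sub (sq.card.trans hνρ) x C).trans hI.le)
      (le_trans ?_ (le_mk_xs fun x _ => k x))
    exact mk_univ.ge.trans (mk_le_mk_of_subset fun x _ => k x)

theorem mpresent (hK : K.LSle l) (hκ : Order.succ (2 ^ l) < κ) (hcat : K.Cat κ)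
    (hN : K.mem N) (hs : SmallSum R l N) (hc : Order.succ (2 ^ l) < #N) :
    ∃ (I T : Type u) (D : I → Submodule R N) (col : I → T) (U₀ U₁ : Set I), MT l D col ∧
      MSP K D col (2 ^ l) U₀ U₁ ∧ ∀ (S : Type u) (a₀ a₁ : Set S), a₀ ⊆ a₁ → (a₁ \ a₀).Nonempty →
        #a₁ ≤ 2 ^ l → ∀ J : Type u, #J = #N → Nonempty (N ≃ₗ[R] XM
          (fun p : W (W I S) J => D p.pt.pt) (FP (FP U₀ U₁ a₀) (FP U₀ U₁ a₁) univ)) := by
  have hl := (cantor l).le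
  have hν := hK.1.trans hl
  have hc' := (Order.le_succ _).trans_lt hc
  obtain ⟨I, T, D, col, hT, ⟨e⟩⟩ := exists_mt hK hs
  have hI := hT.mk_eq e hK.1 (hl.trans_lt hc')
  have : Nonempty I := mk_ne_zero_iff.1 (hI ▸ (zero_le.trans_lt hc).ne')
  obtain ⟨U₀, U₁, sq, h1, h2⟩ := exists_mstd hK hT (mem_congr e hN) (by rwa [hI])
  obtain ⟨J', π, Z, ⟨e₁⟩, h3, h4⟩ := absorb hK hκ hcat hT (mem_congr e hN) (by rwa [hI]) sq
    (fun C h => (h1 C h).2) h2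
  refine ⟨I, T, D, col, U₀, U₁, hT, sq, fun S a₀ a₁ ha hne ha₁ J hJ => ?_⟩
  obtain ⟨e₂⟩ := hT.cnt π (fun p : W (W I S) J => p.pt.pt) (Z := Z)
    (Z' := FP (FP U₀ U₁ a₀) (FP U₀ U₁ a₁) (univ : Set J)) fun C => by
      rw [mu_fp (fun p : W I S => col p.pt), mu_fp, mu_fp_diff, mk_univ, hJ]
      rcases le_or_gt (mu col univ C) (2 ^ l) with h | h
      · simp [h1 C h, h3 C h]
      · have e1 : mu col (U₁ \ U₀) C ≤ 2 ^ l := (mu_le _ _ _).trans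
          ((mk_le_mk_of_subset sdiff_subset).trans sq.card)
        have e2 : mu col U₀ C ≤ 2 ^ l := (mu_le _ _ _).trans
          ((mk_le_mk_of_subset sq.sub).trans sq.card)
        rw [h4 C h, hI, mul_eq_right (hν.trans hc'.le)
          ((mul_le_of_le hν e1 ((mk_le_mk_of_subset sdiff_subset).trans ha₁)).trans hc'.le)
          (mul_ne_zero (h2 C h) (mk_ne_zero_iff.2 hne.to_subtype)), add_eq_right (hν.trans hc'.le)
          ((add_le_of_le hν e2 (mul_le_of_le hν e1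
            ((mk_le_mk_of_subset ha).trans ha₁))).trans hc'.le)]
  exact ⟨(e.trans e₁).trans e₂⟩

theorem mtransfer (hK : K.LSle l) (hκ : Order.succ (2 ^ l) < κ) (hcat : K.Cat κ)
    (hN : K.mem N) (hs : SmallSum R l N) (hN' : K.mem N') (hs' : SmallSum R l N')
    (hc : Order.succ (2 ^ l) < #N) (he : #N = #N') : Nonempty (N ≃ₗ[R] N') := by
  have hl := (cantor l).le
  obtain ⟨I, T, D, col, U₀, U₁, hT, sq, h⟩ := mpresent hK hκ hcat hN hs hc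
  obtain ⟨I', T', D', col', U₀', U₁', hT', sq', h'⟩ := mpresent hK hκ hcat hN' hs' (he ▸ hc)
  obtain ⟨a₀, a₁, h1, h2, h3, h4, h5⟩ := qiso hcat hT hT' sq sq' hK.1 hl hl le_rfl le_rfl
    ((Order.le_succ _).trans_lt hκ)
  exact ⟨((h _ a₀ a₁ h1 h2 h3 N rfl).some.trans (xm_xs h4 fun _ : N => h5).some).trans
    (h' _ a₀ a₁ h1 h2 h3 N he).some.symm⟩

theorem mcat (hK : K.LSle l) (hκ : Order.succ (2 ^ l) < κ) (hcat : K.Cat κ)
    (h : ∀ (M : Type u) [AddCommGroup M] [Module R M], K.mem M → Order.succ (2 ^ l) < #M →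
      SmallSum R l M) {k : Cardinal.{u}} (hk : Order.succ (2 ^ l) < k) : K.Cat k := by
  refine ⟨?_, fun N N' _ _ _ _ hN hN' hc hc' => mtransfer hK hκ hcat hN (h N hN (hc ▸ hk)) hN'
      (h N' hN' (hc' ▸ hk)) (hc ▸ hk) (hc.trans hc'.symm)⟩
  obtain ⟨M, _, _, hM, hMc⟩ := hcat.1
  obtain ⟨I, T, D, col, U₀, U₁, hT, sq, -⟩ := mpresent hK hκ hcat hM (h M hM (hMc ▸ hκ)) (hMc ▸ hκ)
  have hl := (cantor l).le
  have hb0 : #(univ : Set k.out) = k := by rw [mk_univ, mk_out]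
  exact ⟨_, inferInstance, inferInstance, sq.ok hT (hK.1.trans hl) (univ : Set k.out),
    (sq.mk_eq hT (hK.1.trans hl) hl _ (hb0.symm ▸ (Order.le_succ _).trans hk.le)).trans hb0⟩

end Vale.Agent.P307S
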