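import Vale.Agent.P307.MBas

/-! P307: direct sums of families of submodules. -/

open Cardinal hiding univ
open Set

universe u

namespace Vale.Agent.P307S

variable {R : Type u} [Ring R] {K : MAEC R}
variable {M M' : Type u} [AddCommGroup M] [Module R M] [AddCommGroup M'] [Module R M']

theorem glueM {X : Type*} {A : X → Submodule R M} {A' : X → Submodule R M'} (h : iSupIndep A)
    (h' : iSupIndep A') (e : ∀ x, A x ≃ₗ[R] A' x) :
    ∃ E : ↥(iSup A) ≃ₗ[R] ↥(iSup A'), ∀ x (y : A x), (E ⟨y, le_iSup A x y.2⟩ : M') = e x y := by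
  classical
  let φ := (LinearEquiv.ofInjective _ h.dfinsupp_lsum_injective).trans
    (LinearEquiv.ofEq _ _ (Submodule.iSup_eq_range_dfinsupp_lsum A).symm)
  let φ' := (LinearEquiv.ofInjective _ h'.dfinsupp_lsum_injective).trans
    (LinearEquiv.ofEq _ _ (Submodule.iSup_eq_range_dfinsupp_lsum A').symm)
  refine ⟨(φ.symm.trans (DFinsupp.mapRange.linearEquiv e)).trans φ', fun x y => ?_⟩
  have h1 : φ.symm ⟨y, le_iSup A x y.2⟩ = DFinsupp.single x y := by
    rw [LinearEquiv.symm_apply_eq]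
    exact Subtype.ext (by simp [φ])
  simp only [LinearEquiv.trans_apply, h1]
  simp [φ']

theorem pair_le {s q t : Submodule R M} {s' q' t' : Submodule R M'} (hd : Disjoint s q)
    (hs : s ⊔ q = t) (hd' : Disjoint s' q') (hs' : s' ⊔ q' = t') (e₁ : s ≃ₗ[R] s')
    (e₂ : q ≃ₗ[R] q') (h : MLe K s t) : MLe K s' t' := by
  obtain ⟨E, hE⟩ := glueM (A := fun b => cond b s q) (A' := fun b => cond b s' q')
    ((iSupIndep_pair (i := true) (j := false) (by simp) (by simp)).2 hd)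
    ((iSupIndep_pair (i := true) (j := false) (by simp) (by simp)).2 hd')
    (fun b => match b with | true => e₁ | false => e₂)
  have h1 : (⨆ b, cond b s q) = t := by rw [iSup_bool_eq]; exact hs
  have h2 : (⨆ b, cond b s' q') = t' := by rw [iSup_bool_eq]; exact hs'
  exact ⟨hs' ▸ le_sup_left, mle_congr e₁ (((LinearEquiv.ofEq _ _ h1).symm.trans E).trans
    (LinearEquiv.ofEq _ _ h2)) (Submodule.inclusion h.1) _
    (fun y => Subtype.ext (hE true y).symm) h.2⟩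

theorem res {T t : Submodule R M} {T' t' : Submodule R M'} (φ : T ≃ₗ[R] T') (ht : t ≤ T)
    (ht' : t' ≤ T') (h : ∀ y : T, y.1 ∈ t ↔ (φ y).1 ∈ t') :
    ∃ E : t ≃ₗ[R] t', ∀ y : t, (E y).1 = (φ ⟨y.1, ht y.2⟩).1 := by
  have e : (t.comap T.subtype).map (φ : T →ₗ[R] T') = t'.comap T'.subtype := by
    ext z
    obtain ⟨y, rfl⟩ := φ.surjective z
    exact ⟨fun ⟨w, hw, e⟩ => e ▸ (h w).1 hw, fun hy => ⟨y, (h y).2 hy, rfl⟩⟩
  exact ⟨((Submodule.comapSubtypeEquivOfLe ht).symm.trans (φ.ofSubmodules _ _ e)).trans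
    (Submodule.comapSubtypeEquivOfLe ht'), fun _ => rfl⟩

theorem quot_compl {s q t : Submodule R M} (hd : Disjoint s q) (hs : s ⊔ q = t) :
    Nonempty ((t ⧸ s.comap t.subtype) ≃ₗ[R] q) := by
  have hq : q ≤ t := hs ▸ le_sup_right
  have hst : s ≤ t := hs ▸ le_sup_left
  refine ⟨(Submodule.quotientEquivOfIsCompl _ (q.comap t.subtype) ⟨?_, ?_⟩).trans
    (Submodule.comapSubtypeEquivOfLe hq)⟩
  · rw [Submodule.disjoint_def] at hd ⊢
    exact fun x h1 h2 => Subtype.ext (hd x h1 h2)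
  · rw [codisjoint_iff]
    apply Submodule.map_injective_of_injective t.injective_subtype
    rw [Submodule.map_sup, Submodule.map_comap_subtype, Submodule.map_comap_subtype,
      inf_eq_right.2 hq, inf_eq_right.2 hst, Submodule.map_subtype_top, hs]

theorem compl_iso {s q t : Submodule R M} {s' q' t' : Submodule R M'} (hd : Disjoint s q)
    (hs : s ⊔ q = t) (hd' : Disjoint s' q') (hs' : s' ⊔ q' = t') (E : t ≃ₗ[R] t')
    (h : ∀ y : t, y.1 ∈ s ↔ (E y).1 ∈ s') : Nonempty (q ≃ₗ[R] q') := by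
  obtain ⟨e⟩ := quot_compl hd hs
  obtain ⟨e'⟩ := quot_compl hd' hs'
  refine ⟨(e.symm.trans (Submodule.Quotient.equiv _ _ E ?_)).trans e'⟩
  ext z
  obtain ⟨y, rfl⟩ := E.surjective z
  exact ⟨fun ⟨w, hw, e⟩ => e ▸ (h w).1 hw, fun hy => ⟨y, (h y).2 hy, rfl⟩⟩

theorem club_iso {S : Type u} {σ : Cardinal.{u}} (hσ : ℵ₀ ≤ σ) {F : Set S → Submodule R M}
    {F' : Set S → Submodule R M'} (hF : Fy fun a => (F a : Set M))
    (hF' : Fy fun a => (F' a : Set M')) (hc : ∀ a : Set S, #a ≤ σ → #(F a) ≤ σ)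
    (hc' : ∀ a : Set S, #a ≤ σ → #(F' a) ≤ σ) (φ : F univ ≃ₗ[R] F' univ) (Y : Set S)
    (hY : #Y ≤ σ) : ∃ a, Y ⊆ a ∧ #a ≤ σ ∧ ∀ y : F univ, y.1 ∈ F a ↔ (φ y).1 ∈ F' a := by
  have h1 : Fy fun a => {y : F univ | y.1 ∈ F a} :=
    ⟨fun a b h y hy => hF.1 h hy, fun a y hy => hF.2 a y hy⟩
  have h2 : Fy fun a => {y : F univ | (φ y).1 ∈ F' a} :=
    ⟨fun a b h y hy => hF'.1 h hy, fun a y hy => hF'.2 a _ hy⟩
  obtain ⟨a, ha, h3, h4⟩ := ((fclub_sub hσ h1 h2 (fun a ha => le_trans (mk_le_of_injective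
    (f := fun y => (⟨y.1.1, y.2⟩ : F a)) fun x y h => Subtype.ext (Subtype.ext
      (congrArg Subtype.val h :))) (hc a ha)) fun y _ => (φ y).2).inter hσ
    (fclub_sub hσ h2 h1 (fun a ha => le_trans (mk_le_of_injective
      (f := fun y => (⟨(φ y.1).1, y.2⟩ : F' a)) fun x y h => Subtype.ext (φ.injective (Subtype.ext
      (congrArg Subtype.val h :)))) (hc' a ha)) fun y _ => y.2)).1 Y hY
  exact ⟨a, h3, h4, fun y => ⟨fun h => ha.1 h, fun h => ha.2 h⟩⟩

variable {I I' S : Type u}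

/-- The direct sum of the `c i` over `i` in `Z`. -/
def XM (c : I → Submodule R M) (Z : Set I) : Submodule R (I →₀ M) where
  carrier := {f | ∀ i, f i ∈ c i ∧ (i ∉ Z → f i = 0)}
  add_mem' := fun hf hg i => ⟨add_mem (hf i).1 (hg i).1, fun h => by
    simp [(hf i).2 h, (hg i).2 h]⟩
  zero_mem' := fun i => ⟨zero_mem _, fun _ => rfl⟩
  smul_mem' := fun r f hf i => ⟨Submodule.smul_mem _ r (hf i).1, fun h => by simp [(hf i).2 h]⟩

variable {c : I → Submodule R M} {c' : I' → Submodule R M'}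

theorem mem_xm {Z : Set I} {f : I →₀ M} : f ∈ XM c Z ↔ ∀ i, f i ∈ c i ∧ (i ∉ Z → f i = 0) :=
  Iff.rfl

theorem xm_mono {Y Z : Set I} (h : Y ⊆ Z) : XM c Y ≤ XM c Z :=
  fun _ hf i => ⟨(hf i).1, fun hi => (hf i).2 fun h' => hi (h h')⟩

theorem xm_fy : Fy fun Z => (XM c Z : Set (I →₀ M)) :=
  ⟨fun _ _ h => xm_mono h, fun _ f hf => ⟨f.support, fun i hi => by_contra fun h =>
    Finsupp.mem_support_iff.1 hi ((hf i).2 h), f.support.finite_toSet,
    fun i => ⟨(hf i).1, fun h => Finsupp.notMem_support_iff.1 h⟩⟩⟩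

theorem single_mem {Z : Set I} {i : I} (hi : i ∈ Z) {x : M} (hx : x ∈ c i) :
    Finsupp.single i x ∈ XM c Z := by
  classical
  intro j
  by_cases h : i = j
  · subst h; simp [hx, hi]
  · simp [h]

theorem xm_ind {Z : Set I} {H : Type*} [SetLike H (I →₀ M)] [AddSubmonoidClass H (I →₀ M)] (U : H)
    (h : ∀ i ∈ Z, ∀ x ∈ c i, Finsupp.single i x ∈ U) {f : I →₀ M} (hf : f ∈ XM c Z) : f ∈ U := by
  rw [← f.sum_single]
  exact sum_mem fun i hi => h i (by_contra fun h' =>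
    Finsupp.mem_support_iff.1 hi ((hf i).2 h')) _ (hf i).1

theorem xm_disj {Y Z : Set I} (h : Disjoint Y Z) : Disjoint (XM c Y) (XM c Z) := by
  rw [Submodule.disjoint_def]
  intro f h1 h2
  ext i
  by_cases hi : i ∈ Y
  · exact (h2 i).2 (Set.disjoint_left.1 h hi)
  · exact (h1 i).2 hi

theorem xm_union (Y Z : Set I) : XM c Y ⊔ XM c Z = XM c (Y ∪ Z) :=
  le_antisymm (sup_le (xm_mono subset_union_left) (xm_mono subset_union_right)) fun _ =>
    xm_ind _ fun _ hi _ hx => hi.elim (fun h => Submodule.mem_sup_left (single_mem h hx))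
      fun h => Submodule.mem_sup_right (single_mem h hx)

theorem xm_indep {X : Type*} (Z : X → Set I) (h : ∀ x y, x ≠ y → Disjoint (Z x) (Z y)) :
    iSupIndep fun x => XM c (Z x) := fun x =>
  (xm_disj (disjoint_compl_right (a := Z x))).mono_right (iSup₂_le fun y hy =>
    xm_mono (h y x hy).subset_compl_right)

theorem xm_sup {X : Type*} (Z : X → Set I) : ⨆ x, XM c (Z x) = XM c (⋃ x, Z x) :=
  le_antisymm (iSup_le fun x => xm_mono (subset_iUnion Z x)) fun _ =>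
    xm_ind _ fun _ hi _ hx => by
      obtain ⟨x, h⟩ := mem_iUnion.1 hi
      exact le_iSup (fun x => XM c (Z x)) x (single_mem h hx)

theorem xm_single (i : I) : Nonempty (c i ≃ₗ[R] XM c {i}) := by
  refine ⟨LinearEquiv.ofBijective (((Finsupp.lsingle i).comp (c i).subtype).codRestrict (XM c {i})
    fun x => single_mem (mem_singleton i) x.2) ⟨fun x y h => Subtype.ext (Finsupp.single_injective i
      (congrArg Subtype.val h :)), fun f => ⟨⟨f.1 i, (f.2 i).1⟩, Subtype.ext ?_⟩⟩⟩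
  change Finsupp.single i (f.1 i) = f.1
  ext j
  by_cases h : j = i
  · subst h; simp
  · simp [Finsupp.single_eq_of_ne h, (f.2 j).2 h]

theorem xm_glue {X : Type*} {Z : X → Set I} {Z' : X → Set I'}
    (h : ∀ x y, x ≠ y → Disjoint (Z x) (Z y)) (h' : ∀ x y, x ≠ y → Disjoint (Z' x) (Z' y))
    (e : ∀ x, Nonempty (XM c (Z x) ≃ₗ[R] XM c' (Z' x))) {U : Set I} {U' : Set I'}
    (hU : ⋃ x, Z x = U) (hU' : ⋃ x, Z' x = U') : Nonempty (XM c U ≃ₗ[R] XM c' U') := by
  obtain ⟨E, -⟩ := glueM (xm_indep Z h) (xm_indep Z' h') fun x => (e x).some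
  rw [xm_sup, xm_sup, hU, hU'] at E
  exact ⟨E⟩

theorem xm_bij {Z : Set I} {Z' : Set I'} {β : I → I'} (hβ : BijOn β Z Z')
    (h : ∀ i ∈ Z, Nonempty (c i ≃ₗ[R] c' (β i))) : Nonempty (XM c Z ≃ₗ[R] XM c' Z') :=
  xm_glue (X := Z) (Z := fun x => {x.1}) (Z' := fun x => {β x.1})
    (fun _ _ h => disjoint_singleton.2 fun e => h (Subtype.ext e))
    (fun x y h => disjoint_singleton.2 fun e => h (Subtype.ext (hβ.injOn x.2 y.2 e)))
    (fun x => ⟨((xm_single x.1).some.symm.trans (h x x.2).some).trans (xm_single _).some⟩)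
    (iUnion_of_singleton_coe Z) (by rw [← hβ.image_eq, image_eq_iUnion, biUnion_eq_iUnion])

theorem xm_top {D : I → Submodule R M} (h : iSupIndep D) (h' : iSup D = ⊤) :
    Nonempty (M ≃ₗ[R] XM D univ) := by
  obtain ⟨E, -⟩ := glueM h (xm_indep (c := D) (fun i => {i}) fun _ _ h => disjoint_singleton.2 h)
    fun i => (xm_single i).some
  rw [xm_sup, iUnion_of_singleton, h'] at E
  exact ⟨Submodule.topEquiv.symm.trans E⟩

theorem xm_xs {A : Set I} {A' : Set I'} {E : S → Set I} {E' : S → Set I'}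
    (h₀ : Nonempty (XM c A ≃ₗ[R] XM c' A')) (h : ∀ x, Nonempty (XM c (E x) ≃ₗ[R] XM c' (E' x))) :
    Nonempty (XM (fun p : W I S => c p.pt) (XS A E univ) ≃ₗ[R]
      XM (fun p : W I' S => c' p.pt) (XS A' E' univ)) := by
  have key : ∀ {J N : Type u} [AddCommGroup N] [Module R N] (d : J → Submodule R N) (B : Set J)
      (o : Option S), Nonempty (XM d B ≃ₗ[R] XM (fun p : W J S => d p.pt)
        ((fun x => ⟨x, o⟩) '' B)) := fun d B o =>
    xm_bij (InjOn.bijOn_image fun x _ y _ h => congrArg W.pt h) fun _ _ => ⟨LinearEquiv.refl _ _⟩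
  have k2 : ∀ {J : Type u} (B : Option S → Set J) (x y : Option S), x ≠ y →
      Disjoint ((fun z => (⟨z, x⟩ : W J S)) '' B x) ((fun z => ⟨z, y⟩) '' B y) := by
    intro J B x y hxy
    rw [Set.disjoint_left]
    rintro _ ⟨z, -, rfl⟩ ⟨w, -, e⟩
    exact hxy (congrArg W.ix e).symm
  have k3 : ∀ {J : Type u} (A : Set J) (E : S → Set J),
      ⋃ o : Option S, (fun z => (⟨z, o⟩ : W J S)) '' o.elim A E = XS A E univ := by
    intro J A E
    ext ⟨z, _ | j⟩
    · simp [xs_none]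
    · simp [xs_some]
  refine xm_glue (k2 fun o => o.elim A E) (k2 fun o => o.elim A' E') (fun o => ?_) (k3 A E)
    (k3 A' E')
  have e : Nonempty (XM c (o.elim A E) ≃ₗ[R] XM c' (o.elim A' E')) := by
    cases o
    · exact h₀
    · exact h _
  exact ⟨((key c _ o).some.symm.trans e.some).trans (key c' _ o).some⟩

theorem mk_xm_le {Z : Set I} {σ : Cardinal.{u}} (hσ : ℵ₀ ≤ σ) (hZ : #Z ≤ σ)
    (hc : ∀ i, #(c i) ≤ σ) : #(XM c Z) ≤ σ := by
  let φ : FreeAddMonoid (Σ i : Z, c i) →+ (I →₀ M) :=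
    FreeAddMonoid.lift fun e => Finsupp.single e.1.1 e.2.1
  have h : (XM c Z : Set (I →₀ M)) ⊆ range φ := fun f hf =>
    xm_ind (H := AddSubmonoid _) (AddMonoidHom.mrange φ) (fun i hi x hx =>
      AddMonoidHom.mem_mrange.2 ⟨FreeAddMonoid.of ⟨⟨i, hi⟩, x, hx⟩, by simp [φ]⟩) hf
  refine (mk_le_mk_of_subset h).trans (mk_range_le.trans ((mk_list_le_max _).trans (max_le hσ ?_)))
  rw [mk_sigma]
  exact (sum_le_mk_mul_iSup _).trans (mul_le_of_le hσ hZ (ciSup_le' fun i => hc _))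

theorem le_mk_xm {Z : Set I} (hc : ∀ i ∈ Z, c i ≠ ⊥) : #Z ≤ #(XM c Z) := by
  choose x h1 h2 using fun i : Z => (Submodule.ne_bot_iff _).1 (hc i i.2)
  refine mk_le_of_injective (f := fun i => ⟨Finsupp.single i.1 (x i), single_mem i.2 (h1 i)⟩)
    fun i j h => Subtype.ext ?_
  rcases (Finsupp.single_eq_single_iff _ _ _ _).1 (congrArg Subtype.val h :) with h' | h'
  · exact h'.1
  · exact absurd h'.1 (h2 _)

theorem exists_col {l : Cardinal.{u}} (hl : ℵ₀ ≤ l) (hR : #R ≤ l) (hc : ∀ i, #(c i) ≤ l) :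
    ∃ (T : Type u) (col : I → T), #T ≤ 2 ^ l ∧
      ∀ i j, col i = col j → Nonempty (c i ≃ₗ[R] c j) := by
  have he : ∀ i, Nonempty (c i ↪ l.out) := fun i => (le_def _ _).1 (by rw [mk_out]; exact hc i)
  let e := fun i => (he i).some
  refine ⟨Set (l.out × l.out × l.out) × Set (R × l.out × l.out), fun i =>
    ({p | ∃ x y, p = (e i x, e i y, e i (x + y))}, {p | ∃ r x, p = (r, e i x, e i (r • x))}), ?_,
    fun i j h => ?_⟩
  · have h2 := hl.trans (cantor l).le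
    simp only [mk_prod, lift_id, mk_set, mk_out]
    exact mul_le_of_le h2 (power_le_power_left two_ne_zero (mul_le_of_le hl le_rfl
      (mul_le_of_le hl le_rfl le_rfl))) (power_le_power_left two_ne_zero
      (mul_le_of_le hl hR (mul_le_of_le hl le_rfl le_rfl)))
  · have h1 := Set.ext_iff.1 (congrArg Prod.fst h)
    have h2 := Set.ext_iff.1 (congrArg Prod.snd h)
    have k : ∀ x, ∃ y, e j y = e i x := fun x => by
      obtain ⟨a, b, h3⟩ := (h1 _).1 ⟨x, x, rfl⟩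
      exact ⟨a, (congrArg Prod.fst h3).symm⟩
    choose g hg using k
    refine ⟨LinearEquiv.ofBijective ⟨⟨g, fun x y => ?_⟩, fun r x => ?_⟩
      ⟨fun x y h => (e i).injective ?_, fun y => ?_⟩⟩
    · obtain ⟨a, b, h⟩ := (h1 _).1 ⟨x, y, rfl⟩
      simp only [Prod.mk.injEq, ← hg, EmbeddingLike.apply_eq_iff_eq] at h
      rw [h.2.2, h.1, h.2.1]
    · obtain ⟨a, b, h⟩ := (h2 _).1 ⟨r, x, rfl⟩
      simp only [Prod.mk.injEq, ← hg, EmbeddingLike.apply_eq_iff_eq] at h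
      simp only [RingHom.id_apply]
      rw [h.2.2, h.1, h.2.1]
    · rw [← hg, ← hg]; exact congrArg _ h
    · obtain ⟨a, b, h3⟩ := (h1 _).2 ⟨y, y, rfl⟩
      exact ⟨a, (e j).injective ((hg a).trans (congrArg Prod.fst h3).symm)⟩

end Vale.Agent.P307S
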