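import Vale.Agent.P307.MKW

/-! P307: tools for the upward transfer. -/

open Cardinal hiding univ
open Set

universe u

namespace Vale.Agent.P307S

theorem wf_choice {J X : Type*} {r : J → J → Prop} (wf : WellFounded r) [Nonempty X]
    (Q : J → (J → X) → X → Prop)
    (hloc : ∀ β G G' x, (∀ α, r α β → G α = G' α) → Q β G x → Q β G' x)
    (htr : ∀ a b c, r a b → r b c → r a c)
    (h : ∀ β G, (∀ α, r α β → Q α G (G α)) → ∃ x, Q β G x) : ∃ G, ∀ β, Q β G (G β) := by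
  classical
  let G : J → X := wf.fix fun β prev => Classical.epsilon
    (Q β fun α => if h : r α β then prev α h else Classical.arbitrary X)
  have hG : ∀ β, G β = Classical.epsilon
      (Q β fun α => if r α β then G α else Classical.arbitrary X) := fun β => by
    simp only [G]
    rw [wf.fix_eq]
    rfl
  refine ⟨G, fun β => ?_⟩
  induction β using wf.induction with
  | _ β ih =>
  have e : ∀ α, r α β → (if r α β then G α else Classical.arbitrary X) = G α :=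
    fun α hα => if_pos hα
  rw [hG β]
  refine hloc β _ _ _ e (Classical.epsilon_spec (h β _ fun α hα => ?_))
  simp only [e α hα]
  exact hloc α _ _ _ (fun γ hγ => (e γ (htr _ _ _ hγ hα)).symm) (ih α hα)

variable {R : Type u} [Ring R] {K : MAEC R}
variable {N N' P I : Type u} [AddCommGroup N] [Module R N] [AddCommGroup N'] [Module R N']
  [AddCommGroup P] [Module R P] {l κ : Cardinal.{u}}

/-- Closed under unions of nonempty chains. -/
def ChC (Φ : Submodule R N → Prop) : Prop :=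
  ∀ (ι : Type u) [Nonempty ι] (Z : ι → Submodule R N), (∀ i j, Z i ≤ Z j ∨ Z j ≤ Z i) →
    (∀ i, Φ (Z i)) → ∀ U : Submodule R N, (∀ x, x ∈ U ↔ ∃ i, x ∈ Z i) → Φ U

theorem fin_ind {Φ : Submodule R N → Prop} (h : ChC Φ) {G : Set I → Submodule R N}
    (hG : Fy fun a => (G a : Set N)) (a : Set I) (hf : ∀ s, s ⊆ a → s.Finite → Φ (G s)) :
    Φ (G a) := by
  induction hk : #a using WellFoundedLT.induction generalizing a with
  | ind k ih =>
  by_cases ha : a.Finite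
  · exact hf a subset_rfl ha
  have hinf : ℵ₀ ≤ #a := infinite_iff.1 (Set.infinite_coe_iff.2 ha)
  obtain ⟨_, _, ho⟩ := exists_ord_eq_type_lt a
  have : Nonempty a := mk_ne_zero_iff.1 (aleph0_pos.trans_le hinf).ne'
  let B : a → Set I := fun i => Subtype.val '' Iic i
  have hB : ∀ i, #(B i) < k := fun i => hk ▸ mk_image_le.trans_lt (mk_Iic_lt i ho hinf)
  have hmono : ∀ i j, B i ⊆ B j ∨ B j ⊆ B i := fun i j =>
    (le_total i j).imp (fun h => image_mono (Iic_subset_Iic.2 h))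
      fun h => image_mono (Iic_subset_Iic.2 h)
  have hBa : ∀ i, B i ⊆ a := by rintro i _ ⟨y, -, rfl⟩; exact y.2
  have hU : ⋃ i, B i = a := Subset.antisymm (iUnion_subset hBa) fun x hx =>
    mem_iUnion.2 ⟨⟨x, hx⟩, ⟨x, hx⟩, mem_Iic.2 le_rfl, rfl⟩
  refine h a (fun i => G (B i)) (fun i j => (hmono i j).imp (fun h => hG.1 h) fun h => hG.1 h)
    (fun i => ih _ (hB i) _ (fun s hs => hf s (hs.trans (hBa i))) rfl) _ ?_
  have := hG.iUnion B hmono
  rwa [hU] at this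

/-- There is a projection onto `s`. -/
def Prj (s : Submodule R N) : Prop := ∃ p : N →ₗ[R] N, (∀ x, p x ∈ s) ∧ ∀ x ∈ s, p x = x

theorem prj_iff {s : Submodule R N} : Prj s ↔ ∃ q, IsCompl s q :=
  ⟨fun ⟨_, h1, h2⟩ => ⟨_, LinearMap.IsProj.isCompl ⟨h1, h2⟩⟩, fun ⟨q, h⟩ => ⟨s.projection q h,
    Submodule.projection_apply_mem h, fun _ => Submodule.projection_apply_of_mem_left h⟩⟩

theorem ss_ret (hl : ℵ₀ ≤ l) (h : SmallSum R l N) (i : N' →ₗ[R] N) (s : N →ₗ[R] N')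
    (hs : ∀ y, s (i y) = y) : SmallSum R l N' := by
  obtain ⟨I, D, h1, h2, h3⟩ := h
  obtain ⟨e⟩ := xm_top h1 h2
  exact kw hl h3 (e.toLinearMap ∘ₗ i) (s ∘ₗ e.symm.toLinearMap) fun y => by simp [hs]

theorem ss_congr (hl : ℵ₀ ≤ l) (h : SmallSum R l N) (e : N ≃ₗ[R] N') : SmallSum R l N' :=
  ss_ret hl h e.symm.toLinearMap e.toLinearMap fun y => by simp

theorem Prj.ss (hl : ℵ₀ ≤ l) (h : SmallSum R l N) {s : Submodule R N} (hs : Prj s) :
    SmallSum R l s := by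
  obtain ⟨p, h1, h2⟩ := hs
  exact ss_ret hl h s.subtype (p.codRestrict s h1) fun y => Subtype.ext (h2 _ y.2)

theorem ss_fam (hl : ℵ₀ ≤ l) (h : SmallSum R l N) : ∃ (I : Type u) (F : Set I → Submodule R N),
    (Fy fun a => (F a : Set N)) ∧ F univ = ⊤ ∧
      (∀ σ, l ≤ σ → ∀ a : Set I, #a ≤ σ → #(F a) ≤ σ) ∧ ∀ a, Prj (F a) := by
  classical
  obtain ⟨I, D, h1, h2, h3⟩ := h
  obtain ⟨e⟩ := xm_top h1 h2
  refine ⟨I, fun a => (XM D a).comap ((XM D univ).subtype ∘ₗ e.toLinearMap),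
    ⟨fun a b h y hy => xm_mono h hy, fun a y hy => (xm_fy (c := D)).2 a (e y).1 hy⟩,
    eq_top_iff.2 fun y _ => (e y).2, fun σ hσ a ha => le_trans (mk_le_of_injective
      (f := fun y => (⟨(e y.1).1, y.2⟩ : XM D a)) fun x y h => Subtype.ext (e.injective
        (Subtype.ext (congrArg Subtype.val h :)))) (mk_xm_le (hl.trans hσ) ha
          fun i => (h3 i).trans hσ), fun a => ?_⟩
  have hc : IsCompl ((XM D a).comap (XM D univ).subtype) ((XM D aᶜ).comap (XM D univ).subtype) := by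
    refine ⟨Submodule.disjoint_def.2 fun x h1 h2 =>
      Subtype.ext (Submodule.disjoint_def.1 (xm_disj disjoint_compl_right) _ h1 h2),
      codisjoint_iff.2 (eq_top_iff.2 fun x _ => ?_)⟩
    have hx' : x.1 ∈ XM D a ⊔ XM D aᶜ := by rw [xm_union, union_compl_self]; exact x.2
    obtain ⟨y, hy, z, hz, e⟩ := Submodule.mem_sup.1 hx'
    exact Submodule.mem_sup.2 ⟨⟨y, xm_mono (subset_univ _) hy⟩, hy,
      ⟨z, xm_mono (subset_univ _) hz⟩, hz, Subtype.ext e⟩
  obtain ⟨p, k1, k2⟩ := prj_iff.2 ⟨_, hc⟩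
  refine ⟨e.symm.toLinearMap ∘ₗ p ∘ₗ e.toLinearMap, fun x => ?_, fun x hx => ?_⟩
  · simpa using k1 (e x)
  · simp [k2 (e x) hx]

theorem ss_flat (hl : ℵ₀ ≤ l) {E : I → Submodule R N} (h : iSupIndep E)
    (hE : ∀ i, SmallSum R l (E i)) : SmallSum R l ↥(iSup E) := by
  choose J D h1 h2 h3 using hE
  let c : (Σ i, J i) → Submodule R N := fun p => (D p.1 p.2).map (E p.1).subtype
  have k : ∀ i, Nonempty (E i ≃ₗ[R] XM c (range (Sigma.mk i))) := fun i =>
    ⟨(xm_top (h1 i) (h2 i)).some.trans (xm_bij (c := D i) (c' := c) (β := Sigma.mk i)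
      (image_univ ▸ sigma_mk_injective.injOn.bijOn_image) fun j _ =>
        ⟨(D i j).equivMapOfInjective _ (E i).injective_subtype⟩).some⟩
  obtain ⟨e, -⟩ := glueM h (xm_indep (c := c) (fun i => range (Sigma.mk i)) fun i j hij => by
    rw [Set.disjoint_left]
    rintro _ ⟨x, rfl⟩ ⟨y, e⟩
    exact hij (congrArg Sigma.fst e).symm) fun i => (k i).some
  have e2 : ⋃ i, range (Sigma.mk i : J i → Σ i, J i) = univ :=
    eq_univ_of_forall fun p => mem_iUnion.2 ⟨p.1, p.2, rfl⟩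
  rw [xm_sup, e2] at e
  exact kw hl (fun p => (mk_image_le (s := (D p.1 p.2 : Set (E p.1)))).trans (h3 _ _))
    e.toLinearMap e.symm.toLinearMap fun y => by simp

variable (l) in
/-- `s` has a complement in `t` which is a sum of small modules. -/
def Cpl (s t : Submodule R N) : Prop := ∃ q, Disjoint s q ∧ s ⊔ q = t ∧ SmallSum R l q

theorem filt (hl : ℵ₀ ≤ l) [LinearOrder I] [WellFoundedLT I] {M : Submodule R N}
    {H : Set I → Submodule R N} (hH : Fy fun a => (H a : Set N)) (h₀ : Cpl l M (H ∅))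
    (hs : ∀ x, Cpl l (H (Iio x)) (H (Iic x))) : Cpl l M (H univ) := by
  let Q : Set (Set I × Set (Submodule R N)) := {p | IsLowerSet p.1 ∧ sSupIndep p.2 ∧
    (∀ C ∈ p.2, SmallSum R l C) ∧ Disjoint M (sSup p.2) ∧ M ⊔ sSup p.2 = H p.1}
  obtain ⟨q₀, k1, k2, k3⟩ := h₀
  obtain ⟨⟨a, 𝒟⟩, -, ⟨hg, hi, hss, hd, hsup⟩, hmax⟩ := zorn_le_nonempty₀ Q (fun ch hch hc y hy => by
      have : Nonempty ch := ⟨⟨y, hy⟩⟩
      have ht : ∀ p q : ch, p.1 ≤ q.1 ∨ q.1 ≤ p.1 := fun p q => hc.total p.2 q.2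
      have hm := hH.iUnion (fun p : ch => p.1.1) fun p q => (ht p q).imp And.left And.left
      have hdir : Directed (· ⊆ ·) fun p : ch => p.1.2 := fun p q =>
        (ht p q).elim (fun h => ⟨q, h.2, subset_rfl⟩) fun h => ⟨p, subset_rfl, h.2⟩
      refine ⟨(⋃ p : ch, p.1.1, ⋃ p : ch, p.1.2), ⟨isLowerSet_iUnion fun p => (hch p.2).1,
        sSupIndep_iUnion_of_directed hdir fun p => (hch p.2).2.1, fun C hC => ?_, ?_,
        le_antisymm (sup_le ?_ (sSup_le fun C hC => ?_)) fun y hy => ?_⟩,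
        fun p hp => ⟨subset_iUnion (fun p : ch => p.1.1) ⟨p, hp⟩,
          subset_iUnion (fun p : ch => p.1.2) ⟨p, hp⟩⟩⟩
      · obtain ⟨p, hp⟩ := mem_iUnion.1 hC
        exact (hch p.2).2.2.1 C hp
      · rw [sSup_iUnion]
        exact (Directed.disjoint_iSup_right (hdir.mono_comp _ fun _ _ h => sSup_le_sSup h)).2
          fun p => (hch p.2).2.2.2.1
      · exact fun x hx => (hm _).2 ⟨⟨y, hy⟩, (hch hy).2.2.2.2.le (Submodule.mem_sup_left hx)⟩
      · obtain ⟨p, hp⟩ := mem_iUnion.1 hC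
        exact fun x hx => (hm _).2 ⟨p, (hch p.2).2.2.2.2.le
          (Submodule.mem_sup_right (le_sSup hp hx))⟩
      · obtain ⟨p, hp⟩ := (hm _).1 hy
        exact sup_le_sup_left (sSup_le_sSup (subset_iUnion (fun p : ch => p.1.2) p)) _
          ((hch p.2).2.2.2.2.ge hp))
    (∅, {q₀}) ⟨isLowerSet_empty, sSupIndep_singleton _, fun C hC => hC ▸ k3, by simpa using k1,
      by simpa using k2⟩
  simp only at hg hi hss hd hsup
  have ha : a = univ := by
    by_contra hne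
    have hne' : aᶜ.Nonempty := nonempty_compl.2 hne
    let x := wellFounded_lt.min aᶜ hne'
    have hx : x ∉ a := wellFounded_lt.min_mem aᶜ hne'
    have e : a = Iio x := Subset.antisymm (fun y hy => not_le.1 fun h => hx (hg h hy))
      fun y hy => by_contra fun h => wellFounded_lt.not_lt_min aᶜ h hy
    obtain ⟨q, m1, m2, m3⟩ := hs x
    rw [← e, ← hsup] at m1 m2
    have := hmax (y := (Iic x, insert q 𝒟)) ⟨isLowerSet_Iic x,
      indep_insert hi (m1.symm.mono_right le_sup_right), ?_, ?_, ?_⟩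
      ⟨e ▸ Iio_subset_Iic_self, subset_insert _ _⟩
    · exact hx (this.1 (mem_Iic.2 le_rfl))
    · rintro C (rfl | hC)
      exacts [m3, hss C hC]
    · rw [sSup_insert, sup_comm]
      exact hd.disjoint_sup_right_of_disjoint_sup_left m1
    · rw [sSup_insert, sup_comm q, ← sup_assoc, m2]
  subst ha
  refine ⟨_, hd, hsup, ?_⟩
  rw [sSup_eq_iSup']
  exact ss_flat hl ((sSupIndep_iff _).1 hi) fun C => hss C C.2

theorem swindle {Z : Type u} [AddCommGroup Z] [Module R Z] (i : Z →ₗ[R] N) (s : N →ₗ[R] Z)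
    (h : ∀ y, s (i y) = y) : Nonempty ((Z × (ℕ →₀ N)) ≃ₗ[R] (ℕ →₀ N)) := by
  let e : (ℕ →₀ N) →ₗ[R] (ℕ →₀ N) := Finsupp.mapRange.linearMap (i ∘ₗ s)
  have up0 : ∀ f : ℕ →₀ N, Finsupp.mapDomain Nat.succ f 0 = 0 := fun f =>
    Finsupp.mapDomain_of_notMem_range _ _ (by simp)
  have up1 : ∀ (f : ℕ →₀ N) n, Finsupp.mapDomain Nat.succ f (n + 1) = f n := fun f n =>
    Finsupp.mapDomain_apply Nat.succ_injective _ _
  refine ⟨LinearEquiv.ofLinearMap ((Finsupp.lsingle 0 ∘ₗ i).coprod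
    (Finsupp.lmapDomain N R Nat.succ ∘ₗ e + (LinearMap.id - e)))
    ((s ∘ₗ Finsupp.lapply 0).prod (e ∘ₗ Finsupp.lcomapDomain _ Nat.succ_injective +
      (LinearMap.id - e))) (LinearMap.ext fun g => Finsupp.ext fun n => ?_)
    (LinearMap.ext fun p => Prod.ext ?_ (Finsupp.ext fun n => ?_))⟩
  · cases n <;> simp [e, up0, up1, h, Finsupp.lcomapDomain]
  · simp [e, up0, h]
  · cases n <;> simp [e, up0, up1, h, Finsupp.lcomapDomain]

theorem pow_mem (hS : K.SumCl) (hN : K.mem N) : K.mem (ℕ →₀ N) :=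
  mem_congr ((LinearEquiv.ofTop _ (eq_top_iff.2 fun _ _ _ => ⟨trivial, fun h =>
    absurd trivial h⟩)).trans (Finsupp.domLCongr Equiv.ulift))
    (xm_mem hS (c := fun _ : ULift.{u} ℕ => (⊤ : Submodule R N))
      (fun _ => mem_congr Submodule.topEquiv.symm hN) ⟨0⟩)

variable (K l) in
/-- Strong pairs of size between `θ` and `m` split. -/
def Sp (θ m : Cardinal.{u}) : Prop :=
  ∀ (N : Type u) [AddCommGroup N] [Module R N] (M : Submodule R N), MLe K M ⊤ → θ ≤ #M → #N ≤ m →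
    Cpl l M ⊤

theorem Cpl.prj {s : Submodule R N} (h : Cpl l s ⊤) : Prj s :=
  let ⟨q, h1, h2, _⟩ := h
  prj_iff.2 ⟨q, h1, codisjoint_iff.2 h2⟩

theorem chc_prj (hS : K.SumCl) {θ m : Cardinal.{u}} (hA : Sp K l θ m) (hm : ℵ₀ ≤ m) (hN : K.mem N)
    (h1 : θ ≤ #N) (h2 : #N ≤ m) (i : N' →ₗ[R] N) (s : N →ₗ[R] N') (h : ∀ y, s (i y) = y) :
    ChC (Prj : Submodule R N' → Prop) := by
  intro ι _ Z hZ hp U hU
  have hW := pow_mem hS hN
  have hi : Function.Injective i := Function.LeftInverse.injective h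
  have hWc : #(ℕ →₀ N) ≤ m := by
    refine (mk_congr (Finsupp.domLCongr (R := R) (M := N)
      (Equiv.ulift : ULift.{u} ℕ ≃ ℕ)).toEquiv).ge.trans ?_
    refine (mk_congr (LinearEquiv.ofTop (XM (fun _ : ULift.{u} ℕ => (⊤ : Submodule R N)) univ)
      (eq_top_iff.2 fun _ _ _ => ⟨trivial, fun h => absurd trivial h⟩)).toEquiv).ge.trans ?_
    exact mk_xm_le hm (by simpa using hm) fun _ => (mk_set_le _).trans h2
  have k : ∀ q : Submodule R N', Prj q → K.mem (q × (ℕ →₀ N)) := fun q ⟨p, k1, k2⟩ =>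
    mem_congr (swindle (i ∘ₗ q.subtype) (p.codRestrict q k1 ∘ₗ s) fun y =>
      Subtype.ext (by simp [h, k2])).some.symm hW
  let f : Submodule R N' → Submodule R (N' × (ℕ →₀ N) × (ℕ →₀ N)) := fun q => q.prod (Submodule.prod ⊤ ⊥)
  let f' : Submodule R N' → Submodule R (N' × (ℕ →₀ N) × (ℕ →₀ N)) := fun q => q.prod (Submodule.prod ⊥ ⊤)
  have e : ∀ q : Submodule R N', Nonempty ((q × (ℕ →₀ N)) ≃ₗ[R] f q) := fun q =>
    ⟨LinearEquiv.ofBijective ((q.subtype.prodMap (LinearMap.inl R _ _)).codRestrict (f q)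
      fun x => ⟨x.1.2, trivial, rfl⟩) ⟨fun x y h => by
        have := congrArg Subtype.val h
        exact Prod.ext (Subtype.ext (congrArg Prod.fst this)) (congrArg (·.2.1) this),
      fun x => ⟨(⟨x.1.1, x.2.1⟩, x.1.2.1), Subtype.ext (Prod.ext rfl (Prod.ext rfl x.2.2.2.symm))⟩⟩⟩
  have e' : ∀ q : Submodule R N', Nonempty ((q × (ℕ →₀ N)) ≃ₗ[R] f' q) := fun q =>
    ⟨LinearEquiv.ofBijective ((q.subtype.prodMap (LinearMap.inr R _ _)).codRestrict (f' q)
      fun x => ⟨x.1.2, rfl, trivial⟩) ⟨fun x y h => by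
        have := congrArg Subtype.val h
        exact Prod.ext (Subtype.ext (congrArg Prod.fst this)) (congrArg (·.2.2) this),
      fun x => ⟨(⟨x.1.1, x.2.1⟩, x.1.2.2), Subtype.ext (Prod.ext rfl (Prod.ext x.2.2.1.symm rfl))⟩⟩⟩
  have hle : ∀ j, MLe K (f (Z j)) ⊤ := fun j => by
    obtain ⟨q, hq⟩ := prj_iff.1 (hp j)
    refine sum_le hS (q := f' q) ?_ ?_ (mem_congr (e _).some (k _ (hp j)))
      (mem_congr (e' _).some (k _ (prj_iff.2 ⟨_, hq.symm⟩)))
    · rw [Submodule.disjoint_def]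
      rintro ⟨x, y, z⟩ k1 k2
      exact Prod.ext (Submodule.disjoint_def.1 hq.disjoint x k1.1 k2.1) (Prod.ext k2.2.1 k1.2.2)
    · simp only [f, f', Submodule.prod_sup_prod, hq.sup_eq_top, bot_sup_eq,
        sup_bot_eq, Submodule.prod_top]
  have hUle : MLe K (f U) ⊤ := msmooth_le (fun j => f (Z j)) (fun a b => (hZ a b).imp
    (fun h => Submodule.prod_mono h le_rfl) fun h => Submodule.prod_mono h le_rfl) hle fun x =>
      ⟨fun hx => ((hU _).1 hx.1).imp fun j hj => ⟨hj, hx.2⟩, fun ⟨j, hj⟩ => ⟨(hU _).2 ⟨j, hj.1⟩, hj.2⟩⟩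
  obtain ⟨p, k1, k2⟩ := (hA _ _ hUle (h1.trans (mk_le_of_injective
    (f := fun x => ⟨(0, Finsupp.single 0 x, 0), zero_mem U, trivial, rfl⟩) fun x y h =>
      Finsupp.single_injective 0 (congrArg (·.1.2.1) h))) (by
      simp only [mk_prod, lift_id]
      exact mul_le_of_le hm ((mk_le_of_injective hi).trans h2) (mul_le_of_le hm hWc hWc))).prj
  exact ⟨LinearMap.fst R _ _ ∘ₗ p ∘ₗ LinearMap.inl R _ _, fun x => (k1 _).1, fun x hx =>
    congrArg Prod.fst (k2 (x, 0) ⟨hx, trivial, rfl⟩)⟩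

end Vale.Agent.P307S
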