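import Vale.Agent.P307.MUp1

/-! P307: strong embeddings split below the categoricity cardinal. -/

open Cardinal hiding univ
open Set

universe u

namespace Vale.Agent.P307S

variable {R : Type u} [Ring R] {K : MAEC R}
variable {U N I : Type u} [AddCommGroup U] [Module R U] [AddCommGroup N] [Module R N]
  {l κ θ : Cardinal.{u}}

theorem colim [LinearOrder I] [WellFoundedLT I] [Nonempty I] (hU : K.mem U)
    (m : I → I → U →ₗ[R] U) (h1 : ∀ i j, i < j → K.le (m i j))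
    (h2 : ∀ i j k, i < j → j < k → ∀ x, m j k (m i j x) = m i k x) :
    ∃ (P : Type u) (_ : AddCommGroup P) (_ : Module R P) (ι : I → U →ₗ[R] P), K.mem P ∧
      (∀ i, K.le (ι i)) ∧ (∀ i j, i < j → ∀ x, ι j (m i j x) = ι i x) ∧ ∀ y, ∃ i x, ι i x = y := by
  classical
  let f : ∀ i j : I, i ≤ j → U →ₗ[R] U := fun i j _ => if i = j then LinearMap.id else m i j
  have hf : ∀ i j h, K.le (f i j h) := fun i j h => by
    by_cases e : i = j
    · simp only [f, if_pos e]; exact K.iso (LinearEquiv.refl R U) hU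
    · simp only [f, if_neg e]; exact h1 i j (lt_of_le_of_ne h e)
  have : DirectedSystem (fun _ : I => U) (f · · ·) := ⟨fun i x => by simp [f], fun k j i a b x => by
    rcases a.eq_or_lt with rfl | a'
    · simp [f]
    rcases b.eq_or_lt with rfl | b'
    · simp [f]
    simp only [f, if_neg a'.ne, if_neg b'.ne, if_neg (a'.trans b').ne, h2 _ _ _ a' b']⟩
  let ι : I → U →ₗ[R] Module.DirectLimit (fun _ : I => U) f :=
    fun i => Module.DirectLimit.of R I (fun _ : I => U) f i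
  have hι : ∀ i, Function.Injective (ι i) := fun i x y h => by
    obtain ⟨j, hj, e⟩ := Module.DirectLimit.exists_eq_of_of_eq h
    exact (K.le_mem _ (hf i j hj)).1 e
  have hc : ∀ i j h x, ι j (f i j h x) = ι i x := fun i j h x => Module.DirectLimit.of_f (hij := h)
  have key := K.chain (fun i => LinearMap.range (ι i))
    (fun i j h => by rintro _ ⟨x, rfl⟩; exact ⟨_, hc i j h x⟩)
    (fun i j h => mle_congr (LinearEquiv.ofInjective _ (hι i)) (LinearEquiv.ofInjective _ (hι j))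
      _ _ (fun x => Subtype.ext (hc i j h x).symm) (hf i j h))
    fun y => Module.DirectLimit.exists_of y
  refine ⟨_, inferInstance, inferInstance, ι, key.1, fun i => (K.trans _ _
    (K.iso (LinearEquiv.ofInjective _ (hι i)) hU) (key.2 i) :), fun i j h x => ?_,
    fun y => Module.DirectLimit.exists_of y⟩
  have := hc i j h.le x
  simpa only [f, if_neg h.ne] using this

omit [AddCommGroup U] in
theorem mk_cover {P : Type u} (ι : I → U → P) (h : ∀ y, ∃ i x, ι i x = y) : #P ≤ #I * #U := by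
  have := mk_le_of_surjective (f := fun p : I × U => ι p.1 p.2) fun y =>
    let ⟨i, x, e⟩ := h y
    ⟨(i, x), e⟩
  simpa using this

theorem self_split (hl : ℵ₀ ≤ l) (hθ : l ≤ θ) (hcat : K.Cat θ)
    (hss : ∀ (P : Type u) [AddCommGroup P] [Module R P], K.mem P → #P ≤ Order.succ θ →
      SmallSum R l P) (hU : K.mem U) (hc : #U = θ) (f : U →ₗ[R] U) (hf : K.le f) :
    ∃ r : U →ₗ[R] U, ∀ x, r (f x) = x := by
  classical
  have hinf := hl.trans hθ
  let J := (Order.succ θ).out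
  have hJ : #J = Order.succ θ := mk_out _
  obtain ⟨_, _, ho⟩ := exists_ord_eq_type_lt J
  have hJ' : ∀ β : J, #(Iic β) ≤ θ := fun β => Order.lt_succ_iff.1
    (hJ ▸ mk_Iic_lt β ho (hJ ▸ hinf.trans (Order.le_succ _)))
  obtain ⟨k, hk⟩ := wf_choice (wellFounded_lt (α := J)) (X := J → U →ₗ[R] U)
    (fun β G k => (∀ α, α < β → K.le (k α)) ∧
      (∀ α α', α < α' → α' < β → ∀ x, k α' (f (G α' α x)) = k α x) ∧
      ((∃ α, α < β) → ∀ y, ∃ α, α < β ∧ ∃ x, k α x = y))
    (fun β G G' k h ⟨h1, h2, h3⟩ => ⟨h1, fun α α' a b => h α' b ▸ h2 α α' a b, h3⟩)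
    (fun _ _ _ => lt_trans) fun β G ih => by
      by_cases hne : ∃ α, α < β
      swap
      · exact ⟨0, fun α h => absurd ⟨α, h⟩ hne, fun _ α _ h => absurd ⟨α, h⟩ hne,
          fun h => absurd h hne⟩
      have : Nonempty (Iio β) := hne.elim fun α h => ⟨⟨α, h⟩⟩
      obtain ⟨P, _, _, ι, h1, h2, h3, h4⟩ := colim (I := Iio β) hU (fun i j => f ∘ₗ G j i)
        (fun i j h => K.trans _ _ ((ih j j.2).1 i h) hf)
        fun i j k a b x => congrArg f ((ih k k.2).2.1 i j a b x)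
      obtain ⟨e⟩ := hcat.2 P U h1 hU (le_antisymm ((mk_cover (fun i x => ι i x) h4).trans
        (mul_le_of_le hinf ((mk_le_mk_of_subset Iio_subset_Iic_self).trans (hJ' β)) hc.le))
        (hc ▸ mk_le_of_injective (K.le_mem _ (h2 (Classical.arbitrary _))).1)) hc
      refine ⟨fun α => if h : α < β then e.toLinearMap ∘ₗ ι ⟨α, h⟩ else 0, fun α h => ?_,
        fun α α' a b x => ?_, fun _ y => ?_⟩
      · simp only [dif_pos h]; exact K.trans _ _ (h2 _) (K.iso e h1)
      · simp only [dif_pos b, dif_pos (a.trans b)]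
        exact congrArg e (h3 ⟨α, a.trans b⟩ ⟨α', b⟩ a x)
      · obtain ⟨i, x, h⟩ := h4 (e.symm y)
        refine ⟨i, i.2, x, ?_⟩
        simp only [dif_pos (show i.1 < β from i.2)]
        exact (congrArg e h).trans (e.apply_symm_apply y)
  have : Nonempty J := mk_ne_zero_iff.1 (hJ ▸ (zero_le.trans_lt (Order.lt_succ θ)).ne')
  obtain ⟨P, _, _, ι, h1, h2, h3, h4⟩ := colim (I := J) hU (fun i j => f ∘ₗ k j i)
    (fun i j h => K.trans _ _ ((hk j).1 i h) hf)
    fun i j β a b x => congrArg f ((hk β).2.1 i j a b x)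
  obtain ⟨I, F, hF, hF1, hF2, hF3⟩ := ss_fam hl (hss P h1 ((mk_cover (fun i x => ι i x) h4).trans
    (mul_le_of_le (hinf.trans (Order.le_succ _)) hJ.le (hc.le.trans (Order.le_succ _)))))
  let G : Set (J ⊕ I) → Set P := fun c => ⋃ α ∈ Sum.inl ⁻¹' c, range (ι α)
  let G' : Set (J ⊕ I) → Set P := fun c => F (Sum.inr ⁻¹' c)
  have hG : Fy G := ⟨fun a b h => biUnion_subset_biUnion_left (preimage_mono h), fun a x hx => by
    obtain ⟨α, h5, h6⟩ := mem_iUnion₂.1 hx
    exact ⟨{Sum.inl α}, singleton_subset_iff.2 h5, finite_singleton _,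
      mem_iUnion₂.2 ⟨α, rfl, h6⟩⟩⟩
  have hG' : Fy G' := ⟨fun a b h => hF.1 (preimage_mono h), fun a x hx => by
    obtain ⟨b, h5, h6, h7⟩ := hF.2 _ x hx
    exact ⟨Sum.inr '' b, image_subset_iff.2 h5, h6.image _, hF.1 (subset_preimage_image _ _) h7⟩⟩
  obtain ⟨c, ⟨hc1, hc2⟩, hc3, hc4⟩ := ((fclub_sub hinf hG hG' (fun a ha =>
      (mk_biUnion_le _ _).trans (mul_le_of_le hinf ((mk_preimage_of_injective _ _
        Sum.inl_injective).trans ha) (ciSup_le' fun _ => mk_range_le.trans hc.le)))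
      fun x _ => hF1.ge trivial).inter hinf
    (fclub_sub hinf hG' hG (fun a ha => hF2 θ hθ _ ((mk_preimage_of_injective _ _
      Sum.inr_injective).trans ha)) fun y _ => by
        obtain ⟨i, x, h⟩ := h4 y
        exact mem_iUnion₂.2 ⟨i, trivial, x, h⟩)).1 {Sum.inl (Classical.arbitrary J)}
    (by simpa using one_le_aleph0.trans hinf)
  have hb : {γ : J | ∀ α ∈ Sum.inl ⁻¹' c, α < γ}.Nonempty := by
    obtain ⟨γ, -, hγ⟩ := exists_notMem (E := univ) (Y := ⋃ α ∈ Sum.inl ⁻¹' c, Iic α)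
      (((mk_biUnion_le _ _).trans (mul_le_of_le hinf ((mk_preimage_of_injective _ _
        Sum.inl_injective).trans hc4) (ciSup_le' fun _ => hJ' _))).trans_lt
        (by rw [mk_univ, hJ]; exact Order.lt_succ θ))
    exact ⟨γ, fun α hα => not_le.1 fun h => hγ (mem_iUnion₂.2 ⟨α, hα, h⟩)⟩
  obtain ⟨β, hβ, hmin⟩ := wellFounded_lt.has_min _ hb
  obtain ⟨p, hp1, hp2⟩ := hF3 (Sum.inr ⁻¹' c)
  have hj : Function.Injective (ι β ∘ₗ f) := (K.le_mem _ (K.trans _ _ hf (h2 β))).1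
  have hr : ∀ y, p y ∈ LinearMap.range (ι β ∘ₗ f) := fun y => by
    obtain ⟨α, h5, x, h6⟩ := mem_iUnion₂.1 (hc2 (hp1 y))
    exact ⟨k β α x, (h3 α β (hβ α h5) x).trans h6⟩
  refine ⟨(LinearEquiv.ofInjective _ hj).symm.toLinearMap ∘ₗ p.codRestrict _ hr ∘ₗ ι β,
    fun y => ?_⟩
  obtain ⟨α, h5, x, rfl⟩ := (hk β).2.2 ⟨_, hβ _ (hc3 rfl)⟩ y
  have h6 : ι β (f (k β α x)) = ι α x := h3 α β h5 x
  have h7 : ι α x ∈ G c := by
    obtain ⟨α', h8, h9⟩ : ∃ α' ∈ Sum.inl ⁻¹' c, α ≤ α' := by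
      by_contra hn
      exact hmin α (fun α' h => not_le.1 fun h' => hn ⟨α', h, h'⟩) h5
    refine mem_iUnion₂.2 ⟨α', h8, ?_⟩
    rcases h9.eq_or_lt with rfl | h9
    · exact ⟨x, rfl⟩
    · exact ⟨_, h3 α α' h9 x⟩
  simp only [LinearMap.comp_apply, LinearEquiv.coe_coe, LinearEquiv.symm_apply_eq]
  exact Subtype.ext ((congrArg p h6).trans ((hp2 _ (hc1 h7)).trans h6.symm))

theorem sp_base (hl : ℵ₀ ≤ l) (hθ : l ≤ θ) (hcat : K.Cat θ)
    (hss : ∀ (P : Type u) [AddCommGroup P] [Module R P], K.mem P → #P ≤ Order.succ θ →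
      SmallSum R l P) : Sp K l θ θ := by
  intro N _ _ M hM h1 h2
  have hN : K.mem N := mem_congr Submodule.topEquiv (mle_self_iff.1 hM.right)
  have hc : #N = θ := le_antisymm h2 (h1.trans (mk_set_le _))
  have hM' := mle_self_iff.1 hM.left
  obtain ⟨e⟩ := hcat.2 N M hN hM' hc (le_antisymm ((mk_set_le _).trans h2) h1)
  obtain ⟨r, hr⟩ := self_split hl hθ hcat hss hN hc (M.subtype ∘ₗ e.toLinearMap)
    (K.trans _ _ (K.iso e hN) (mle_top_iff.1 hM))
  obtain ⟨q, hq⟩ := prj_iff.1 (show Prj M from ⟨M.subtype ∘ₗ e.toLinearMap ∘ₗ r,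
    fun x => (e (r x)).2, fun x hx => by
      obtain ⟨y, hy⟩ := e.surjective ⟨x, hx⟩
      have : x = (e y : N) := congrArg Subtype.val hy.symm
      rw [this]
      exact congrArg (fun z => (e z : N)) (hr y)⟩)
  exact ⟨q, hq.disjoint, hq.sup_eq_top, Prj.ss hl (hss N hN (h2.trans (Order.le_succ _)))
    (prj_iff.2 ⟨_, hq.symm⟩)⟩

end Vale.Agent.P307S
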