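import Vale.Agent.P307.MUp2

/-! P307: witnesses and very good submodules. -/

open Cardinal hiding univ
open Set

universe u

namespace Vale.Agent.P307S

variable {R : Type u} [Ring R] {K : MAEC R}
variable {Q N I : Type u} [AddCommGroup Q] [Module R Q] [AddCommGroup N] [Module R N]
  {l κ θ : Cardinal.{u}}

theorem exists_col' (hl : ℵ₀ ≤ l) (hR : #R ≤ l) {c : I → Submodule R Q} (hc : ∀ i, #(c i) ≤ l)
    {F : Set Q} (hF : ∀ i, F ⊆ c i) (hFc : #F ≤ l) : ∃ (T : Type u) (col : I → T), #T ≤ 2 ^ l ∧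
      ∀ i j, col i = col j → ∃ g : c i →ₗ[R] c j, ∀ x : c i, x.1 ∈ F → (g x).1 = x.1 := by
  have he : ∀ i, Nonempty (c i ↪ l.out) := fun i => (le_def _ _).1 (by rw [mk_out]; exact hc i)
  let e := fun i => (he i).some
  refine ⟨(F → l.out) × Set (l.out × l.out × l.out) × Set (R × l.out × l.out), fun i =>
    (fun x => e i ⟨x, hF i x.2⟩, {p | ∃ x y, p = (e i x, e i y, e i (x + y))},
      {p | ∃ r x, p = (r, e i x, e i (r • x))}), ?_, fun i j h => ?_⟩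
  · have h2 := hl.trans (cantor l).le
    simp only [mk_prod, lift_id, mk_set, mk_out, ← power_def]
    exact mul_le_of_le h2 ((power_le_power_left (aleph0_pos.trans_le hl).ne' hFc).trans
      (power_self_eq hl).le) (mul_le_of_le h2 (power_le_power_left two_ne_zero
      (mul_le_of_le hl le_rfl (mul_le_of_le hl le_rfl le_rfl))) (power_le_power_left two_ne_zero
      (mul_le_of_le hl hR (mul_le_of_le hl le_rfl le_rfl))))
  · have h0 := congrFun (congrArg Prod.fst h)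
    have h1 := Set.ext_iff.1 (congrArg (·.2.1) h)
    have h2 := Set.ext_iff.1 (congrArg (·.2.2) h)
    have k : ∀ x, ∃ y, e j y = e i x := fun x => by
      obtain ⟨a, b, h3⟩ := (h1 _).1 ⟨x, x, rfl⟩
      exact ⟨a, (congrArg Prod.fst h3).symm⟩
    choose g hg using k
    refine ⟨⟨⟨g, fun x y => ?_⟩, fun r x => ?_⟩, fun x hx => ?_⟩
    · obtain ⟨a, b, h⟩ := (h1 _).1 ⟨x, y, rfl⟩
      simp only [Prod.mk.injEq, ← hg, EmbeddingLike.apply_eq_iff_eq] at h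
      rw [h.2.2, h.1, h.2.1]
    · obtain ⟨a, b, h⟩ := (h2 _).1 ⟨r, x, rfl⟩
      simp only [Prod.mk.injEq, ← hg, EmbeddingLike.apply_eq_iff_eq] at h
      simp only [RingHom.id_apply]
      rw [h.2.2, h.1, h.2.1]
    · exact congrArg Subtype.val ((e j).injective ((hg x).trans (h0 ⟨x.1, hx⟩)))

variable (R l) in
/-- `w` contains witnesses for all small modules over `F`. -/
def Wit (F w : Set Q) : Prop := ∀ F' : Submodule R Q, F ⊆ F' → #F' ≤ l →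
  ∃ g : F' →ₗ[R] Q, (∀ x, g x ∈ w) ∧ ∀ x : F', x.1 ∈ F → g x = x.1

theorem exists_wit (hl : ℵ₀ ≤ l) (hR : #R ≤ l) (F : Set Q) (hF : #F ≤ l) :
    ∃ w : Set Q, #w ≤ 2 ^ l ∧ Wit R l F w := by
  obtain ⟨T, col, h1, h2⟩ := exists_col' hl hR
    (c := fun i : {F' : Submodule R Q // F ⊆ F' ∧ #F' ≤ l} => i.1) (fun i => i.2.2)
    (fun i => i.2.1) hF
  choose rep hrep using fun t : range col => t.2
  refine ⟨⋃ t, ((rep t).1 : Set Q), (mk_iUnion_le _).trans (mul_le_of_le (hl.trans (cantor l).le)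
    ((mk_set_le _).trans h1) (ciSup_le' fun t => (rep t).2.2.trans (cantor l).le)),
    fun F' h3 h4 => ?_⟩
  obtain ⟨g, hg⟩ := h2 ⟨F', h3, h4⟩ _ (hrep ⟨_, mem_range_self _⟩).symm
  exact ⟨Submodule.subtype _ ∘ₗ g, fun x => mem_iUnion.2 ⟨_, (g x).2⟩, hg⟩

theorem Wit.mono {F w w' : Set Q} (h : Wit R l F w) (hw : w ⊆ w') : Wit R l F w' :=
  fun F' h1 h2 => (h F' h1 h2).imp fun _ hg => ⟨fun x => hw (hg.1 x), hg.2⟩

theorem bdd (hθ : ℵ₀ ≤ θ) : ∃ (J : Type u) (_ : LinearOrder J) (_ : WellFoundedLT J),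
    #J = Order.succ θ ∧ (∀ β : J, #(Iic β) ≤ θ) ∧ ∀ A : Set J, #A ≤ θ → ∃ γ, ∀ α ∈ A, α < γ := by
  let J := (Order.succ θ).out
  have hJ : #J = Order.succ θ := mk_out _
  obtain ⟨_, _, ho⟩ := exists_ord_eq_type_lt J
  have hJ' : ∀ β : J, #(Iic β) ≤ θ := fun β => Order.lt_succ_iff.1
    (hJ ▸ mk_Iic_lt β ho (hJ ▸ hθ.trans (Order.le_succ _)))
  refine ⟨J, inferInstance, inferInstance, hJ, hJ', fun A hA => ?_⟩
  obtain ⟨γ, -, hγ⟩ := exists_notMem (E := univ) (Y := ⋃ α ∈ A, Iic α)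
    (((mk_biUnion_le _ _).trans (mul_le_of_le hθ hA (ciSup_le' fun _ => hJ' _))).trans_lt
      (by rw [mk_univ, hJ]; exact Order.lt_succ θ))
  exact ⟨γ, fun α hα => not_le.1 fun h => hγ (mem_iUnion₂.2 ⟨α, hα, h⟩)⟩

variable (K) in
/-- Strong in the whole module, with strong trace on `M`. -/
def Gd (M T : Submodule R N) : Prop := MLe K T ⊤ ∧ MLe K (T ⊓ M) M

theorem gd_chain {M : Submodule R N} {ι : Sort*} [Nonempty ι] (Z : ι → Submodule R N)
    (h : ∀ i j, Z i ≤ Z j ∨ Z j ≤ Z i) (hZ : ∀ i, Gd K M (Z i)) {U : Submodule R N}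
    (hU : ∀ x, x ∈ U ↔ ∃ i, x ∈ Z i) : Gd K M U :=
  ⟨msmooth_le Z h (fun i => (hZ i).1) hU, msmooth_le (fun i => Z i ⊓ M) (fun i j => (h i j).imp
    (fun h => inf_le_inf_right _ h) fun h => inf_le_inf_right _ h) (fun i => (hZ i).2) fun x =>
      ⟨fun hx => ((hU x).1 hx.1).imp fun _ hi => ⟨hi, hx.2⟩,
        fun ⟨i, hi⟩ => ⟨(hU x).2 ⟨i, hi.1⟩, hi.2⟩⟩⟩

theorem exists_gd (hK : K.LSle l) (hθ : l ≤ θ) {M : Submodule R N} (hM : MLe K M ⊤) (A : Set N)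
    (hA : #A ≤ θ) : ∃ T : Submodule R N, A ⊆ T ∧ #T ≤ θ ∧ Gd K M T := by
  have hinf := hK.1.trans hθ
  obtain ⟨s, h0, -, hs, hU⟩ := exists_seq hinf (fun _ => True)
    (fun Y Y' : Set N => ∃ a b : Submodule R N, Y ⊆ a ∧ (a : Set N) ⊆ Y' ∧ MLe K a ⊤ ∧
      Y ∩ M ⊆ b ∧ (b : Set N) ⊆ Y' ∧ MLe K b M) (fun Y _ hY => by
      obtain ⟨a, h1, h2, h3⟩ := mls_le hK hM.right (subset_univ Y) hθ hY
      obtain ⟨b, h4, h5, h6⟩ := mls_le hK hM.left (inter_subset_right (s := Y)) hθ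
        ((mk_le_mk_of_subset inter_subset_left).trans hY)
      exact ⟨a ∪ b, trivial, (mk_union_le _ _).trans (add_le_of_le hinf h3 h6),
        h1.trans subset_union_left, a, b, h1, subset_union_left, h2, h4, subset_union_right, h5⟩)
    A trivial hA
  choose a b h1 h2 h3 h4 h5 h6 using fun n => (hs n).2
  have ha : Monotone a := monotone_nat_of_le_succ fun n => (h2 n).trans (h1 (n + 1))
  have hb : Monotone b := monotone_nat_of_le_succ fun n x hx => h4 (n + 1) ⟨h5 n hx, (h6 n).sub hx⟩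
  have hm := fun x => Submodule.mem_iSup_of_directed a ha.directed_le (x := x)
  refine ⟨iSup a, h0 ▸ (h1 0).trans (le_iSup a 0), (mk_le_mk_of_subset fun x hx => ?_).trans hU,
    msmooth_le a (fun i j => (le_total i j).imp (fun h => ha h) fun h => ha h) h3 hm,
    msmooth_le b (fun i j => (le_total i j).imp (fun h => hb h) fun h => hb h) h6 fun x =>
      ⟨fun hx => ?_, fun ⟨n, hn⟩ => ⟨(hm x).2 ⟨n + 1, h1 _ (h5 n hn)⟩, (h6 n).sub hn⟩⟩⟩
  · obtain ⟨n, hn⟩ := (hm x).1 hx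
    exact mem_iUnion.2 ⟨n + 1, h2 n hn⟩
  · obtain ⟨n, hn⟩ := (hm x).1 hx.1
    exact ⟨n + 1, h4 _ ⟨h2 n hn, hx.2⟩⟩

variable (K l θ) in
/-- Very good submodules. -/
def VG (M T : Submodule R N) : Prop := #T ≤ θ ∧ Gd K M T ∧
  ∀ F : Set (N ⧸ M), F ⊆ T.map M.mkQ → #F ≤ l → Wit R l F (T.map M.mkQ)

theorem exists_vg (hK : K.LSle l) (hθ : 2 ^ l ≤ θ) (hp : θ ^ l ≤ θ) {M : Submodule R N}
    (hM : MLe K M ⊤) (A : Set N) (hA : #A ≤ θ) : ∃ T : Submodule R N, A ⊆ T ∧ VG K l θ M T := by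
  have hlθ := (cantor l).le.trans hθ
  have hinf := hK.1.trans hlθ
  obtain ⟨J, _, _, hJ, hJ', hb⟩ := bdd hK.1
  choose! w hw1 hw2 using exists_wit (Q := N ⧸ M) hK.1 hK.2.1
  choose σ hσ using M.mkQ_surjective
  obtain ⟨G, hG⟩ := wf_choice (wellFounded_lt (α := J)) (X := Submodule R N)
    (fun β G T => A ⊆ T ∧ #T ≤ θ ∧ Gd K M T ∧ ∀ α, α < β → G α ≤ T ∧
      ∀ F : Set (N ⧸ M), F ⊆ (G α).map M.mkQ → #F ≤ l → w F ⊆ T.map M.mkQ)
    (fun β G G' T h ⟨h1, h2, h3, h4⟩ => ⟨h1, h2, h3, fun α hα => h α hα ▸ h4 α hα⟩)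
    (fun _ _ _ => lt_trans) fun β G ih => by
      obtain ⟨T, h1, h2, h3⟩ := exists_gd hK hlθ hM (A ∪ ⋃ α ∈ Iio β, (G α ∪
        ⋃ F : {F : Set (N ⧸ M) // F ⊆ (G α).map M.mkQ ∧ #F ≤ l}, σ '' w F))
        ((mk_union_le _ _).trans (add_le_of_le hinf hA ((mk_biUnion_le _ _).trans
          (mul_le_of_le hinf (((mk_le_mk_of_subset Iio_subset_Iic_self).trans (hJ' β)).trans hlθ)
          (ciSup_le' fun α => (mk_union_le _ _).trans (add_le_of_le hinf (ih α α.2).2.1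
            ((mk_iUnion_le _).trans (mul_le_of_le hinf ((mk_bounded_subset_le _ _).trans
              ((power_le_power_right (max_le ((mk_image_le (s := (G α : Set N))).trans
                (ih α α.2).2.1) hinf)).trans hp))
              (ciSup_le' fun F => mk_image_le.trans ((hw1 F F.2.2).trans hθ))))))))))
      refine ⟨T, subset_union_left.trans h1, h2, h3, fun α hα => ⟨fun x hx => h1 (Or.inr
        (mem_iUnion₂.2 ⟨α, hα, Or.inl hx⟩)), fun F k1 k2 y hy => ⟨σ y, h1 (Or.inr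
        (mem_iUnion₂.2 ⟨α, hα, Or.inr (mem_iUnion.2 ⟨⟨F, k1, k2⟩, y, hy, rfl⟩)⟩)), hσ y⟩⟩⟩
  have hmono : Monotone G := fun a b h => h.eq_or_lt.elim (fun e => e ▸ le_rfl)
    fun h => ((hG b).2.2.2 a h).1
  obtain ⟨β₀, -⟩ := hb ∅ (by simp)
  have : Nonempty J := ⟨β₀⟩
  have hm := fun x => Submodule.mem_iSup_of_directed G hmono.directed_le (x := x)
  refine ⟨iSup G, (hG β₀).1.trans (le_iSup G β₀), ?_, gd_chain G (fun i j => (le_total i j).imp
    (fun h => hmono h) fun h => hmono h) (fun β => (hG β).2.2.1) hm, fun F k1 k2 => ?_⟩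
  · refine (mk_le_mk_of_subset (t := ⋃ β, (G β : Set N)) fun x hx => mem_iUnion.2 ((hm x).1 hx)).trans
      ((mk_iUnion_le _).trans (mul_le_of_le hinf (hJ ▸ (Order.succ_le_of_lt (cantor l)).trans hθ)
        (ciSup_le' fun β => (hG β).2.1)))
  · have : ∀ y : F, ∃ α, y.1 ∈ (G α).map M.mkQ := fun y => by
      obtain ⟨x, hx, e⟩ := k1 y.2
      obtain ⟨α, hα⟩ := (hm x).1 hx
      exact ⟨α, x, hα, e⟩
    choose α hα using this
    obtain ⟨β, hβ⟩ := hb (range α) (mk_range_le.trans k2)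
    obtain ⟨γ, hγ⟩ := hb {β} (by simpa using one_le_aleph0.trans hK.1)
    exact (hw2 F k2).mono ((((hG γ).2.2.2 β (hγ β rfl)).2 F (fun y hy => Submodule.map_mono
      (hmono (hβ _ ⟨⟨y, hy⟩, rfl⟩).le) (hα ⟨y, hy⟩)) k2).trans (Submodule.map_mono (le_iSup G γ)))

theorem wit_prj (hl : ℵ₀ ≤ l) {E Y : Submodule R Q} (hEY : E ≤ Y) (hE : SmallSum R l E)
    (hY : SmallSum R l Y) (hC : ChC (Prj : Submodule R Y → Prop))
    (hw : ∀ F : Set Q, F ⊆ E → #F ≤ l → Wit R l F E) : Prj (E.comap Y.subtype) := by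
  obtain ⟨I, F, h1, h2, h3, h4⟩ := ss_fam hl hE
  obtain ⟨I', F', h1', h2', h3', h4'⟩ := ss_fam hl hY
  have e : E.comap Y.subtype = (F univ).map (Submodule.inclusion hEY) := by
    rw [h2, Submodule.map_top, Submodule.range_inclusion]
  rw [e]
  refine fin_ind hC (G := fun a => (F a).map (Submodule.inclusion hEY)) (h1.image _) univ
    fun s _ hs => ?_
  have hsc := h3 l le_rfl s (hs.lt_aleph0.le.trans hl)
  obtain ⟨a, -, ha1, ha2⟩ := h1'.supp (b := univ) (s := (F s).map (Submodule.inclusion hEY))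
    (fun x _ => h2'.ge trivial) hl ((mk_image_le (s := (F s : Set E))).trans hsc)
  obtain ⟨p, p1, p2⟩ := h4 s
  obtain ⟨p', p1', p2'⟩ := h4' a
  obtain ⟨g, g1, g2⟩ := hw ((F s).map E.subtype) (Submodule.map_subtype_le _ _)
    ((mk_image_le (s := (F s : Set E))).trans hsc) ((F' a).map Y.subtype)
    (by rintro _ ⟨x, hx, rfl⟩; exact ⟨_, ha2 ⟨x, hx, rfl⟩, rfl⟩)
    ((mk_image_le (s := (F' a : Set Y))).trans (h3' l le_rfl a ha1))
  refine ⟨Submodule.inclusion hEY ∘ₗ p ∘ₗ g.codRestrict E g1 ∘ₗ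
    (Y.subtype ∘ₗ p').codRestrict _ fun x => ⟨_, p1' x, rfl⟩, fun x => ⟨_, p1 _, rfl⟩, ?_⟩
  rintro _ ⟨x, hx, rfl⟩
  have k1 := p2' _ (ha2 ⟨x, hx, rfl⟩)
  simp only [LinearMap.comp_apply]
  congr 1
  refine (congrArg p (Subtype.ext ?_)).trans (p2 x hx)
  exact (g2 ⟨_, _, p1' _, rfl⟩ ⟨x, hx, (congrArg Subtype.val k1).symm⟩).trans
    (congrArg Subtype.val k1)

end Vale.Agent.P307S
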