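import Vale.Agent.P307.MUp3

/-! P307: the upward transfer for classes closed under direct sums. -/

open Cardinal hiding univ
open Set

universe u

namespace Vale.Agent.P307S

variable {R : Type u} [Ring R] {K : MAEC R}
variable {N : Type u} [AddCommGroup N] [Module R N] {l κ θ m : Cardinal.{u}}

theorem ss_of_sp (hK : K.LSle l) (hθ : l ≤ θ)
    (hss : ∀ (P : Type u) [AddCommGroup P] [Module R P], K.mem P → #P ≤ θ → SmallSum R l P)
    (hA : Sp K l θ m) (hN : K.mem N) (h1 : θ ≤ #N) (h2 : #N ≤ m) : SmallSum R l N := by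
  obtain ⟨B, -, hB⟩ := le_mk_iff_exists_subset.1 (h1.trans (mk_univ (α := N)).ge)
  obtain ⟨M, k1, k2, k3⟩ := mls_le hK (mle_self_iff.2 (mem_congr Submodule.topEquiv.symm hN))
    (subset_univ B) hθ hB.le
  obtain ⟨q, k4, k5, k6⟩ := hA N M k2 (hB ▸ mk_le_mk_of_subset k1) h2
  have := ss_flat hK.1 (E := fun b : ULift.{u} Bool => cond b.down M q)
    ((iSupIndep_pair (i := ULift.up true) (j := ULift.up false) (by simp)
      (by rintro ⟨_ | _⟩ <;> simp)).2 k4) (by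
      rintro ⟨_ | _⟩
      exacts [k6, hss _ (mle_self_iff.1 k2.left) k3])
  refine ss_congr hK.1 this (LinearEquiv.ofTop _ (eq_top_iff.2 (k5.ge.trans (sup_le ?_ ?_))))
  · exact le_iSup (fun b : ULift.{u} Bool => cond b.down M q) ⟨true⟩
  · exact le_iSup (fun b : ULift.{u} Bool => cond b.down M q) ⟨false⟩

/-- The quotient map restricted to `T`. -/
def qm (M T : Submodule R N) : T →ₗ[R] T.map M.mkQ :=
  (M.mkQ ∘ₗ T.subtype).codRestrict _ fun x => ⟨x.1, x.2, rfl⟩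

theorem exists_sec (hA : Sp K l θ m) {M T : Submodule R N} (hM : MLe K M ⊤) (hT : Gd K M T)
    (h1 : θ ≤ #(T ⊓ M : Submodule R N)) (h2 : #T ≤ m) :
    ∃ i : T.map M.mkQ →ₗ[R] T, ∀ y, qm M T (i y) = y := by
  obtain ⟨q, k1, k2, -⟩ := hA T ((T ⊓ M).comap T.subtype) (by
      rw [← Submodule.comap_subtype_self, mle_pre inf_le_left le_rfl]
      exact (hT.2.trans hM).coh hT.1 inf_le_left)
    (h1.trans (mk_congr (Submodule.comapSubtypeEquivOfLe inf_le_left).toEquiv).ge) h2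
  have hb : Function.Bijective (qm M T ∘ₗ q.subtype) := by
    refine ⟨(injective_iff_map_eq_zero _).2 fun x hx => Subtype.ext
      (Submodule.disjoint_def.1 k1 _ ⟨x.1.2, (Submodule.Quotient.mk_eq_zero M).1
        (congrArg Subtype.val hx)⟩ x.2), ?_⟩
    rintro ⟨_, x, hx, rfl⟩
    obtain ⟨y, hy, z, hz, e⟩ := Submodule.mem_sup.1 (k2.ge (Submodule.mem_top (x := ⟨x, hx⟩)))
    refine ⟨⟨z, hz⟩, Subtype.ext ?_⟩
    have e' : y.1 + z.1 = x := congrArg Subtype.val e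
    change M.mkQ z.1 = M.mkQ x
    rw [← e', map_add, show M.mkQ y.1 = 0 from (Submodule.Quotient.mk_eq_zero M).2 hy.2, zero_add]
  exact ⟨q.subtype ∘ₗ (LinearEquiv.ofBijective _ hb).symm.toLinearMap,
    (LinearEquiv.ofBijective _ hb).apply_symm_apply⟩

theorem lift_cpl (hl : ℵ₀ ≤ l) {M T T' : Submodule R N} (h : T ≤ T')
    (i : T'.map M.mkQ →ₗ[R] T') (hi : ∀ y, qm M T' (i y) = y) (hY : SmallSum R l (T'.map M.mkQ))
    (hp : Prj ((T.map M.mkQ).comap (T'.map M.mkQ).subtype)) : Cpl l (M ⊔ T) (M ⊔ T') := by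
  obtain ⟨E, hE⟩ := prj_iff.1 hp
  have hi' : ∀ y, M.mkQ (i y).1 = y.1 := fun y => congrArg Subtype.val (hi y)
  have hinj : Function.Injective (T'.subtype ∘ₗ i) :=
    T'.injective_subtype.comp (Function.LeftInverse.injective hi)
  refine ⟨E.map (T'.subtype ∘ₗ i), Submodule.disjoint_def.2 ?_, le_antisymm (sup_le
    (sup_le_sup_left h _) ?_) (sup_le (le_sup_left.trans le_sup_left) fun x hx => ?_),
    ss_congr hl (Prj.ss hl hY (prj_iff.2 ⟨_, hE.symm⟩)) (E.equivMapOfInjective _ hinj)⟩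
  · rintro _ hx ⟨y, hy, rfl⟩
    obtain ⟨a, ha, b, hb, e⟩ := Submodule.mem_sup.1 hx
    have : y = 0 := Submodule.disjoint_def.1 hE.disjoint y ⟨b, hb, by
      rw [Submodule.subtype_apply, ← hi' y, show (i y).1 = a + b from e.symm, map_add,
        show M.mkQ a = 0 from (Submodule.Quotient.mk_eq_zero M).2 ha, zero_add]⟩ hy
    rw [this, map_zero]
  · rintro _ ⟨y, -, rfl⟩
    exact Submodule.mem_sup_right (i y).2
  · obtain ⟨y, ⟨t, ht, e1⟩, z, hz, e⟩ := Submodule.mem_sup.1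
      (hE.sup_eq_top.ge (Submodule.mem_top (x := qm M T' ⟨x, hx⟩)))
    have e' : y.1 + z.1 = M.mkQ x := congrArg Subtype.val e
    have e2 : x = (x - t - (i z).1 + t) + (i z).1 := by abel
    rw [e2]
    refine Submodule.add_mem_sup (Submodule.add_mem_sup ?_ ht) ⟨z, hz, rfl⟩
    rw [← Submodule.Quotient.mk_eq_zero, ← Submodule.mkQ_apply, map_sub, map_sub, hi', ← e', e1]
    simp

theorem mk_finsub {α : Type u} (a : Set α) {σ : Cardinal.{u}} (hσ : ℵ₀ ≤ σ) (ha : #a ≤ σ) :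
    #{s : Finset α // (s : Set α) ⊆ a} ≤ σ := by
  classical
  refine le_trans (mk_le_of_injective (f := fun s => (s.1.subtype (· ∈ a)).toList)
    fun s t h => Subtype.ext ?_) ((mk_list_le_max a).trans (max_le hσ ha))
  have h' := congrArg List.toFinset h
  simp only [Finset.toList_toFinset] at h'
  rw [← Finset.subtype_map_of_mem s.2, ← Finset.subtype_map_of_mem t.2, h']

theorem sp_step (hK : K.LSle l) (hS : K.SumCl) (hθ : 2 ^ l ≤ θ) (hp : θ ^ l ≤ θ)
    (hss : ∀ (P : Type u) [AddCommGroup P] [Module R P], K.mem P → #P ≤ θ → SmallSum R l P)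
    (hm : θ < m) (ih : ∀ m', θ ≤ m' → m' < m → Sp K l θ m') : Sp K l θ m := by
  classical
  intro N _ _ M hM h1 h2
  have hlθ := (cantor l).le.trans hθ
  have hinf := hK.1.trans hlθ
  rcases h2.lt_or_eq with h2 | h2
  · exact ih _ (h1.trans (mk_set_le _)) h2 N M hM h1 le_rfl
  obtain ⟨B, hBM, hB⟩ := le_mk_iff_exists_subset.1 h1
  obtain ⟨E, hE⟩ := wf_choice (Finset.lt_wf (α := N)) (X := Submodule R N)
    (fun s G T => VG K l θ M T ∧ B ∪ s ⊆ T ∧ ∀ s', s' < s → G s' ≤ T)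
    (fun s G G' T h ⟨k1, k2, k3⟩ => ⟨k1, k2, fun s' hs => h s' hs ▸ k3 s' hs⟩)
    (fun _ _ _ => lt_trans) fun s G ih => by
      obtain ⟨T, k1, k2⟩ := exists_vg hK hθ hp hM ((B ∪ s) ∪ ⋃ s' ∈ Iio s, G s')
        ((mk_union_le _ _).trans (add_le_of_le hinf ((mk_union_le _ _).trans (add_le_of_le hinf
          hB.le (s.finite_toSet.lt_aleph0.le.trans hinf))) ((mk_biUnion_le _ _).trans
          (mul_le_of_le hinf ((finite_Iio s).lt_aleph0.le.trans hinf)
            (ciSup_le' fun s' => (ih s' s'.2).1.1)))))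
      exact ⟨T, k2, subset_union_left.trans k1, fun s' hs x hx =>
        k1 (Or.inr (mem_iUnion₂.2 ⟨s', hs, hx⟩))⟩
  have hmono : Monotone E := fun a b h => h.eq_or_lt.elim (fun e => e ▸ le_rfl)
    fun h => (hE b).2.2 a h
  let G : Set N → Submodule R N := fun a => ⨆ s : {s : Finset N // (s : Set N) ⊆ a}, E s
  have hGm : ∀ a x, x ∈ G a ↔ ∃ s : Finset N, (s : Set N) ⊆ a ∧ x ∈ E s := fun a x => by
    have : Nonempty {s : Finset N // (s : Set N) ⊆ a} := ⟨⟨∅, by simp⟩⟩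
    rw [Submodule.mem_iSup_of_directed _ fun s t => ⟨⟨s.1 ∪ t.1, by
      simpa using ⟨s.2, t.2⟩⟩, hmono Finset.subset_union_left, hmono Finset.subset_union_right⟩]
    exact ⟨fun ⟨s, hs⟩ => ⟨s, s.2, hs⟩, fun ⟨s, h, hs⟩ => ⟨⟨s, h⟩, hs⟩⟩
  have hG : Fy fun a => (G a : Set N) := ⟨fun a b h x hx => by
      obtain ⟨s, k1, k2⟩ := (hGm a x).1 hx
      exact (hGm b x).2 ⟨s, k1.trans h, k2⟩, fun a x hx => by
      obtain ⟨s, k1, k2⟩ := (hGm a x).1 hx
      exact ⟨s, k1, s.finite_toSet, (hGm _ x).2 ⟨s, subset_rfl, k2⟩⟩⟩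
  have hGf : ∀ a : Set N, a.Finite → VG K l θ M (G a) := fun a ha => by
    have : G a = E ha.toFinset := Submodule.ext fun x => (hGm a x).trans
      ⟨fun ⟨s, k1, k2⟩ => hmono (ha.subset_toFinset.2 k1) k2, fun h => ⟨_, by simp, h⟩⟩
    exact this ▸ (hE _).1
  have hGd : ∀ a, Gd K M (G a) := fun a =>
    fin_ind (fun _ _ Z k1 k2 _ k3 => gd_chain Z k1 k2 k3) hG a fun s _ hs => (hGf s hs).2.1
  have hBG : ∀ a, θ ≤ #(G a ⊓ M : Submodule R N) := fun a => hB ▸ mk_le_mk_of_subset fun x hx =>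
    ⟨(hGm a x).2 ⟨∅, by simp, (hE ∅).2.1 (Or.inl hx)⟩, hBM hx⟩
  have hθG : ∀ a, θ ≤ #(G a) := fun a => (hBG a).trans (mk_le_mk_of_subset fun _ h => h.1)
  have hGc : ∀ a : Set N, #a < m → #(G a) < m := fun a ha => by
    have k := hinf.trans (le_max_left θ #a)
    refine lt_of_le_of_lt ((mk_le_mk_of_subset (t := ⋃ s : {s : Finset N // (s : Set N) ⊆ a},
      (E s : Set N)) fun x hx => ?_).trans ((mk_iUnion_le _).trans (mul_le_of_le k
        (mk_finsub a k (le_max_right _ _)) (ciSup_le' fun s => (hE _).1.1.trans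
          (le_max_left _ _))))) (max_lt hm ha)
    obtain ⟨s, k1, k2⟩ := (hGm a x).1 hx
    exact mem_iUnion.2 ⟨⟨s, k1⟩, k2⟩
  have key : ∀ b : Set N, #b < m → ∃ i : (G b).map M.mkQ →ₗ[R] G b, (∀ y, qm M _ (i y) = y) ∧
      SmallSum R l ((G b).map M.mkQ) ∧ ChC (Prj : Submodule R ((G b).map M.mkQ) → Prop) := by
    intro b hb
    have hA := ih _ (hθG b) (hGc b hb)
    have hmem := mle_self_iff.1 (hGd b).1.left
    obtain ⟨i, hi⟩ := exists_sec hA hM (hGd b) (hBG b) le_rfl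
    exact ⟨i, hi, ss_ret hK.1 (ss_of_sp hK hlθ hss hA hmem (hθG b) le_rfl) i _ hi,
      chc_prj hS hA (hinf.trans (hθG b)) hmem (hθG b) le_rfl i _ hi⟩
  have hminf := hinf.trans hm.le
  obtain ⟨_, _, ho⟩ := exists_ord_eq_type_lt N
  have := filt hK.1 (M := M) (H := fun a => M ⊔ G a) ⟨fun a b h => (sup_le_sup_left (show G a ≤ G b from hG.1 h) M :),
    fun a x hx => by
      obtain ⟨y, hy, z, hz, rfl⟩ := Submodule.mem_sup.1 hx
      obtain ⟨b, k1, k2, k3⟩ := hG.2 a z hz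
      exact ⟨b, k1, k2, Submodule.add_mem_sup hy k3⟩⟩ (by
      obtain ⟨i, k1, k2, -⟩ := key ∅ (by simpa using aleph0_pos.trans_le hminf)
      have := lift_cpl hK.1 bot_le i k1 k2 ⟨0, fun _ => zero_mem _, fun x hx => by
        rw [Submodule.map_bot] at hx
        exact Subtype.ext (Eq.symm hx)⟩
      rwa [sup_bot_eq] at this) fun x => by
      obtain ⟨i, k1, k2, k3⟩ := key (Iic x) (h2 ▸ mk_Iic_lt x ho (h2 ▸ hminf))
      refine lift_cpl hK.1 (hG.1 Iio_subset_Iic_self) i k1 k2 (fin_ind k3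
        (G := fun a => ((G a).map M.mkQ).comap ((G (Iic x)).map M.mkQ).subtype)
        ⟨fun a b h y hy => (hG.image M.mkQ).1 h hy, fun a y hy => (hG.image M.mkQ).2 a y.1 hy⟩ _
        fun s hs hs' => ?_)
      obtain ⟨-, -, k4, -⟩ := key s (hs'.lt_aleph0.trans_le hminf)
      exact wit_prj hK.1 (Submodule.map_mono (hG.1 (hs.trans Iio_subset_Iic_self))) k4 k2 k3
        (hGf s hs').2.2
  have e : M ⊔ G univ = ⊤ := eq_top_iff.2 fun x _ => Submodule.mem_sup_right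
    ((hGm _ x).2 ⟨{x}, subset_univ _, (hE _).2.1 (Or.inr (by simp))⟩)
  exact e ▸ this

theorem mcat_sum (hK : K.LSle l) (hS : K.SumCl) (hκ : 2 ^ Order.succ ((2 : Cardinal.{u}) ^ l) < κ) (hcat : K.Cat κ)
    {k : Cardinal.{u}} (hk : Order.succ (2 ^ l) < k) : K.Cat k := by
  have h1 := cantor (Order.succ ((2 : Cardinal.{u}) ^ l))
  have h2 : l ≤ Order.succ (2 ^ l) := (cantor l).le.trans (Order.le_succ _)
  have h3 : ((2 : Cardinal.{u}) ^ Order.succ ((2 : Cardinal.{u}) ^ l)) ^ l ≤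
      2 ^ Order.succ ((2 : Cardinal.{u}) ^ l) := by
    rw [← power_mul]
    exact power_le_power_left two_ne_zero (mul_le_of_le (hK.1.trans h2) le_rfl h2)
  have h4 := (Order.le_succ _).trans h1.le
  have hd := mcat_down hK (h1.trans hκ) hcat hS h1 hκ.le
  generalize (2 : Cardinal.{u}) ^ Order.succ ((2 : Cardinal.{u}) ^ l) = θ at *
  have hlθ := h2.trans h1.le
  have hss : ∀ (P : Type u) [AddCommGroup P] [Module R P], K.mem P → #P ≤ κ → SmallSum R l P :=
    fun P _ _ => ss_sum hK (hlθ.trans_lt hκ) hcat hS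
  have hss' : ∀ (P : Type u) [AddCommGroup P] [Module R P], K.mem P → #P ≤ θ → SmallSum R l P :=
    fun P _ _ h h' => hss P h (h'.trans hκ.le)
  have key : ∀ m, θ ≤ m → Sp K l θ m := by
    intro m
    induction m using WellFoundedLT.induction with
    | ind m ih =>
    intro hm
    rcases hm.eq_or_lt with rfl | hm
    · exact sp_base hK.1 hlθ hd fun P _ _ h h' => hss P h (h'.trans (Order.succ_le_of_lt hκ))
    · exact sp_step hK hS h4 h3 hss' hm fun m' a b => ih m' b a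
  refine mcat hK (h1.trans hκ) hcat (fun M _ _ hM _ => ?_) hk
  rcases le_total #M θ with h | h
  · exact hss' M hM h
  · exact ss_of_sp hK hlθ hss' (key _ h) hM h le_rfl

end Vale.Agent.P307S
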