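import Vale.Agent.P307.SDefs

/-! P307: strong inclusions between subsets of a relational structure. -/

open Cardinal hiding univ
open FirstOrder FirstOrder.Language Set

universe u

namespace Vale.Agent.P307S

variable {L : FirstOrder.Language.{u, u}} [L.IsRelational]

variable (L) in
/-- A subset as a substructure. -/
def sub {M : Type u} [L.Structure M] (s : Set M) : L.Substructure M :=
  ⟨s, fun f => isEmptyElim f⟩

section
variable {M M' M'' : Type u} [L.Structure M] [L.Structure M'] [L.Structure M'']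

theorem mem_sub {s : Set M} {x : M} : x ∈ sub L s ↔ x ∈ s := Iff.rfl

theorem sub_coe (S : L.Substructure M) : sub L (S : Set M) = S := by
  ext x; rfl

theorem mk_sub (s : Set M) : #(sub L s) = #s := rfl

variable (L) in
/-- `g` is an isomorphism from `t` onto `t'`. -/
def PIso (g : M → M') (t : Set M) (t' : Set M') : Prop :=
  BijOn g t t' ∧ ∀ (n : ℕ) (R : L.Relations n) (v : Fin n → M), (∀ k, v k ∈ t) →
    (Structure.RelMap R (fun k => g (v k)) ↔ Structure.RelMap R v)

theorem PIso.mono {g : M → M'} {t : Set M} {t' : Set M'} (h : PIso L g t t') {s : Set M}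
    (hs : s ⊆ t) : PIso L g s (g '' s) :=
  ⟨(h.1.injOn.mono hs).bijOn_image, fun n R v hv => h.2 n R v fun k => hs (hv k)⟩

theorem PIso.comp {g : M → M'} {g' : M' → M''} {t : Set M} {t' : Set M'} {t'' : Set M''}
    (h' : PIso L g' t' t'') (h : PIso L g t t') : PIso L (fun x => g' (g x)) t t'' :=
  ⟨h'.1.comp h.1, fun n R v hv =>
    (h'.2 n R (fun k => g (v k)) fun k => h.1.mapsTo (hv k)).trans (h.2 n R v hv)⟩

theorem PIso.inv [Nonempty M] {g : M → M'} {t : Set M} {t' : Set M'} (h : PIso L g t t') :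
    ∃ g' : M' → M, PIso L g' t' t ∧ (∀ x ∈ t, g' (g x) = x) ∧ ∀ y ∈ t', g (g' y) = y := by
  have h1 := h.1.invOn_invFunOn
  refine ⟨Function.invFunOn g t, ⟨h.1.symm h1.symm, fun n R v hv => ?_⟩, fun x hx => h1.1 hx,
    fun y hy => h1.2 hy⟩
  have h2 := h.2 n R (fun k => Function.invFunOn g t (v k))
    fun k => h.1.surjOn.mapsTo_invFunOn (hv k)
  rw [← h2]
  have : (fun k => g (Function.invFunOn g t (v k))) = v := funext fun k => h1.2 (hv k)
  rw [this]

theorem PIso.mk_eq {g : M → M'} {t : Set M} {t' : Set M'} (h : PIso L g t t') : #t = #t' :=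
  mk_congr h.1.equiv

/-- The isomorphism of substructures given by `g`. -/
noncomputable def PIso.equiv {g : M → M'} {t : Set M} {t' : Set M'} (h : PIso L g t t') :
    sub L t ≃[L] sub L t' where
  toEquiv := h.1.equiv g
  map_fun' := fun f => isEmptyElim f
  map_rel' := fun {n} R v => h.2 n R (fun k => (v k : M)) fun k => (v k).2

theorem exists_piso [Nonempty M'] {t : Set M} {t' : Set M'} (e : sub L t ≃[L] sub L t') :
    ∃ g : M → M', PIso L g t t' := by
  classical
  refine ⟨fun x => if h : x ∈ t then (e ⟨x, h⟩ : M') else Classical.arbitrary _,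
    ⟨fun x hx => ?_, fun x hx y hy hxy => ?_, fun y hy => ?_⟩, fun n R v hv => ?_⟩
  · simp only [dif_pos hx]; exact (e ⟨x, hx⟩).2
  · simp only [dif_pos hx, dif_pos hy] at hxy
    exact congrArg Subtype.val (e.injective (Subtype.ext hxy))
  · obtain ⟨x, hx⟩ := e.surjective ⟨y, hy⟩
    refine ⟨x, x.2, ?_⟩
    have hx2 : (x : M) ∈ t := x.2
    simp only [dif_pos hx2]
    exact congrArg Subtype.val hx
  · simp only [dif_pos (hv _)]
    exact e.map_rel R fun k => ⟨v k, hv k⟩

theorem piso_val (S : L.Substructure M) (t : Set S) : PIso L (Subtype.val : S → M) t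
    (Subtype.val '' t) :=
  ⟨Subtype.val_injective.injOn.bijOn_image, fun _ _ _ _ => Iff.rfl⟩

theorem piso_equiv (e : M ≃[L] M') : PIso L e univ univ :=
  ⟨bijOn_univ.2 e.bijective, fun _ R v _ => e.map_rel R v⟩

/-- The whole structure. -/
def subUniv : sub L (univ : Set M) ≃[L] M where
  toEquiv := Equiv.Set.univ M
  map_fun' := fun f => isEmptyElim f
  map_rel' := fun _ _ => Iff.rfl

end

variable (K : AEC L)

/-- `s` is a strong substructure of `t`. -/
def Le {M : Type u} [L.Structure M] (s t : Set M) : Prop :=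
  ∃ h : s ⊆ t, K.le (Substructure.inclusion (show sub L s ≤ sub L t from h))

variable {K}
variable {M M' : Type u} [L.Structure M] [L.Structure M']

omit [L.IsRelational] in
theorem le_congr {N N' : Type u} [L.Structure N] [L.Structure N'] (es : M ≃[L] M')
    (et : N ≃[L] N') (f : M ↪[L] N) (f' : M' ↪[L] N') (h : ∀ x, f' (es x) = et (f x))
    (hf : K.le f) : K.le f' := by
  have hM' : K.mem M' := (K.le_mem _ (K.iso es (K.le_mem f hf).1)).2
  have e : f' = (et.toEmbedding.comp f).comp es.symm.toEmbedding := by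
    ext y
    have := h (es.symm y)
    simpa using this
  rw [e]
  exact K.trans _ _ (K.iso _ hM') (K.trans _ _ hf (K.iso _ (K.le_mem f hf).2))

theorem Le.sub {s t : Set M} (h : Le K s t) : s ⊆ t := h.1

theorem Le.trans {s t w : Set M} (h : Le K s t) (h' : Le K t w) : Le K s w :=
  ⟨h.1.trans h'.1, K.trans _ _ h.2 h'.2⟩

theorem Le.coh {s t w : Set M} (h : Le K s w) (h' : Le K t w) (hst : s ⊆ t) : Le K s t :=
  ⟨hst, K.coh _ (Substructure.inclusion (show P307S.sub L t ≤ P307S.sub L w from h'.1)) h.2 h'.2⟩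

theorem le_self_iff {s : Set M} : Le K s s ↔ K.mem (sub L s) :=
  ⟨fun h => (K.le_mem _ h.2).1, fun h => ⟨subset_rfl, K.iso (Language.Equiv.refl L _) h⟩⟩

theorem Le.left {s t : Set M} (h : Le K s t) : Le K s s := le_self_iff.2 (K.le_mem _ h.2).1

theorem Le.right {s t : Set M} (h : Le K s t) : Le K t t := le_self_iff.2 (K.le_mem _ h.2).2

theorem PIso.le_iff {g : M → M'} {t : Set M} {t' : Set M'} (h : PIso L g t t') {s : Set M}
    (hs : s ⊆ t) : Le K s t ↔ Le K (g '' s) t' := by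
  have hs' : g '' s ⊆ t' := (h.1.mapsTo.mono_left hs).image_subset
  constructor
  · rintro ⟨_, H⟩
    exact ⟨hs', le_congr (h.mono hs).equiv h.equiv _ _ (fun x => rfl) H⟩
  · rintro ⟨_, H⟩
    refine ⟨hs, le_congr (h.mono hs).equiv.symm h.equiv.symm _ _ (fun x => ?_) H⟩
    apply h.equiv.injective
    rw [Language.Equiv.apply_symm_apply]
    have := (h.mono hs).equiv.apply_symm_apply x
    exact Subtype.ext (congrArg (Subtype.val : sub L (g '' s) → M') this)

theorem PIso.ok {g : M → M'} {t : Set M} {t' : Set M'} (h : PIso L g t t') :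
    Le K t t ↔ Le K t' t' := by
  rw [h.le_iff subset_rfl, h.1.image_eq]

theorem le_univ_iff {s : Set M} : Le K s univ ↔ K.le (sub L s).subtype :=
  ⟨fun h => le_congr (Language.Equiv.refl L _) subUniv _ _ (fun _ => rfl) h.2,
    fun h => ⟨subset_univ _, le_congr (Language.Equiv.refl L _) subUniv.symm _ _
      (fun _ => rfl) h⟩⟩

theorem mem_iff : K.mem M ↔ Le K (univ : Set M) univ := by
  rw [le_self_iff]
  exact ⟨fun h => (K.le_mem _ (K.iso subUniv.symm h)).2, fun h => (K.le_mem _ (K.iso subUniv h)).2⟩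

theorem le_pre {w s t : Set M} (hs : s ⊆ t) (ht : t ⊆ w) :
    Le K ((Subtype.val : sub L w → M) ⁻¹' s) (Subtype.val ⁻¹' t) ↔ Le K s t := by
  have e : ∀ {a : Set M}, a ⊆ w → (Subtype.val : sub L w → M) '' (Subtype.val ⁻¹' a) = a :=
    fun ha => image_preimage_eq_of_subset (by
      intro x hx; exact ⟨⟨x, ha hx⟩, rfl⟩)
  rw [(piso_val (sub L w) (Subtype.val ⁻¹' t)).le_iff (preimage_mono hs), e (hs.trans ht), e ht]

theorem pre_self (w : Set M) : (Subtype.val : sub L w → M) ⁻¹' w = univ :=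
  eq_univ_of_forall fun x => x.2

/-- A cofinal well ordered subfamily of a chain of sets. -/
theorem exists_wo {α : Type u} (c : Set (Set α)) (hne : c.Nonempty) (hc : IsChain (· ⊆ ·) c) :
    ∃ (I : Type u) (_ : LinearOrder I) (_ : WellFoundedLT I) (_ : Nonempty I) (S : I → Set α),
      Monotone S ∧ (∀ i, S i ∈ c) ∧ ∀ s ∈ c, ∃ i, s ⊆ S i := by
  classical
  let _ : LinearOrder c := IsChain.linearOrder (s := c) hc
  have hcof := isCofinal_setOfPred_imp_lt (α := c) WellOrderingRel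
  set I : Set c := {a | ∀ b, WellOrderingRel b a → b < a} with hI
  have hwf : WellFoundedLT I := by
    refine ⟨Subrelation.wf (r := fun a b : I => WellOrderingRel a.1 b.1) ?_
      (InvImage.wf Subtype.val (IsWellFounded.wf (r := WellOrderingRel)))⟩
    intro a b hab
    rcases trichotomous_of WellOrderingRel a.1 b.1 with h | h | h
    · exact h
    · exact absurd (Subtype.ext h) (ne_of_lt hab)
    · exact absurd (a.2 _ h) (not_lt.2 (le_of_lt hab))
  obtain ⟨s, hs⟩ := hne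
  obtain ⟨a, ha, -⟩ := hcof ⟨s, hs⟩
  refine ⟨I, inferInstance, hwf, ⟨⟨a, ha⟩⟩, fun i => i.1.1, fun i j h => h, fun i => i.1.2,
    fun t ht => ?_⟩
  obtain ⟨b, hb, h⟩ := hcof ⟨t, ht⟩
  exact ⟨⟨b, hb⟩, h⟩

theorem chain_le {ι : Sort*} [Nonempty ι] (F : ι → Set M)
    (hF : ∀ i j, Le K (F i) (F j) ∨ Le K (F j) (F i)) (i : ι) : Le K (F i) (⋃ i, F i) := by
  have hc : IsChain (· ⊆ ·) (range F) := by
    rintro _ ⟨i, rfl⟩ _ ⟨j, rfl⟩ -
    exact (hF i j).imp Le.sub Le.sub
  have hle : ∀ s ∈ range F, ∀ t ∈ range F, s ⊆ t → Le K s t := by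
    rintro _ ⟨i, rfl⟩ _ ⟨j, rfl⟩ h
    rcases hF i j with h' | h'
    · exact h'
    · rw [← h.antisymm h'.sub]
      exact h'.right
  obtain ⟨I, _, _, _, S, hS, hSc, hcof⟩ := exists_wo (range F) (range_nonempty F) hc
  have hU : ∀ a, S a ⊆ ⋃ i, F i := fun a => by
    obtain ⟨j, hj⟩ := hSc a
    rw [← hj]; exact subset_iUnion F j
  have key := (K.chain (U := sub L (⋃ i, F i))
    (fun a => sub L ((Subtype.val : sub L (⋃ i, F i) → M) ⁻¹' S a))
    (fun a b h x hx => hS h hx)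
    (fun a b h => ((le_pre (hS h) (hU b)).2 (hle _ (hSc a) _ (hSc b) (hS h))).2)
    (fun x => by
      obtain ⟨j, hj⟩ := mem_iUnion.1 x.2
      obtain ⟨a, ha⟩ := hcof _ ⟨j, rfl⟩
      exact ⟨a, ha hj⟩)).2
  obtain ⟨a, ha⟩ := hcof _ ⟨i, rfl⟩
  refine (hle _ ⟨i, rfl⟩ _ (hSc a) ha).trans ?_
  have := le_univ_iff.2 (key a)
  rw [← pre_self] at this
  exact (le_pre (hU a) subset_rfl).1 this

theorem smooth_le {ι : Sort*} [Nonempty ι] (F : ι → Set M) {w : Set M}
    (hF : ∀ i j, F i ⊆ F j ∨ F j ⊆ F i) (hw : ∀ i, Le K (F i) w) : Le K (⋃ i, F i) w := by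
  have hc : IsChain (· ⊆ ·) (range F) := by
    rintro _ ⟨i, rfl⟩ _ ⟨j, rfl⟩ -
    exact hF i j
  obtain ⟨I, _, _, _, S, hS, hSc, hcof⟩ := exists_wo (range F) (range_nonempty F) hc
  have hU : ∀ a, Le K (S a) w := fun a => by
    obtain ⟨j, hj⟩ := hSc a
    rw [← hj]; exact hw j
  have hUw : (⋃ i, F i) ⊆ w := iUnion_subset fun i => (hw i).sub
  have key := K.smooth (N := sub L w)
    (fun a => sub L ((Subtype.val : sub L w → M) ⁻¹' S a))
    (fun a b h x hx => hS h hx)
    (fun a b h => ((le_pre (hS h) (hU b).sub).2 ((hU a).coh (hU b) (hS h))).2)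
    (fun a => le_univ_iff.1 (by
      rw [← pre_self]; exact (le_pre (hU a).sub subset_rfl).2 (hU a)))
    (sub L (Subtype.val ⁻¹' (⋃ i, F i))) (fun x => by
      constructor
      · intro hx
        obtain ⟨j, hj⟩ := mem_iUnion.1 hx
        obtain ⟨a, ha⟩ := hcof _ ⟨j, rfl⟩
        exact ⟨a, ha hj⟩
      · rintro ⟨a, ha⟩
        obtain ⟨j, hj⟩ := hSc a
        exact mem_iUnion.2 ⟨j, hj ▸ ha⟩)
  have := le_univ_iff.2 key
  rw [← pre_self] at this
  exact (le_pre hUw subset_rfl).1 this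

theorem ls_le {l : Cardinal.{u}} (hK : K.LSle l) {t A : Set M} (ht : Le K t t) (hA : A ⊆ t)
    {σ : Cardinal.{u}} (hl : l ≤ σ) (hσ : #A ≤ σ) : ∃ s, A ⊆ s ∧ Le K s t ∧ #s ≤ σ := by
  obtain ⟨S, hS, hAS, hc⟩ := hK.2.2 (sub L t) (le_self_iff.1 ht) (Subtype.val ⁻¹' A)
  refine ⟨Subtype.val '' (S : Set (sub L t)), fun x hx => ⟨⟨x, hA hx⟩, hAS hx, rfl⟩, ?_, ?_⟩
  · have h1 : Le K (S : Set (sub L t)) univ := by
      rw [le_univ_iff, sub_coe]; exact hS
    have h2 := ((piso_val (sub L t) univ).le_iff (subset_univ _)).1 h1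
    have e : (Subtype.val : sub L t → M) '' univ = t := by
      rw [image_univ]; exact Subtype.range_coe
    rwa [e] at h2
  · refine mk_image_le.trans (hc.trans (add_le_of_le (hK.1.trans hl) ?_ hl))
    exact (mk_preimage_of_injective _ _ Subtype.val_injective).trans hσ

theorem free_le (hK : K.FreeAP) {s₀ s₁ s₂ : Set M} (h₁ : Le K s₀ s₁) (h₂ : Le K s₀ s₂)
    (hi : s₁ ∩ s₂ ⊆ s₀)
    (hR : ∀ (n : ℕ) (R : L.Relations n) (v : Fin n → M), Structure.RelMap R v →
      (∀ k, v k ∈ s₁ ∪ s₂) → (∀ k, v k ∈ s₁) ∨ (∀ k, v k ∈ s₂)) : Le K s₁ (s₁ ∪ s₂) := by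
  have key := hK (sub L (s₁ ∪ s₂)) (sub L (Subtype.val ⁻¹' s₀)) (sub L (Subtype.val ⁻¹' s₁))
    (sub L (Subtype.val ⁻¹' s₂)) (fun x hx => h₁.sub hx) (fun x hx => h₂.sub hx)
    ((le_pre h₁.sub subset_union_left).2 h₁).2 ((le_pre h₂.sub subset_union_right).2 h₂).2
    (by
      ext x
      exact ⟨fun hx => hi hx, fun hx => ⟨h₁.sub hx, h₂.sub hx⟩⟩)
    (fun x => x.2) (fun n R v hv => hR n R (fun k => (v k : M)) hv fun k => (v k).2)
  have := le_univ_iff.2 key
  rw [← pre_self] at this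
  exact (le_pre subset_union_left subset_rfl).1 this

end Vale.Agent.P307S
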