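import Vale.Agent.P307.SFree

/-! P307: decomposition of a sparse structure into small components over a small base. -/

open Cardinal hiding univ
open FirstOrder FirstOrder.Language Set

universe u

namespace Vale.Agent.P307S

variable {L : FirstOrder.Language.{u, u}} [L.IsRelational]
variable {N : Type u} [L.Structure N]

variable (L) in
/-- `N` is the free sum over `A` of the reduced family `D`. -/
structure Tmpl (l : Cardinal.{u}) {I : Type u} (A : Set N) (D : I → Set N) : Prop where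
  cA : #A ≤ l
  ne : ∀ i, (D i).Nonempty
  cD : ∀ i, #(D i) ≤ l
  cT : #(range D) ≤ 2 ^ l
  iso : ∃ g, PIso L g (univ : Set N) (XS A D univ)
  red : ∀ {I' : Type u} (D' : I' → Set N), (∀ i, D' i ∈ range D) → ∀ (Z : Set I') (g),
    PIso L g (XS A D' Z) (XS A D' Z) → (∀ a ∈ A, g ⟨a, none⟩ = ⟨a, none⟩) →
    ∀ x i, (⟨x, some i⟩ : W N I') ∈ XS A D' Z →
      ∃ i', (g ⟨x, some i⟩).ix = some i' ∧ D' i' = D' i

variable (L) in
/-- Adjacency outside `A`. -/
def AdjO (A : Set N) (x y : N) : Prop := x ∉ A ∧ y ∉ A ∧ Adj L x y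

variable (L) in
/-- Components outside `A`. -/
def cp (A : Set N) (x : N) : Set N := {y | Relation.ReflTransGen (AdjO L A) x y}

variable (L) in
/-- Being a component. -/
def IsC (A C : Set N) : Prop := ∃ x, x ∉ A ∧ C = cp L A x

variable (L) in
/-- Isomorphic over `A`. -/
def Sim (A C C' : Set N) : Prop := ∃ g : N → N, (∀ a ∈ A, g a = a) ∧ PIso L g (A ∪ C) (A ∪ C')

variable (L) in
/-- Chosen representative. -/
noncomputable def rep (A C : Set N) : Set N := Classical.epsilon fun C' => IsC L A C' ∧ Sim L A C C'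

variable {A : Set N}

theorem adjO_symm {x y : N} (h : AdjO L A x y) : AdjO L A y x := by
  obtain ⟨h1, h2, n, R, v, h3, h4, h5⟩ := h
  exact ⟨h2, h1, n, R, v, h3, h5, h4⟩

theorem cp_self (x : N) : x ∈ cp L A x := Relation.ReflTransGen.refl

theorem cp_symm {x y : N} (h : y ∈ cp L A x) : x ∈ cp L A y := by
  induction h with
  | refl => exact Relation.ReflTransGen.refl
  | tail _ h ih => exact Relation.ReflTransGen.head (adjO_symm h) ih

theorem cp_eq {x y : N} (h : y ∈ cp L A x) : cp L A y = cp L A x := by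
  ext z
  exact ⟨fun hz => Relation.ReflTransGen.trans h hz, fun hz => Relation.ReflTransGen.trans
    (cp_symm h) hz⟩

theorem IsC.notMem {C : Set N} (h : IsC L A C) {y : N} (hy : y ∈ C) : y ∉ A := by
  obtain ⟨x, hx, rfl⟩ := h
  induction hy with
  | refl => exact hx
  | tail _ h _ => exact h.2.1

theorem IsC.eq {C : Set N} (h : IsC L A C) {y : N} (hy : y ∈ C) : cp L A y = C := by
  obtain ⟨x, -, rfl⟩ := h
  exact cp_eq hy

theorem tuple_mem {n : ℕ} {R : L.Relations n} {v : Fin n → N} (hv : Structure.RelMap R v)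
    {k : Fin n} (hk : v k ∉ A) (k' : Fin n) : v k' ∈ A ∪ cp L A (v k) := by
  by_cases h : v k' ∈ A
  · exact Or.inl h
  · exact Or.inr (Relation.ReflTransGen.single
      ⟨hk, h, n, R, v, hv, mem_range_self _, mem_range_self _⟩)

theorem mk_cp {l : Cardinal.{u}} (hl : ℵ₀ ≤ l) (hA : ∀ x, x ∉ A → #{y | Adj L x y} ≤ l) (x : N) :
    #(cp L A x) ≤ l := by
  obtain ⟨s, h0, hm, hs, hU⟩ := exists_seq hl (fun _ => True)
    (fun Y Y' : Set N => ∀ y ∈ Y, ∀ z, AdjO L A y z → z ∈ Y') (fun Y _ hY => by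
      refine ⟨Y ∪ ⋃ y ∈ Y, {z | AdjO L A y z}, trivial, (mk_union_le _ _).trans (add_le_of_le hl hY
        ((mk_biUnion_le _ _).trans (mul_le_of_le hl hY (ciSup_le' fun y => ?_)))),
        subset_union_left, fun y hy z hz => Or.inr (mem_iUnion₂.2 ⟨y, hy, hz⟩)⟩
      by_cases h : y.1 ∈ A
      · have : {z | AdjO L A y z} = ∅ := eq_empty_of_forall_notMem fun z hz => hz.1 h
        simp [this]
      · exact (mk_le_mk_of_subset fun z hz => hz.2.2).trans (hA _ h))
    {x} trivial (by simpa using one_le_aleph0.trans hl)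
  refine (mk_le_mk_of_subset fun y hy => ?_).trans hU
  induction hy with
  | refl => exact mem_iUnion.2 ⟨0, h0 ▸ rfl⟩
  | tail _ h ih =>
    obtain ⟨n, hn⟩ := mem_iUnion.1 ih
    exact mem_iUnion.2 ⟨n + 1, (hs n).2 _ hn _ h⟩

theorem Sim.refl (C : Set N) : Sim L A C C :=
  ⟨id, fun _ _ => rfl, bijOn_id _, fun _ _ _ _ => Iff.rfl⟩

theorem Sim.symm [Nonempty N] {C C' : Set N} (h : Sim L A C C') : Sim L A C' C := by
  obtain ⟨g, h1, h2⟩ := h
  obtain ⟨g', h3, h4, -⟩ := h2.inv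
  exact ⟨g', fun a ha => by have := h4 a (Or.inl ha); rwa [h1 a ha] at this, h3⟩

theorem Sim.trans {C C' C'' : Set N} (h : Sim L A C C') (h' : Sim L A C' C'') : Sim L A C C'' := by
  obtain ⟨g, h1, h2⟩ := h
  obtain ⟨g', h3, h4⟩ := h'
  exact ⟨fun x => g' (g x), fun a ha => by simp only [h1 a ha, h3 a ha], h4.comp h2⟩

theorem rep_spec {C : Set N} (h : IsC L A C) : IsC L A (rep L A C) ∧ Sim L A C (rep L A C) :=
  Classical.epsilon_spec (p := fun C' => IsC L A C' ∧ Sim L A C C') ⟨C, h, Sim.refl C⟩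

theorem rep_eq [Nonempty N] {C C' : Set N} (h : Sim L A C C') : rep L A C = rep L A C' := by
  unfold rep
  congr 1
  funext C''
  exact propext (and_congr Iff.rfl ⟨fun h' => h.symm.trans h', fun h' => h.trans h'⟩)

theorem rep_inj [Nonempty N] {C C' : Set N} (h : IsC L A C) (h' : IsC L A C')
    (hs : Sim L A (rep L A C) (rep L A C')) : rep L A C = rep L A C' :=
  rep_eq (((rep_spec h).2.trans hs).trans (rep_spec h').2.symm)

theorem few_types [Nonempty N] {l : Cardinal.{u}} (hl : ℵ₀ ≤ l) (hL : L.card ≤ l) (hA : #A ≤ l)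
    (𝒞 : Set (Set N)) (hc : ∀ C ∈ 𝒞, #C ≤ l)
    (hs : ∀ C ∈ 𝒞, ∀ C' ∈ 𝒞, Sim L A C C' → C = C') : #𝒞 ≤ 2 ^ l := by
  classical
  let T := A ⊕ l.out
  have hT : #T ≤ l := by
    simp only [T, mk_sum, mk_out, lift_id]
    exact add_le_of_le hl hA le_rfl
  have hne : Nonempty l.out := mk_ne_zero_iff.1 (by rw [mk_out]; exact (aleph0_pos.trans_le hl).ne')
  have he : ∀ C : 𝒞, ∃ e : N → T, InjOn e (A ∪ C.1) ∧ ∀ a (ha : a ∈ A), e a = Sum.inl ⟨a, ha⟩ := by
    intro C
    obtain ⟨f⟩ : Nonempty (C.1 ↪ l.out) := (le_def _ _).1 (by rw [mk_out]; exact hc _ C.2)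
    refine ⟨fun x => if h : x ∈ A then Sum.inl ⟨x, h⟩ else
      Sum.inr (if h' : x ∈ C.1 then f ⟨x, h'⟩ else Classical.arbitrary _), ?_,
      fun a ha => dif_pos ha⟩
    intro x hx y hy hxy
    by_cases h1 : x ∈ A <;> by_cases h2 : y ∈ A <;> simp only [h1, h2, dif_pos, dif_neg,
      not_false_eq_true] at hxy
    · exact congrArg Subtype.val (Sum.inl.inj hxy)
    · cases hxy
    · cases hxy
    · rw [dif_pos (hx.resolve_left h1), dif_pos (hy.resolve_left h2)] at hxy
      exact congrArg Subtype.val (f.injective (Sum.inr.inj hxy))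
  choose e he1 he2 using he
  let Q := (Σ n, L.Relations n) × List T
  let code : 𝒞 → Set T × Set Q := fun C => (e C '' (A ∪ C.1),
    {p | ∃ (n : ℕ) (R : L.Relations n) (v : Fin n → N), (∀ k, v k ∈ A ∪ C.1) ∧
      Structure.RelMap R v ∧ p = (⟨n, R⟩, List.ofFn fun k => e C (v k))})
  have hcode : ∀ (C : 𝒞) (n : ℕ) (R : L.Relations n) (v : Fin n → N), (∀ k, v k ∈ A ∪ C.1) →
      (((⟨n, R⟩, List.ofFn fun k => e C (v k)) : Q) ∈ (code C).2 ↔ Structure.RelMap R v) := by
    intro C n R v hv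
    refine ⟨?_, fun h => ⟨n, R, v, hv, h, rfl⟩⟩
    rintro ⟨n', R', v', hv', h, hp⟩
    obtain ⟨h1, h2⟩ := Prod.mk.inj hp
    cases h1
    have h3 := List.ofFn_injective h2
    have : v = v' := funext fun k => he1 C (hv k) (hv' k) (congrFun h3 k)
    rwa [this]
  have hinj : Function.Injective code := by
    intro C C' h
    refine Subtype.ext (hs _ C.2 _ C'.2 ?_)
    have h1 : e C '' (A ∪ C.1) = e C' '' (A ∪ C'.1) := congrArg Prod.fst h
    have b' := (he1 C').bijOn_image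
    have i' := b'.invOn_invFunOn
    have b : BijOn (e C) (A ∪ C.1) (e C' '' (A ∪ C'.1)) := h1 ▸ (he1 C).bijOn_image
    refine ⟨fun x => Function.invFunOn (e C') (A ∪ C'.1) (e C x), fun a ha => ?_,
      (b'.symm i'.symm).comp b, fun n R v hv => ?_⟩
    · show Function.invFunOn (e C') (A ∪ C'.1) (e C a) = a
      rw [he2 C a ha, ← he2 C' a ha]
      exact i'.1 (Or.inl ha)
    · rw [← hcode C n R v hv, ← hcode C' n R _ fun k => b'.surjOn.mapsTo_invFunOn (b.mapsTo (hv k)),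
        h]
      have : (fun k => e C' (Function.invFunOn (e C') (A ∪ C'.1) (e C (v k)))) =
          fun k => e C (v k) := funext fun k => i'.2 (b.mapsTo (hv k))
      rw [this]
  have hQ : #Q ≤ l := by
    simp only [Q, mk_prod, lift_id]
    refine mul_le_of_le hl (le_trans ?_ hL) ((mk_list_le_max T).trans (max_le hl hT))
    exact mk_le_of_injective (f := (Sum.inr : _ → L.Symbols)) Sum.inr_injective
  refine (mk_le_of_injective hinj).trans ?_
  simp only [mk_prod, lift_id, mk_set]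
  exact mul_le_of_le (hl.trans (cantor l).le) (power_le_power_left two_ne_zero hT)
    (power_le_power_left two_ne_zero hQ)

theorem sim_maps {C C' : Set N} {g : N → N} (h1 : ∀ a ∈ A, g a = a)
    (h2 : PIso L g (A ∪ C) (A ∪ C')) {x : N} (hx : x ∈ C) (hA : x ∉ A) : g x ∈ C' := by
  refine (h2.1.mapsTo (Or.inr hx)).resolve_left fun h => hA ?_
  rwa [h2.1.injOn (Or.inr hx) (Or.inl h) (h1 _ h).symm]

theorem glue : ∃ g, PIso L g (univ : Set N)
    (XS A (fun i : {C // IsC L A C} => rep L A i.1) univ) := by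
  classical
  choose g h1 h2 using fun i : {C // IsC L A C} => (rep_spec i.2).2
  let c : ∀ x, x ∉ A → {C // IsC L A C} := fun x h => ⟨cp L A x, x, h, rfl⟩
  let G : N → W N {C // IsC L A C} := fun x =>
    if h : x ∈ A then ⟨x, none⟩ else ⟨g (c x h) x, some (c x h)⟩
  have GA : ∀ x ∈ A, G x = ⟨x, none⟩ := fun x h => dif_pos h
  have GN : ∀ x (h : x ∉ A), G x = ⟨g (c x h) x, some (c x h)⟩ := fun x h => dif_neg h
  have GC : ∀ i : {C // IsC L A C}, ∀ x ∈ i.1, G x = ⟨g i x, some i⟩ := fun i x h => by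
    have : c x (i.2.notMem h) = i := Subtype.ext (i.2.eq h)
    rw [GN x (i.2.notMem h), this]
  refine ⟨G, ⟨fun x _ => ?_, fun x _ y _ hxy => ?_, ?_⟩, fun n R v _ => ?_⟩
  · by_cases h : x ∈ A
    · rw [GA x h]; exact xs_none.2 h
    · rw [GN x h]; exact xs_some.2 ⟨trivial, sim_maps (h1 _) (h2 _) (cp_self x) h⟩
  · by_cases hx : x ∈ A <;> by_cases hy : y ∈ A
    · rw [GA x hx, GA y hy] at hxy; exact congrArg W.pt hxy
    · rw [GA x hx, GN y hy] at hxy; cases congrArg W.ix hxy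
    · rw [GN x hx, GA y hy] at hxy; cases congrArg W.ix hxy
    · rw [GN x hx, GN y hy] at hxy
      have e : c x hx = c y hy := Option.some.inj (congrArg W.ix hxy)
      have e2 : g (c x hx) x = g (c y hy) y := congrArg W.pt hxy
      rw [← e] at e2
      exact (h2 _).1.injOn (Or.inr (cp_self x)) (Or.inr (e ▸ cp_self y)) e2
  · rintro ⟨y, _ | i⟩ hy
    · exact ⟨y, trivial, GA y (xs_none.1 hy)⟩
    · have hy' := (xs_some.1 hy).2
      obtain ⟨x, hx, rfl⟩ := (h2 i).1.surjOn (Or.inr hy')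
      rcases hx with hx | hx
      · rw [h1 i x hx] at hy'
        exact absurd hx ((rep_spec i.2).1.notMem hy')
      · exact ⟨x, trivial, GC i x hx⟩
  · rw [rel_w]
    by_cases hA : ∀ k, v k ∈ A
    · simp only [fun k => GA _ (hA k)]
      simp
    obtain ⟨k₀, hk⟩ := not_forall.1 hA
    have key : (∀ k, v k ∈ A ∪ cp L A (v k₀)) → (fun k => (G (v k)).pt) =
        (fun k => g (c _ hk) (v k)) ∧ ∀ k i, (G (v k)).ix = some i → i = c _ hk := by
      intro hv
      refine ⟨funext fun k => ?_, fun k i hi => ?_⟩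
      · rcases hv k with h | h
        · rw [GA _ h, h1 _ _ h]
        · rw [GC (c _ hk) _ h]
      · rcases hv k with h | h
        · rw [GA _ h] at hi; cases hi
        · rw [GC (c _ hk) _ h] at hi; exact (Option.some.inj hi).symm
    constructor
    · rintro ⟨h3, h4⟩
      have hv : ∀ k, v k ∈ A ∪ cp L A (v k₀) := fun k => by
        by_cases h : v k ∈ A
        · exact Or.inl h
        · have := h4 k k₀ (c _ h) (c _ hk) (by rw [GN _ h]) (by rw [GN _ hk])
          have e : cp L A (v k) = cp L A (v k₀) := congrArg Subtype.val this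
          exact Or.inr (e ▸ cp_self _)
      rw [(key hv).1] at h3
      exact ((h2 (c _ hk)).2 n R v hv).1 h3
    · intro h
      have hv := tuple_mem h hk
      refine ⟨?_, fun k k' i j hi hj => ((key hv).2 k i hi).trans ((key hv).2 k' j hj).symm⟩
      rw [(key hv).1]
      exact ((h2 (c _ hk)).2 n R v hv).2 h

section
variable {I' : Type u} {D' : I' → Set N} {Z : Set I'} {g : W N I' → W N I'}

theorem same_ix (hD : ∀ i, IsC L A (D' i)) (hg : PIso L g (XS A D' Z) (XS A D' Z))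
    (hA : ∀ a ∈ A, g ⟨a, none⟩ = ⟨a, none⟩) {x : N} {i : I'}
    (hx : (⟨x, some i⟩ : W N I') ∈ XS A D' Z) :
    ∃ i', ∀ y ∈ D' i, (g ⟨y, some i⟩).ix = some i' := by
  classical
  obtain ⟨hi, hxi⟩ := xs_some.1 hx
  have hs : ∀ y ∈ D' i, ∃ j, (g ⟨y, some i⟩).ix = some j := by
    intro y hy
    have hm : (⟨y, some i⟩ : W N I') ∈ XS A D' Z := xs_some.2 ⟨hi, hy⟩
    have hm' := hg.1.mapsTo hm
    rcases h : g ⟨y, some i⟩ with ⟨z, _ | j⟩
    · rw [h] at hm'
      have hz := xs_none.1 hm'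
      have := hg.1.injOn hm (xs_none.2 hz) (h.trans (hA z hz).symm)
      cases congrArg W.ix this
    · exact ⟨j, rfl⟩
  obtain ⟨i', hi'⟩ := hs x hxi
  refine ⟨i', fun y hy => ?_⟩
  rw [← (hD i).eq hxi] at hy
  induction hy with
  | refl => exact hi'
  | @tail b c hb h ih =>
    obtain ⟨hbA, hcA, n, R, v, hv, ⟨k, rfl⟩, ⟨k', rfl⟩⟩ := h
    have hb' : v k ∈ D' i := (hD i).eq hxi ▸ hb
    have hm : ∀ k'', v k'' ∈ A ∪ D' i := fun k'' => (hD i).eq hb' ▸ tuple_mem hv hbA k''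
    let w : Fin n → W N I' := fun k => ⟨v k, if v k ∈ A then none else some i⟩
    have hw : ∀ k, w k ∈ XS A D' Z := fun k => by
      by_cases h : v k ∈ A
      · simp only [w, if_pos h]; exact xs_none.2 h
      · simp only [w, if_neg h]; exact xs_some.2 ⟨hi, (hm k).resolve_left h⟩
    have h1 : Structure.RelMap R w := by
      refine ⟨hv, fun a b p q hp hq => ?_⟩
      simp only [w] at hp hq
      split_ifs at hp hq
      exact (Option.some.inj hp).symm.trans (Option.some.inj hq)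
    have h2 := ((hg.2 n R w hw).2 h1).2 k k'
    simp only [w, if_neg hbA, if_neg hcA] at h2
    obtain ⟨j, hj⟩ := hs _ ((hm k').resolve_left hcA)
    rw [hj, h2 i' j ih hj]

theorem sim_of_aut [Nonempty N] (hD : ∀ i, IsC L A (D' i)) (hg : PIso L g (XS A D' Z) (XS A D' Z))
    (hA : ∀ a ∈ A, g ⟨a, none⟩ = ⟨a, none⟩) {x : N} {i : I'}
    (hx : (⟨x, some i⟩ : W N I') ∈ XS A D' Z) :
    ∃ i', (g ⟨x, some i⟩).ix = some i' ∧ Sim L A (D' i) (D' i') := by
  classical
  obtain ⟨hi, hxi⟩ := xs_some.1 hx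
  obtain ⟨i', hi'⟩ := same_ix hD hg hA hx
  obtain ⟨g', hg', hl, hr⟩ := hg.inv
  have hA' : ∀ a ∈ A, g' ⟨a, none⟩ = ⟨a, none⟩ := fun a ha => by
    have := hl _ (xs_none.2 ha); rwa [hA a ha] at this
  have eta : ∀ y ∈ D' i, g ⟨y, some i⟩ = ⟨(g ⟨y, some i⟩).pt, some i'⟩ :=
    fun y hy => W.ext rfl (hi' y hy)
  have mem : ∀ y ∈ D' i, i' ∈ Z ∧ (g ⟨y, some i⟩).pt ∈ D' i' := fun y hy => by
    have := hg.1.mapsTo (xs_some.2 ⟨hi, hy⟩)
    rw [eta y hy] at this
    exact xs_some.1 this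
  obtain ⟨i'', hi''⟩ := same_ix hD hg' hA' (xs_some.2 (mem x hxi))
  have e : i'' = i := by
    have := hi'' _ (mem x hxi).2
    rw [← eta x hxi, hl _ hx] at this
    exact (Option.some.inj this).symm
  subst e
  let w : N → W N I' := fun y => ⟨y, if y ∈ A then none else some i''⟩
  have wA : ∀ y ∈ A, w y = ⟨y, none⟩ := fun y h => by simp only [w, if_pos h]
  have wD : ∀ y ∈ D' i'', w y = ⟨y, some i''⟩ := fun y h => by
    simp only [w, if_neg ((hD _).notMem h)]
  have hw : ∀ y ∈ A ∪ D' i'', w y ∈ XS A D' Z := by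
    rintro y (h | h)
    · rw [wA y h]; exact xs_none.2 h
    · rw [wD y h]; exact xs_some.2 ⟨hi, h⟩
  have gw : ∀ y ∈ A ∪ D' i'', ((g (w y)).pt ∈ A ∧ (g (w y)).ix = none) ∨
      ((g (w y)).pt ∈ D' i' ∧ (g (w y)).ix = some i') := by
    rintro y (h | h)
    · rw [wA y h, hA y h]; exact Or.inl ⟨h, rfl⟩
    · rw [wD y h]; exact Or.inr ⟨(mem y h).2, hi' y h⟩
  refine ⟨i', hi' x hxi, fun y => (g (w y)).pt, fun a ha => by simp only [wA a ha, hA a ha],
    ⟨fun y hy => (gw y hy).imp And.left And.left, fun y hy z hz hyz => ?_, ?_⟩,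
    fun n R v hv => ?_⟩
  · refine congrArg W.pt (hg.1.injOn (hw y hy) (hw z hz) (W.ext hyz ?_))
    have hyz' : (g (w y)).pt = (g (w z)).pt := hyz
    rcases gw y hy with h | h <;> rcases gw z hz with h' | h'
    · rw [h.2, h'.2]
    · exact absurd h.1 (hyz' ▸ (hD _).notMem h'.1)
    · exact absurd h'.1 (hyz' ▸ (hD _).notMem h.1)
    · rw [h.2, h'.2]
  · rintro z (h | h)
    · exact ⟨z, Or.inl h, by simp only [wA z h, hA z h]⟩
    · have hz : (⟨z, some i'⟩ : W N I') ∈ XS A D' Z := xs_some.2 ⟨(mem x hxi).1, h⟩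
      have h1 := hg'.1.mapsTo hz
      have h2 : g' ⟨z, some i'⟩ = ⟨(g' ⟨z, some i'⟩).pt, some i''⟩ := W.ext rfl (hi'' z h)
      rw [h2] at h1
      refine ⟨_, Or.inr (xs_some.1 h1).2, ?_⟩
      simp only [wD _ (xs_some.1 h1).2]
      rw [← h2, hr _ hz]
  · have h1 := hg.2 n R (fun k => w (v k)) fun k => hw _ (hv k)
    rw [rel_w, rel_w] at h1
    constructor
    · intro h
      refine (h1.1 ⟨h, fun k k' p q hp hq => ?_⟩).1
      rcases gw _ (hv k) with h' | h' <;> rw [h'.2] at hp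
      · cases hp
      rcases gw _ (hv k') with h'' | h'' <;> rw [h''.2] at hq
      · cases hq
      exact (Option.some.inj hp).symm.trans (Option.some.inj hq)
    · intro h
      refine (h1.2 ⟨h, fun k k' p q hp hq => ?_⟩).1
      simp only [w] at hp hq
      split_ifs at hp hq
      exact (Option.some.inj hp).symm.trans (Option.some.inj hq)

end

theorem exists_tmpl [Nonempty N] {l : Cardinal.{u}} (hl : ℵ₀ ≤ l) (hL : L.card ≤ l)
    (hN : Sparse L l N) : ∃ (A : Set N) (I : Type u) (D : I → Set N), Tmpl L l A D := by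
  let A : Set N := {x : N | l < #{y : N | Adj L x y}}
  have hc : ∀ C, IsC L A C → #C ≤ l := by
    rintro _ ⟨x, -, rfl⟩
    exact mk_cp hl (fun x hx => not_lt.1 hx) x
  refine ⟨A, {C // IsC L A C}, fun i => rep L A i.1, hN, fun i => ?_,
    fun i => hc _ (rep_spec i.2).1, few_types hl hL hN _ ?_ ?_, glue, ?_⟩
  · obtain ⟨x, -, hx⟩ := (rep_spec i.2).1
    exact ⟨x, hx ▸ cp_self x⟩
  · rintro _ ⟨i, rfl⟩
    exact hc _ (rep_spec i.2).1
  · rintro _ ⟨i, rfl⟩ _ ⟨j, rfl⟩ h
    exact rep_inj i.2 j.2 h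
  · intro I' D' hD Z g hg hA x i hx
    have hD' : ∀ i, IsC L A (D' i) := fun i => by
      obtain ⟨j, hj⟩ := hD i
      rw [← hj]; exact (rep_spec j.2).1
    obtain ⟨i', h1, h2⟩ := sim_of_aut hD' hg hA hx
    refine ⟨i', h1, ?_⟩
    obtain ⟨j, hj⟩ := hD i
    obtain ⟨j', hj'⟩ := hD i'
    rw [← hj, ← hj'] at h2 ⊢
    exact (rep_inj j.2 j'.2 h2).symm

end Vale.Agent.P307S
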