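import Mathlib

/-! P307: abstract elementary classes. -/

open FirstOrder FirstOrder.Language Cardinal Set

universe u

namespace Vale.Agent.P307S

/-- An abstract elementary class: `mem M` says that `M` is in the class and `le f` says that the
image of the embedding `f` is a strong substructure of the target. -/
structure AEC (L : FirstOrder.Language.{u, u}) where
  mem : ∀ (M : Type u) [L.Structure M], Prop
  le : ∀ {M N : Type u} [L.Structure M] [L.Structure N], (M ↪[L] N) → Prop
  le_mem : ∀ {M N : Type u} [L.Structure M] [L.Structure N] (f : M ↪[L] N), le f → mem M ∧ mem N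
  iso : ∀ {M N : Type u} [L.Structure M] [L.Structure N] (e : M ≃[L] N), mem M → le e.toEmbedding
  trans : ∀ {M N P : Type u} [L.Structure M] [L.Structure N] [L.Structure P]
    (f : M ↪[L] N) (g : N ↪[L] P), le f → le g → le (g.comp f)
  coh : ∀ {M N P : Type u} [L.Structure M] [L.Structure N] [L.Structure P]
    (f : M ↪[L] N) (g : N ↪[L] P), le (g.comp f) → le g → le f
  chain : ∀ {U I : Type u} [L.Structure U] [LinearOrder I] [WellFoundedLT I] [Nonempty I]
    (S : I → L.Substructure U) (hS : Monotone S),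
    (∀ i j (h : i ≤ j), le (Substructure.inclusion (hS h))) → (∀ x : U, ∃ i, x ∈ S i) →
    mem U ∧ ∀ i, le (S i).subtype
  smooth : ∀ {N I : Type u} [L.Structure N] [LinearOrder I] [WellFoundedLT I] [Nonempty I]
    (S : I → L.Substructure N) (hS : Monotone S),
    (∀ i j (h : i ≤ j), le (Substructure.inclusion (hS h))) → (∀ i, le (S i).subtype) →
    ∀ U : L.Substructure N, (∀ x : N, x ∈ U ↔ ∃ i, x ∈ S i) → le U.subtype

variable {L : FirstOrder.Language.{u, u}}

/-- The Loewenheim-Skolem number of `K` is at most `l`. -/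
def AEC.LSle (K : AEC L) (l : Cardinal.{u}) : Prop :=
  ℵ₀ ≤ l ∧ L.card ≤ l ∧ ∀ (M : Type u) [L.Structure M], K.mem M → ∀ A : Set M,
    ∃ S : L.Substructure M, K.le S.subtype ∧ A ⊆ S ∧ #S ≤ #A + l

/-- `K` is categorical in `k`. -/
def AEC.Cat (K : AEC L) (k : Cardinal.{u}) : Prop :=
  (∃ (M : Type u) (_ : L.Structure M), K.mem M ∧ #M = k) ∧
  ∀ (M N : Type u) [L.Structure M] [L.Structure N], K.mem M → K.mem N → #M = k → #N = k →
    Nonempty (M ≃[L] N)

variable (L) in
/-- Adjacency in the Gaifman graph: both points occur in one tuple of a relation. -/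
def Adj {M : Type u} [L.Structure M] (x y : M) : Prop :=
  ∃ (n : ℕ) (R : L.Relations n) (v : Fin n → M), Structure.RelMap R v ∧ x ∈ range v ∧ y ∈ range v

variable (L) in
/-- At most `l` points have more than `l` neighbours in the Gaifman graph. -/
def Sparse (l : Cardinal.{u}) (M : Type u) [L.Structure M] : Prop :=
  #{x : M | l < #{y : M | Adj L x y}} ≤ l

/-- `K` is closed under free amalgamation. -/
def AEC.FreeAP (K : AEC L) : Prop :=
  ∀ (U : Type u) [L.Structure U] (S₀ S₁ S₂ : L.Substructure U) (h₁ : S₀ ≤ S₁) (h₂ : S₀ ≤ S₂),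
    K.le (Substructure.inclusion h₁) → K.le (Substructure.inclusion h₂) → S₁ ⊓ S₂ = S₀ →
    (∀ x : U, x ∈ S₁ ∨ x ∈ S₂) →
    (∀ (n : ℕ) (R : L.Relations n) (v : Fin n → U), Structure.RelMap R v →
      (∀ k, v k ∈ S₁) ∨ (∀ k, v k ∈ S₂)) → K.le S₁.subtype

end Vale.Agent.P307S
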