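import Vale.Agent.P307.SMain
import Vale.Agent.P307.DDefs

/-! P307: classes closed under disjoint unions. -/

open Cardinal hiding univ
open FirstOrder FirstOrder.Language Set

universe u

namespace Vale.Agent.P307S

variable {L : FirstOrder.Language.{u, u}} [L.IsRelational] {K : AEC L}
variable {N S : Type u} [L.Structure N] {l κ : Cardinal.{u}}

theorem disj_le (hK : K.DisjCl) {s₁ s₂ : Set N} (h₁ : Le K s₁ s₁) (h₂ : Le K s₂ s₂)
    (hi : Disjoint s₁ s₂)
    (hR : ∀ (n : ℕ) (R : L.Relations n) (v : Fin n → N), Structure.RelMap R v →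
      (∀ k, v k ∈ s₁ ∪ s₂) → (∀ k, v k ∈ s₁) ∨ (∀ k, v k ∈ s₂)) : Le K s₁ (s₁ ∪ s₂) := by
  have key := hK (sub L (s₁ ∪ s₂)) (sub L (Subtype.val ⁻¹' s₁)) (sub L (Subtype.val ⁻¹' s₂))
    (le_self_iff.1 ((le_pre subset_rfl subset_union_left).2 h₁))
    (le_self_iff.1 ((le_pre subset_rfl subset_union_right).2 h₂))
    (fun x h1 h2 => Set.disjoint_left.1 hi h1 h2)
    (fun x => x.2) (fun n R v hv => hR n R (fun k => (v k : N)) hv fun k => (v k).2)
  have := le_univ_iff.2 key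
  rw [← pre_self] at this
  exact (le_pre subset_union_left subset_rfl).1 this

theorem fp_ok' (hF : K.DisjCl) {t : Set N} (h : Le K t t) (j₀ : S) :
    Le K (FP ∅ t (univ : Set S)) (FP ∅ t univ) := by
  have h1 : ∀ j : S, Le K (FP ∅ t {j}) (FP ∅ t {j}) := fun j => by
    obtain ⟨g, hg, -⟩ := fp_one (L := L) (empty_subset t) j
    exact hg.ok.1 h
  refine (zorn_le fp_pcs (subset_univ {j₀}) (h1 j₀) fun c _ _ hc j _ hj => ?_).right
  have e : FP ∅ t (insert j c) = FP ∅ t c ∪ FP ∅ t {j} := by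
    ext ⟨x, _ | i⟩
    · simp [fp_none]
    · simp only [fp_some, mem_insert_iff, mem_union, mem_singleton_iff]; tauto
  rw [e]
  refine disj_le hF hc.right (h1 j) (Set.disjoint_left.2 ?_) fun n R v hv hm => ?_
  · rintro ⟨x, _ | i⟩ h2 h3
    · exact fp_none.1 h2
    · exact hj ((fp_some.1 h3).1 ▸ (fp_some.1 h2).1)
  · rw [← e] at hm
    by_cases hk : ∃ k, (v k).ix = some j
    · obtain ⟨k, hk⟩ := hk
      exact Or.inr (fp_tuple hv hm hk)
    · refine Or.inl fun k => ?_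
      have h2 := hm k
      have h3 : (v k).ix ≠ some j := fun h => hk ⟨k, h⟩
      rcases e' : v k with ⟨x, _ | i⟩ <;> rw [e'] at h2 h3
      · exact fp_none.2 (fp_none.1 h2)
      · exact fp_some.2 ⟨(fp_some.1 h2).1.resolve_left fun h => h3 (congrArg some h),
          (fp_some.1 h2).2⟩

theorem disj_sparse (hK : K.LSle l) (hκ : l < κ) (hcat : K.Cat κ) (hF : K.DisjCl)
    (N : Type u) [L.Structure N] (hN : K.mem N) : Sparse L l N := by
  have hinf := hK.1.trans hκ.le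
  obtain ⟨j⟩ : Nonempty κ.out := mk_ne_zero_iff.1 (by
    rw [mk_out]; exact (zero_le.trans_lt hκ).ne')
  have h1 : ∀ (M : Type u) [L.Structure M], K.mem M → #M = κ → Sparse L l M := by
    intro M _ hM hc
    obtain ⟨x⟩ : Nonempty M := mk_ne_zero_iff.1 (hc ▸ (zero_le.trans_lt hκ).ne')
    have : Nonempty M := ⟨x⟩
    obtain ⟨t, ht, ht', htc⟩ := ls_le hK (mem_iff.1 hM) (subset_univ {x}) le_rfl
      (by simpa using one_le_aleph0.trans hK.1)
    obtain ⟨g, hg⟩ := cat_piso hcat (mem_iff.1 hM) (fp_ok' hF ht'.left j)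
      (mk_univ.trans hc) (mk_fp_eq hinf (empty_subset _) ⟨x, ht rfl, id⟩ (htc.trans hκ.le))
    exact sparse_piso hg subset_rfl (fp_sparse hK.1 (empty_subset _) htc _)
  rcases le_total κ #N with h | h
  · exact sparse_up hK hκ h1 hN h
  rcases le_or_gt #N l with h' | h'
  · exact (mk_set_le _).trans h'
  obtain ⟨x⟩ : Nonempty N := mk_ne_zero_iff.1 (zero_le.trans_lt h').ne'
  obtain ⟨g, hg, -⟩ := fp_one (L := L) (empty_subset (univ : Set N)) j
  exact sparse_piso hg (fp_pcs.mono (subset_univ _)) (h1 _ (le_self_iff.1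
    (fp_ok' hF (mem_iff.1 hN) j))
    (mk_fp_eq hinf (subset_univ _) ⟨x, trivial, id⟩ (mk_univ.le.trans h)))

end Vale.Agent.P307S
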