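import Vale.Agent.P307.SPow

/-! P307: free sums over a base. -/

open Cardinal hiding univ
open FirstOrder FirstOrder.Language Set

universe u

namespace Vale.Agent.P307S

/-- Points with an optional index. -/
@[ext] structure W (P I : Type u) : Type u where
  pt : P
  ix : Option I

instance {P I : Type u} [h : Nonempty P] : Nonempty (W P I) := h.map fun x => ⟨x, none⟩

/-- The base `A` together with a copy of `D i` for each index `i` in `Z`. -/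
def XS {P I : Type u} (A : Set P) (D : I → Set P) (Z : Set I) : Set (W P I) :=
  {p | (p.ix = none ∧ p.pt ∈ A) ∨ ∃ i ∈ Z, p.ix = some i ∧ p.pt ∈ D i}

/-- The free power of `t` over `s`. -/
def FP {P S : Type u} (s t : Set P) (a : Set S) : Set (W P S) := XS s (fun _ => t \ s) a

/-- Multiplicity of a colour. -/
def mu {I : Type u} {T : Type*} (D : I → T) (Z : Set I) (C : T) : Cardinal.{u} :=
  #{i | i ∈ Z ∧ D i = C}

section
variable {P I I' S : Type u} {A : Set P} {D : I → Set P} {D' : I' → Set P}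

theorem xs_none {Z : Set I} {x : P} : (⟨x, none⟩ : W P I) ∈ XS A D Z ↔ x ∈ A := by
  simp [XS]

theorem xs_some {Z : Set I} {x : P} {i : I} :
    (⟨x, some i⟩ : W P I) ∈ XS A D Z ↔ i ∈ Z ∧ x ∈ D i := by
  simp [XS]

theorem fp_none {s t : Set P} {a : Set S} {x : P} : (⟨x, none⟩ : W P S) ∈ FP s t a ↔ x ∈ s :=
  xs_none

theorem fp_some {s t : Set P} {a : Set S} {x : P} {j : S} :
    (⟨x, some j⟩ : W P S) ∈ FP s t a ↔ j ∈ a ∧ x ∈ t \ s := xs_some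

theorem xs_pcs : Pcs (XS A D) := by
  rintro a ⟨x, _ | i⟩
  · simp [xs_none]
  · simp [xs_some]

theorem fp_pcs {s t : Set P} : Pcs (FP s t : Set S → Set (W P S)) := xs_pcs

theorem Pcs.comp {M : Type u} {F : Set I → Set M} {G : Set S → Set I} (hF : Pcs F) (hG : Pcs G) :
    Pcs fun a => F (G a) := by
  intro a x
  constructor
  · intro hx
    rcases (hF _ x).1 hx with h | ⟨i, hi, h⟩
    · exact Or.inl (hF.mono (empty_subset _) h)
    · rcases (hG a i).1 hi with h' | ⟨j, hj, h'⟩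
      · exact Or.inl (hF.mono (singleton_subset_iff.2 h') h)
      · exact Or.inr ⟨j, hj, hF.mono (singleton_subset_iff.2 h') h⟩
  · rintro (h | ⟨j, hj, h⟩)
    · exact hF.mono (hG.mono (empty_subset _)) h
    · exact hF.mono (hG.mono (singleton_subset_iff.2 hj)) h

theorem mk_xs_le {Z : Set I} {σ : Cardinal.{u}} (hσ : ℵ₀ ≤ σ) (hA : #A ≤ σ) (hZ : #Z ≤ σ)
    (hD : ∀ i, #(D i) ≤ σ) : #(XS A D Z) ≤ σ := by
  have h : XS A D Z ⊆ (fun x => ⟨x, none⟩) '' A ∪ ⋃ i ∈ Z, (fun x => ⟨x, some i⟩) '' D i := by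
    rintro ⟨x, _ | i⟩ hx
    · exact Or.inl ⟨x, xs_none.1 hx, rfl⟩
    · exact Or.inr (mem_iUnion₂.2 ⟨i, (xs_some.1 hx).1, x, (xs_some.1 hx).2, rfl⟩)
  refine (mk_le_mk_of_subset h).trans ((mk_union_le _ _).trans (add_le_of_le hσ
    (mk_image_le.trans hA) ((mk_biUnion_le _ _).trans (mul_le_of_le hσ hZ
      (ciSup_le' fun i => mk_image_le.trans (hD _))))))

theorem le_mk_xs {Z : Set I} (hD : ∀ i ∈ Z, (D i).Nonempty) : #Z ≤ #(XS A D Z) := by
  refine mk_le_of_injective (f := fun i => ⟨⟨(hD i i.2).some, some i.1⟩,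
    xs_some.2 ⟨i.2, (hD i i.2).some_mem⟩⟩) fun i j h => ?_
  have := congrArg (fun p : XS A D Z => p.1.ix) h
  exact Subtype.ext (Option.some.inj this)

theorem mk_none (E : Set I) : #{p : W I S | p.ix = none ∧ p.pt ∈ E} = #E := by
  have : {p : W I S | p.ix = none ∧ p.pt ∈ E} = (fun x => ⟨x, none⟩) '' E := by
    ext ⟨x, _ | j⟩ <;> simp
  rw [this, mk_image_eq]
  intro x y h
  exact congrArg W.pt h

theorem mk_some (E : Set I) (a : Set S) :
    #{p : W I S | ∃ j ∈ a, p.ix = some j ∧ p.pt ∈ E} = #E * #a := by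
  have : {p : W I S | ∃ j ∈ a, p.ix = some j ∧ p.pt ∈ E} =
      (fun x : I × S => ⟨x.1, some x.2⟩) '' (E ×ˢ a) := by
    ext ⟨x, _ | j⟩
    · simp
    · simp [and_comm]
  rw [this, mk_image_eq, mk_setProd]
  intro x y h
  exact Prod.ext (congrArg W.pt h) (Option.some.inj (congrArg W.ix h))

theorem mu_fp {T : Type*} (c : I → T) (Z₀ Z₁ : Set I) (a : Set S) (C : T) :
    mu (fun p : W I S => c p.pt) (FP Z₀ Z₁ a) C = mu c Z₀ C + mu c (Z₁ \ Z₀) C * #a := by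
  unfold mu
  rw [← mk_some, ← mk_none (S := S) {i | i ∈ Z₀ ∧ c i = C}, ← mk_union_of_disjoint]
  · congr 2
    ext ⟨x, _ | j⟩
    · simp [fp_none]
    · simp [fp_some]; tauto
  · rw [Set.disjoint_left]
    rintro ⟨x, _ | j⟩ <;> simp

theorem mu_fp_diff {T : Type*} (c : I → T) (Z₀ Z₁ : Set I) (a b : Set S) (C : T) :
    mu (fun p : W I S => c p.pt) (FP Z₀ Z₁ b \ FP Z₀ Z₁ a) C = mu c (Z₁ \ Z₀) C * #(b \ a : Set S) := by
  unfold mu
  rw [← mk_some]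
  congr 2
  ext ⟨x, _ | j⟩
  · simp [fp_none]
  · simp [fp_some]; tauto

theorem mu_le {T : Type*} (c : I → T) (Z : Set I) (C : T) : mu c Z C ≤ #Z :=
  mk_le_mk_of_subset fun _ h => h.1

theorem mu_mono {T : Type*} (c : I → T) {Z Z' : Set I} (h : Z ⊆ Z') (C : T) :
    mu c Z C ≤ mu c Z' C := mk_le_mk_of_subset fun _ h' => ⟨h h'.1, h'.2⟩

theorem mu_ne_zero {T : Type*} {c : I → T} {Z : Set I} {C : T} :
    mu c Z C ≠ 0 ↔ ∃ i ∈ Z, c i = C := by
  rw [mu, mk_ne_zero_iff, nonempty_coe_sort]; rfl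

theorem exists_bij {T : Type*} [Nonempty I'] {c : I → T} {c' : I' → T} {Z : Set I} {Z' : Set I'}
    (h : ∀ C, mu c Z C = mu c' Z' C) : ∃ β, BijOn β Z Z' ∧ ∀ i ∈ Z, c' (β i) = c i := by
  classical
  have e : ∀ C, {a : Z // c a.1 = C} ≃ {b : Z' // c' b.1 = C} := fun C =>
    (Equiv.subtypeSubtypeEquivSubtypeInter _ (fun i => c i = C)).trans
      ((Cardinal.eq.1 (h C)).some.trans
        (Equiv.subtypeSubtypeEquivSubtypeInter _ (fun i => c' i = C)).symm)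
  let f : Z ≃ Z' := Equiv.ofFiberEquiv e
  refine ⟨fun i => if hi : i ∈ Z then f ⟨i, hi⟩ else Classical.arbitrary _,
    ⟨fun i hi => ?_, fun i hi j hj hij => ?_, fun y hy => ?_⟩, fun i hi => ?_⟩
  · simp only [dif_pos hi]; exact (f _).2
  · simp only [dif_pos hi, dif_pos hj] at hij
    exact congrArg Subtype.val (f.injective (Subtype.ext hij))
  · obtain ⟨x, hx⟩ := f.surjective ⟨y, hy⟩
    refine ⟨x, x.2, ?_⟩
    simp only [dif_pos x.2]
    exact congrArg Subtype.val hx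
  · simp only [dif_pos hi]
    exact Equiv.ofFiberEquiv_map e ⟨i, hi⟩

end

variable {L : FirstOrder.Language.{u, u}} [L.IsRelational] {K : AEC L}
variable {P P' I I' S : Type u} [L.Structure P] [L.Structure P']

instance : L.Structure (W P I) where
  funMap := fun f => isEmptyElim f
  RelMap := fun R v => Structure.RelMap R (fun k => (v k).pt) ∧
    ∀ k k' i j, (v k).ix = some i → (v k').ix = some j → i = j

theorem rel_w {n : ℕ} (R : L.Relations n) (v : Fin n → W P I) :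
    Structure.RelMap R v ↔ Structure.RelMap R (fun k => (v k).pt) ∧
      ∀ k k' i j, (v k).ix = some i → (v k').ix = some j → i = j := Iff.rfl

variable {A : Set P} {D : I → Set P} {D' : I' → Set P}

theorem xs_map {Z : Set I} {Z' : Set I'} {β : I → I'} (hβ : BijOn β Z Z')
    (hD : ∀ i ∈ Z, D' (β i) = D i) :
    PIso L (fun p : W P I => (⟨p.pt, p.ix.map β⟩ : W P I')) (XS A D Z) (XS A D' Z') := by
  refine ⟨⟨?_, ?_, ?_⟩, fun n R v hv => ?_⟩
  · rintro ⟨x, _ | i⟩ hx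
    · exact xs_none.2 (xs_none.1 hx)
    · obtain ⟨h1, h2⟩ := xs_some.1 hx
      exact xs_some.2 ⟨hβ.mapsTo h1, (hD i h1).symm ▸ h2⟩
  · rintro ⟨x, _ | i⟩ hx ⟨y, _ | j⟩ hy h <;> simp at h
    · simp [h]
    · rw [h.1, hβ.injOn (xs_some.1 hx).1 (xs_some.1 hy).1 h.2]
  · rintro ⟨x, _ | i⟩ hx
    · exact ⟨⟨x, none⟩, xs_none.2 (xs_none.1 hx), rfl⟩
    · obtain ⟨h1, h2⟩ := xs_some.1 hx
      obtain ⟨j, hj, rfl⟩ := hβ.surjOn h1
      exact ⟨⟨x, some j⟩, xs_some.2 ⟨hj, hD j hj ▸ h2⟩, rfl⟩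
  · rw [rel_w, rel_w]
    refine and_congr Iff.rfl ⟨fun h k k' i j hi hj => ?_, fun h k k' i j hi hj => ?_⟩
    · have m : ∀ k i, (v k).ix = some i → i ∈ Z := fun k i hi => by
        have := hv k
        rw [show v k = ⟨(v k).pt, some i⟩ from W.ext rfl hi] at this
        exact (xs_some.1 this).1
      exact hβ.injOn (m k i hi) (m k' j hj) (h k k' _ _ (by simp [hi]) (by simp [hj]))
    · simp only [Option.map_eq_some_iff] at hi hj
      obtain ⟨i, hi, rfl⟩ := hi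
      obtain ⟨j, hj, rfl⟩ := hj
      rw [h k k' i j hi hj]

theorem xs_iso [Nonempty I'] {Z : Set I} {Z' : Set I'} (h : ∀ C, mu D Z C = mu D' Z' C) :
    ∃ g, PIso L g (XS A D Z) (XS A D' Z') := by
  obtain ⟨β, hβ, hD⟩ := exists_bij h
  exact ⟨_, xs_map hβ hD⟩

theorem xs_le_congr [Nonempty I'] {Z₀ Z₁ : Set I} {Z₀' Z₁' : Set I'} (hZ : Z₀ ⊆ Z₁)
    (hZ' : Z₀' ⊆ Z₁') (h₀ : ∀ C, mu D Z₀ C = mu D' Z₀' C)
    (h₁ : ∀ C, mu D (Z₁ \ Z₀) C = mu D' (Z₁' \ Z₀') C) (h : Le K (XS A D Z₀) (XS A D Z₁)) :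
    Le K (XS A D' Z₀') (XS A D' Z₁') := by
  have key : ∀ {J : Type u} (E : J → Set P) (Y₀ Y₁ : Set J), Y₀ ⊆ Y₁ → ∀ C,
      mu (fun i => (E i, i ∈ Y₀)) Y₁ (C, True) = mu E Y₀ C ∧
      mu (fun i => (E i, i ∈ Y₀)) Y₁ (C, False) = mu E (Y₁ \ Y₀) C := by
    intro J E Y₀ Y₁ hY C
    unfold mu
    constructor
    · congr 2; ext i; simp; tauto
    · congr 2; ext i; simp; tauto
  obtain ⟨β, hβ, hD⟩ := exists_bij (c := fun i => (D i, i ∈ Z₀)) (c' := fun i => (D' i, i ∈ Z₀'))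
    (Z := Z₁) (Z' := Z₁') (by
      rintro ⟨C, p⟩
      by_cases hp : p
      · rw [eq_true hp, (key D _ _ hZ C).1, (key D' _ _ hZ' C).1, h₀]
      · rw [eq_false hp, (key D _ _ hZ C).2, (key D' _ _ hZ' C).2, h₁])
  have hD1 : ∀ i ∈ Z₁, D' (β i) = D i := fun i hi => congrArg Prod.fst (hD i hi)
  have hD2 : ∀ i ∈ Z₁, β i ∈ Z₀' ↔ i ∈ Z₀ := fun i hi => iff_of_eq (congrArg Prod.snd (hD i hi))
  have hβ₀ : BijOn β Z₀ Z₀' := ⟨fun i hi => (hD2 i (hZ hi)).2 hi, hβ.injOn.mono hZ, fun y hy => by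
    obtain ⟨i, hi, rfl⟩ := hβ.surjOn (hZ' hy)
    exact ⟨i, (hD2 i hi).1 hy, rfl⟩⟩
  have := ((xs_map (L := L) (A := A) hβ hD1).le_iff (xs_pcs.mono hZ)).1 h
  rwa [(xs_map (L := L) (A := A) hβ₀ fun i hi => hD1 i (hZ hi)).1.image_eq] at this

theorem pcs_ls {l σ : Cardinal.{u}} (hK : K.LSle l) (hl : l ≤ σ) {F : Set I → Set P} (hF : Pcs F)
    (hc : ∀ a : Set I, #a ≤ σ → #(F a) ≤ σ) {Y Z : Set I} (hZ : Le K (F Z) (F Z)) (hY : Y ⊆ Z)
    (hYc : #Y ≤ σ) : ∃ Z₀, Y ⊆ Z₀ ∧ Z₀ ⊆ Z ∧ #Z₀ ≤ σ ∧ Le K (F Z₀) (F Z) := by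
  have hσ := hK.1.trans hl
  obtain ⟨s, h0, hm, hs, hU⟩ := exists_seq hσ (· ⊆ Z)
    (fun Y Y' => ∃ t, F Y ⊆ t ∧ t ⊆ F Y' ∧ Le K t (F Z)) (fun Y hY hYc => by
      obtain ⟨t, h1, h2, h3⟩ := ls_le hK hZ (hF.mono hY) hl (hc Y hYc)
      obtain ⟨a, ha, hac, hta⟩ := hF.supp h2.sub
      exact ⟨Y ∪ a, union_subset hY ha, (mk_union_le _ _).trans (add_le_of_le hσ hYc
        (hac.trans h3)), subset_union_left, t, h1, hta.trans (hF.mono subset_union_right), h2⟩)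
    Y hY hYc
  choose t h1 h2 h3 using fun n => (hs n).2
  refine ⟨⋃ n, s n, h0 ▸ subset_iUnion s 0, iUnion_subset fun n => (hs n).1, hU, ?_⟩
  have e : F (⋃ n, s n) = ⋃ n, t n := by
    rw [hF.iUnion]
    exact Subset.antisymm (iUnion_mono h1)
      (iUnion_subset fun n => (h2 n).trans (subset_iUnion (fun n => F (s n)) (n + 1)))
  have hmt : Monotone t := monotone_nat_of_le_succ fun n => (h2 n).trans (h1 (n + 1))
  rw [e]
  exact smooth_le t (fun i j => (le_total i j).imp (fun h => hmt h) fun h => hmt h) h3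

/-- A strong pair with saturated colours gives models of every larger size. -/
theorem big [Nonempty I] {Z₀ Z₁ : Set I} {σ : Cardinal.{u}} (hσ : ℵ₀ ≤ σ) (hZ : Z₀ ⊆ Z₁)
    (h : Le K (XS A D Z₀) (XS A D Z₁)) (hc : #Z₁ ≤ σ) (hm : ∀ i ∈ Z₁ \ Z₀, σ ≤ mu D Z₀ (D i))
    (b : Set S) : Le K (XS A (fun p : W I S => D p.pt) (FP Z₀ Z₁ b))
      (XS A (fun p : W I S => D p.pt) (FP Z₀ Z₁ b)) := by
  refine pow_le (xs_pcs.comp fp_pcs) hσ ?_ (fun c hcc j hj => ?_) b b subset_rfl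
  · refine xs_le_congr subset_rfl subset_rfl (fun C => ?_) (fun C => ?_) h.left
    · simp [mu_fp]
    · simp [mu]
  · refine xs_le_congr hZ (fp_pcs.mono (subset_insert _ _)) (fun C => ?_) (fun C => ?_) h
    · rw [mu_fp]
      by_cases h0 : mu D (Z₁ \ Z₀) C = 0
      · simp [h0]
      · obtain ⟨i, hi, rfl⟩ := mu_ne_zero.1 h0
        have h1 := hm i hi
        refine (add_eq_left (hσ.trans h1) (le_trans ?_ h1)).symm
        exact mul_le_of_le hσ ((mu_le _ _ _).trans ((mk_le_mk_of_subset sdiff_subset).trans hc)) hcc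
    · have e : insert j c \ c = {j} := by
        ext x; simp only [mem_sdiff, mem_insert_iff, mem_singleton_iff]
        exact ⟨fun h => h.1.resolve_right h.2, fun h => ⟨Or.inl h, h ▸ hj⟩⟩
      rw [mu_fp_diff, e, mk_singleton, mul_one]

theorem flat (Z₀ Z₁ : Set I) (a : Set S) :
    PIso L (fun p : W P (W I S) => (⟨⟨p.pt, p.ix.map W.pt⟩, p.ix.bind W.ix⟩ : W (W P I) S))
      (XS A (fun p : W I S => D p.pt) (FP Z₀ Z₁ a)) (FP (XS A D Z₀) (XS A D Z₁) a) := by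
  refine ⟨⟨?_, ?_, ?_⟩, fun n R v hv => ?_⟩
  · rintro ⟨x, _ | ⟨i, _ | j⟩⟩ hx
    · exact fp_none.2 (xs_none.2 (xs_none.1 hx))
    · obtain ⟨h1, h2⟩ := xs_some.1 hx
      exact fp_none.2 (xs_some.2 ⟨fp_none.1 h1, h2⟩)
    · obtain ⟨h1, h2⟩ := xs_some.1 hx
      obtain ⟨h3, h4⟩ := fp_some.1 h1
      exact fp_some.2 ⟨h3, xs_some.2 ⟨h4.1, h2⟩, fun h => h4.2 (xs_some.1 h).1⟩
  · rintro ⟨x, _ | ⟨i, o⟩⟩ - ⟨y, _ | ⟨j, o'⟩⟩ - h <;> simp at h
    · simp [h]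
    · simp [h]
  · rintro ⟨⟨x, _ | i⟩, _ | j⟩ hx
    · exact ⟨⟨x, none⟩, xs_none.2 (xs_none.1 (fp_none.1 hx)), rfl⟩
    · exact absurd (xs_none.2 (xs_none.1 (fp_some.1 hx).2.1)) (fp_some.1 hx).2.2
    · obtain ⟨h1, h2⟩ := xs_some.1 (fp_none.1 hx)
      exact ⟨⟨x, some ⟨i, none⟩⟩, xs_some.2 ⟨fp_none.2 h1, h2⟩, rfl⟩
    · obtain ⟨h0, h3, h4⟩ := fp_some.1 hx
      obtain ⟨h1, h2⟩ := xs_some.1 h3
      exact ⟨⟨x, some ⟨i, some j⟩⟩,
        xs_some.2 ⟨fp_some.2 ⟨h0, h1, fun h => h4 (xs_some.2 ⟨h, h2⟩)⟩, h2⟩, rfl⟩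
  · simp only [rel_w]
    constructor
    · rintro ⟨⟨h1, h2⟩, h3⟩
      refine ⟨h1, fun k k' p q hp hq => ?_⟩
      have m : ∀ k p, (v k).ix = some p → p ∈ FP Z₀ Z₁ a := fun k i hi => by
        have := hv k
        rw [show v k = ⟨(v k).pt, some i⟩ from W.ext rfl hi] at this
        exact (xs_some.1 this).1
      have e := h2 k k' p.pt q.pt (by simp [hp]) (by simp [hq])
      have mp := m k p hp
      have mq := m k' q hq
      have h4 := h3 k k'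
      rw [hp, hq] at h4
      obtain ⟨i, _ | j⟩ := p <;> obtain ⟨i', _ | j'⟩ := q <;> simp only at e <;> subst e
      · rfl
      · exact absurd (fp_none.1 mp) (fp_some.1 mq).2.2
      · exact absurd (fp_none.1 mq) (fp_some.1 mp).2.2
      · rw [h4 j j' rfl rfl]
    · rintro ⟨h1, h2⟩
      refine ⟨⟨h1, fun k k' i j hi hj => ?_⟩, fun k k' i j hi hj => ?_⟩
      · simp only [Option.map_eq_some_iff] at hi hj
        obtain ⟨p, hp, rfl⟩ := hi
        obtain ⟨q, hq, rfl⟩ := hj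
        rw [h2 k k' p q hp hq]
      · simp only [Option.bind_eq_some_iff] at hi hj
        obtain ⟨p, hp, hi⟩ := hi
        obtain ⟨q, hq, hj⟩ := hj
        rw [h2 k k' p q hp hq, hj] at hi
        exact (Option.some.inj hi).symm

theorem fp_congr {φ : P → P'} {s t : Set P} {t' : Set P'} (h : PIso L φ t t') (hs : s ⊆ t)
    (a : Set S) : PIso L (fun p : W P S => (⟨φ p.pt, p.ix⟩ : W P' S)) (FP s t a)
      (FP (φ '' s) t' a) := by
  have m : ∀ p ∈ FP s t a, p.pt ∈ t := by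
    rintro ⟨x, _ | j⟩ hx
    · exact hs (fp_none.1 hx)
    · exact (fp_some.1 hx).2.1
  refine ⟨⟨?_, ?_, ?_⟩, fun n R v hv => ?_⟩
  · rintro ⟨x, _ | j⟩ hx
    · exact fp_none.2 (mem_image_of_mem φ (fp_none.1 hx))
    · obtain ⟨h1, h2, h3⟩ := fp_some.1 hx
      refine fp_some.2 ⟨h1, h.1.mapsTo h2, ?_⟩
      rintro ⟨y, hy, hxy⟩
      exact h3 (h.1.injOn (hs hy) h2 hxy ▸ hy)
  · intro p hp q hq hpq
    exact W.ext (h.1.injOn (m p hp) (m q hq) (congrArg W.pt hpq)) (congrArg W.ix hpq :)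
  · rintro ⟨x, _ | j⟩ hx
    · obtain ⟨y, hy, rfl⟩ := fp_none.1 hx
      exact ⟨⟨y, none⟩, fp_none.2 hy, rfl⟩
    · obtain ⟨h1, h2, h3⟩ := fp_some.1 hx
      obtain ⟨y, hy, rfl⟩ := h.1.surjOn h2
      exact ⟨⟨y, some j⟩, fp_some.2 ⟨h1, hy, fun h' => h3 (mem_image_of_mem φ h')⟩, rfl⟩
  · rw [rel_w, rel_w]
    exact and_congr (h.2 n R (fun k => (v k).pt) fun k => m _ (hv k)) Iff.rfl

end Vale.Agent.P307S
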