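import Vale.Agent.P307.SStd

/-! P307: categoricity transfer for sparse models. -/

open Cardinal hiding univ
open FirstOrder FirstOrder.Language Set

universe u

namespace Vale.Agent.P307S

variable {L : FirstOrder.Language.{u, u}} [L.IsRelational] {K : AEC L}
variable {N N' I I' S : Type u} [L.Structure N] [L.Structure N'] {A : Set N} {D : I → Set N}
  {l κ : Cardinal.{u}}

theorem Tmpl.ok (hT : Tmpl L l A D) (hN : K.mem N) : Le K (XS A D univ) (XS A D univ) := by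
  obtain ⟨g, hg⟩ := hT.iso
  exact hg.ok.1 (mem_iff.1 hN)

theorem Tmpl.mk_eq (hT : Tmpl L l A D) (hl : ℵ₀ ≤ l) (hN : l < #N) : #I = #N := by
  obtain ⟨g, hg⟩ := hT.iso
  have h := hg.mk_eq
  rw [mk_univ] at h
  refine le_antisymm ?_ (not_lt.1 fun hI => ?_)
  · rw [h, ← mk_univ]; exact le_mk_xs fun i _ => hT.ne i
  · have := hT.xs_le (σ := max l #I) (hl.trans (le_max_left _ _)) (le_max_left _ _)
      (c := D) (fun _ => mem_range_self _) univ (mk_univ.le.trans (le_max_right _ _))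
    exact (max_lt hN hI).not_ge (h ▸ this)

/-- Sparse models can be resized. -/
theorem resize (hK : K.LSle l) (hN : K.mem N) (hs : Sparse L l N) (hc : 2 ^ l < #N)
    {k : Cardinal.{u}} (hk : 2 ^ l ≤ k) :
    ∃ (M : Type u) (_ : L.Structure M), K.mem M ∧ #M = k := by
  have : Nonempty N := mk_ne_zero_iff.1 (zero_le.trans_lt hc).ne'
  have hl := (cantor l).le
  obtain ⟨A, I, D, hT⟩ := exists_tmpl hK.1 hK.2.1 hs
  obtain ⟨Z₀, Z₁, sp, -, -⟩ := exists_std hK hT (hT.ok hN)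
    (by rwa [hT.mk_eq hK.1 (hl.trans_lt hc)])
  have hb0 : #(univ : Set k.out) = k := by rw [mk_univ, mk_out]
  exact ⟨_, inferInstance, le_self_iff.1 (sp.ok (hK.1.trans hl) (univ : Set k.out)),
    (sp.mk_eq hT (hK.1.trans hl) hl _ (hb0.symm ▸ hk)).trans hb0⟩

/-- A sparse model is a free power of small pieces of its blow up. -/
theorem present (hK : K.LSle l) (hκ : Order.succ (Order.succ (2 ^ l)) ≤ κ) (hcat : K.Cat κ)
    (hN : K.mem N) (hs : Sparse L l N) (hc : 2 ^ l < #N) (S : Type u) (hS : #S = κ) :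
    ∃ (P : Type u) (_ : L.Structure P) (_ : Nonempty P) (F : Set S → Set P), Pcs F ∧
      (∀ a : Set S, #a ≤ 2 ^ l → #(F a) ≤ 2 ^ l) ∧ Le K (F univ) (F univ) ∧ #(F univ) = κ ∧
      ∀ a₀ a₁ : Set S, a₀ ⊆ a₁ → (a₁ \ a₀).Nonempty → #a₁ ≤ 2 ^ l → ∀ J : Type u, #J = #N →
        ∃ g, PIso L g (univ : Set N) (FP (F a₀) (F a₁) (univ : Set J)) := by
  have : Nonempty N := mk_ne_zero_iff.1 (zero_le.trans_lt hc).ne'
  have hl := (cantor l).le
  have hν := hK.1.trans hl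
  obtain ⟨A, I, D, hT⟩ := exists_tmpl hK.1 hK.2.1 hs
  have hI := hT.mk_eq hK.1 (hl.trans_lt hc)
  have : Nonempty I := mk_ne_zero_iff.1 (hI ▸ (zero_le.trans_lt hc).ne')
  obtain ⟨Z₀, Z₁, sp, h1, h2⟩ := exists_std hK hT (hT.ok hN) (by rwa [hI])
  have hb0 : #(univ : Set S) = κ := by rw [mk_univ, hS]
  have hνκ : 2 ^ l ≤ κ := (Order.le_succ _).trans ((Order.le_succ _).trans hκ)
  refine ⟨_, inferInstance, inferInstance, BU A D Z₀ Z₁, bu_pcs,
    sp.mk_le hT hν hl le_rfl, sp.ok hν _, (sp.mk_eq hT hν hl _ (hb0.symm ▸ hνκ)).trans hb0,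
    fun a₀ a₁ ha hne ha₁ J hJ => ?_⟩
  obtain ⟨g, hg⟩ := hT.iso
  obtain ⟨g', hg'⟩ := xs_iso (L := L) (A := A) (D := D) (Z := univ)
    (D' := fun p : W (W I S) J => D p.pt.pt)
    (Z' := FP (FP Z₀ Z₁ a₀) (FP Z₀ Z₁ a₁) (univ : Set J)) fun C => by
      rw [mu_fp (fun p : W I S => D p.pt), mu_fp, mu_fp_diff, mk_univ, hJ]
      rcases le_or_gt (mu D univ C) (2 ^ l) with h | h
      · simp [h1 C h]
      · have e1 : mu D (Z₁ \ Z₀) C ≤ 2 ^ l := (mu_le _ _ _).trans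
          ((mk_le_mk_of_subset sdiff_subset).trans sp.card)
        have e2 : mu D Z₀ C ≤ 2 ^ l := (mu_le _ _ _).trans
          ((mk_le_mk_of_subset sp.sub).trans sp.card)
        rw [full hK hκ hcat hT (hT.ok hN) h, hI, mul_eq_right (hν.trans hc.le)
          ((mul_le_of_le hν e1 ((mk_le_mk_of_subset sdiff_subset).trans ha₁)).trans hc.le)
          (mul_ne_zero (h2 C h) (mk_ne_zero_iff.2 hne.to_subtype)), add_eq_right (hν.trans hc.le)
          ((add_le_of_le hν e2 (mul_le_of_le hν e1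
            ((mk_le_mk_of_subset ha).trans ha₁))).trans hc.le)]
  exact ⟨_, (flat (D := fun p : W I S => D p.pt) _ _ _).comp (hg'.comp hg)⟩

theorem equiv_of_piso {g : N → N'} (h : PIso L g univ univ) : Nonempty (N ≃[L] N') :=
  ⟨subUniv.comp (h.equiv.comp subUniv.symm)⟩

/-- Sparse models of the same size are isomorphic. -/
theorem transfer (hK : K.LSle l) (hκ : Order.succ (Order.succ (2 ^ l)) ≤ κ) (hcat : K.Cat κ)
    (hN : K.mem N) (hs : Sparse L l N) (hN' : K.mem N') (hs' : Sparse L l N') (hc : 2 ^ l < #N)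
    (he : #N = #N') : Nonempty (N ≃[L] N') := by
  have : Nonempty N' := mk_ne_zero_iff.1 (he ▸ (zero_le.trans_lt hc).ne')
  have hν := hK.1.trans (cantor l).le
  obtain ⟨P, _, _, F, hF, h1, h2, h3, h4⟩ := present hK hκ hcat hN hs hc κ.out (mk_out κ)
  obtain ⟨P', _, _, F', hF', h1', h2', h3', h4'⟩ :=
    present hK hκ hcat hN' hs' (he ▸ hc) κ.out (mk_out κ)
  obtain ⟨φ, hφ⟩ := cat_piso hcat h2 h2' h3 h3'
  have hcl := (club_sub hν (hF.image φ) hF' (fun a ha => mk_image_le.trans (h1 a ha))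
    hφ.1.image_eq.le).inter hν (club_sub hν hF' (hF.image φ) h1' hφ.1.image_eq.ge)
  obtain ⟨a₀, ha₀, -, hc₀⟩ := hcl.1 ∅ (by simp)
  obtain ⟨j, -, hj⟩ := exists_notMem (E := univ) (hc₀.trans_lt (by
    rw [mk_univ, mk_out]
    exact (Order.lt_succ _).trans_le ((Order.le_succ _).trans hκ)))
  obtain ⟨a₁, ha₁, h01, hc₁⟩ := hcl.1 (insert j a₀)
    (mk_insert_le.trans (add_le_of_le hν hc₀ (one_le_aleph0.trans hν)))
  have hsub := (subset_insert _ _).trans h01
  have hne : (a₁ \ a₀).Nonempty := ⟨j, h01 (mem_insert _ _), hj⟩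
  obtain ⟨g, hg⟩ := h4 a₀ a₁ hsub hne hc₁ N rfl
  obtain ⟨g', hg'⟩ := h4' a₀ a₁ hsub hne hc₁ N he
  obtain ⟨g'', hg'', -⟩ := hg'.inv
  have e₀ : φ '' F a₀ = F' a₀ := Subset.antisymm ha₀.1 ha₀.2
  have e₁ : φ '' F a₁ = F' a₁ := Subset.antisymm ha₁.1 ha₁.2
  have := fp_congr (hφ.mono (hF.mono (subset_univ a₁))) (hF.mono hsub) (univ : Set N)
  rw [e₀, e₁] at this
  exact equiv_of_piso (hg''.comp (this.comp hg))

omit [L.IsRelational] in
theorem sparse_emb (f : N ↪[L] N') (h : Sparse L l N') : Sparse L l N := by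
  have k1 : ∀ x y, Adj L x y → Adj L (f x) (f y) := by
    rintro x y ⟨n, R, v, h1, ⟨k, h2⟩, ⟨k', h3⟩⟩
    exact ⟨n, R, f ∘ v, (f.map_rel R v).2 h1, ⟨k, congrArg f h2⟩, ⟨k', congrArg f h3⟩⟩
  have k2 : ∀ x, #{y | Adj L x y} ≤ #{y | Adj L (f x) y} := fun x =>
    mk_le_of_injective (f := fun y => ⟨f y.1, k1 _ _ y.2⟩) fun a b h =>
      Subtype.ext (f.injective (congrArg Subtype.val h))
  exact le_trans (mk_le_of_injective (f := fun x => ⟨f x.1, lt_of_lt_of_le x.2 (k2 _)⟩)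
    fun a b h => Subtype.ext (f.injective (congrArg Subtype.val h))) h

theorem sparse_piso {g : N → N'} {t w : Set N'} (h : PIso L g univ t) (htw : t ⊆ w)
    (hw : Sparse L l (sub L w)) : Sparse L l N :=
  sparse_emb ((Substructure.inclusion (show sub L t ≤ sub L w from htw)).comp
    (h.equiv.comp subUniv.symm).toEmbedding) hw

/-- Non sparsity reflects to small strong substructures. -/
theorem sparse_up (hK : K.LSle l) (hκ : l < κ)
    (h : ∀ (M : Type u) [L.Structure M], K.mem M → #M = κ → Sparse L l M) (hN : K.mem N)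
    (hc : κ ≤ #N) : Sparse L l N := by
  by_contra hs
  have hκ' := Order.succ_le_of_lt hκ
  have hinf := hK.1.trans hκ.le
  obtain ⟨X, hX, hXc⟩ := le_mk_iff_exists_subset.1 (Order.succ_le_of_lt (not_le.1 hs))
  have key : ∀ x : X, ∃ Y : Set N, #Y ≤ κ ∧ ∀ t : Set N, Y ⊆ t → ∀ hx : x.1 ∈ t,
      l < #{y : sub L t | Adj L (⟨x.1, hx⟩ : sub L t) y} := by
    intro x
    obtain ⟨Y, hY, hYc⟩ := le_mk_iff_exists_subset.1 (Order.succ_le_of_lt (hX x.2))
    choose n R v h1 h2 h3 using fun y : Y => hY y.2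
    refine ⟨⋃ y, range (v y), (mk_iUnion_le _).trans (mul_le_of_le hinf (hYc.le.trans hκ')
      (ciSup_le' fun y => (finite_range _).lt_aleph0.le.trans hinf)), fun t ht hx => ?_⟩
    have hv : ∀ y k, v y k ∈ t := fun y k => ht (mem_iUnion.2 ⟨y, mem_range_self k⟩)
    refine (Order.lt_succ l).trans_le (hYc ▸ mk_le_of_injective
      (f := fun y => ⟨⟨y.1, ht (mem_iUnion.2 ⟨y, h3 y⟩)⟩, n y, R y, fun k => ⟨v y k, hv y k⟩, h1 y,
        (h2 y).imp fun _ h => Subtype.ext h, (h3 y).imp fun _ h => Subtype.ext h⟩) fun a b h => ?_)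
    exact Subtype.ext (congrArg (fun z => z.1.1) h)
  choose Y hY1 hY2 using key
  obtain ⟨B, -, hB⟩ := le_mk_iff_exists_subset.1 (hc.trans (mk_univ (α := N)).ge)
  obtain ⟨t, ht, h1, h2⟩ := ls_le hK (mem_iff.1 hN) (subset_univ (B ∪ (X ∪ ⋃ x, Y x))) hκ.le
    ((mk_union_le _ _).trans (add_le_of_le hinf hB.le ((mk_union_le _ _).trans (add_le_of_le hinf
      (hXc.le.trans hκ') ((mk_iUnion_le _).trans
        (mul_le_of_le hinf (hXc.le.trans hκ') (ciSup_le' hY1)))))))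
  have h3 := h (sub L t) (le_self_iff.1 h1.left)
    (le_antisymm h2 (hB ▸ mk_le_mk_of_subset (subset_union_left.trans ht)))
  refine (Order.lt_succ l).not_ge (le_trans (hXc ▸ mk_le_of_injective
    (f := fun x => ⟨⟨x.1, ht (Or.inr (Or.inl x.2))⟩, hY2 x t
      (fun z hz => ht (Or.inr (Or.inr (mem_iUnion.2 ⟨x, hz⟩)))) _⟩) fun a b h => ?_) h3)
  exact Subtype.ext (congrArg (fun z => z.1.1) h)

theorem up (hK : K.LSle l) (hκ : Order.succ (Order.succ (2 ^ l)) ≤ κ) (hcat : K.Cat κ)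
    {k₀ : Cardinal.{u}} (hk₀ : 2 ^ l < k₀) (hk : k₀ ≤ κ)
    (h : ∀ (M : Type u) [L.Structure M], K.mem M → k₀ ≤ #M → Sparse L l M) {k : Cardinal.{u}}
    (hk' : k₀ ≤ k) : K.Cat k := by
  obtain ⟨M, _, hM, hMc⟩ := hcat.1
  exact ⟨resize hK hM (h M hM (hMc ▸ hk)) (hMc ▸ hk₀.trans_le hk) (hk₀.le.trans hk'),
    fun N N' _ _ hN hN' hc hc' => transfer hK hκ hcat hN (h N hN (hc ▸ hk')) hN'
      (h N' hN' (hc' ▸ hk')) (hc ▸ hk₀.trans_le hk') (hc.trans hc'.symm)⟩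

/-- One copy in a free power. -/
theorem fp_one {s t : Set N} (h : s ⊆ t) (j : S) : ∃ g : N → W N S,
    PIso L g t (FP s t {j}) ∧ g '' s = FP s t ∅ := by
  classical
  refine ⟨fun x => ⟨x, if x ∈ s then none else some j⟩,
    ⟨⟨fun x hx => ?_, fun x _ y _ e => congrArg W.pt e, ?_⟩, fun n R v _ => ?_⟩, ?_⟩
  · by_cases hs : x ∈ s
    · simp only [if_pos hs]; exact fp_none.2 hs
    · simp only [if_neg hs]; exact fp_some.2 ⟨rfl, hx, hs⟩
  · rintro ⟨x, _ | i⟩ hx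
    · exact ⟨x, h (fp_none.1 hx), by simp only [if_pos (fp_none.1 hx)]⟩
    · obtain ⟨rfl, h1, h2⟩ := fp_some.1 hx
      exact ⟨x, h1, by simp only [if_neg h2]⟩
  · rw [rel_w]
    refine ⟨fun h => h.1, fun h => ⟨h, fun k k' p q hp hq => ?_⟩⟩
    simp only at hp hq
    split_ifs at hp hq
    exact (Option.some.inj hp).symm.trans (Option.some.inj hq)
  · ext ⟨x, _ | i⟩
    · simp [fp_none]
    · simp only [mem_image, W.mk.injEq, fp_some, mem_empty_iff_false, false_and, iff_false]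
      rintro ⟨y, hy, -, h⟩
      simp [hy] at h

theorem fp_tuple {s t : Set N} {a : Set S} {n : ℕ} {R : L.Relations n} {v : Fin n → W N S}
    (hv : Structure.RelMap R v) (hm : ∀ k, v k ∈ FP s t a) {k₀ : Fin n} {j : S}
    (hk : (v k₀).ix = some j) (k : Fin n) : v k ∈ FP s t {j} := by
  have h1 := hm k
  have h2 := hv.2 k k₀
  rcases e : v k with ⟨x, _ | i⟩ <;> rw [e] at h1 h2
  · exact fp_none.2 (fp_none.1 h1)
  · exact fp_some.2 ⟨h2 i j rfl hk, (fp_some.1 h1).2⟩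

theorem fp_ok (hF : K.FreeAP) {s t : Set N} (h : Le K s t) (b : Set S) :
    Le K (FP s t b) (FP s t b) := by
  have h1 : ∀ j : S, Le K (FP s t ∅) (FP s t {j}) := fun j => by
    obtain ⟨g, hg, e⟩ := fp_one (L := L) h.sub j
    exact e ▸ (hg.le_iff h.sub).1 h
  have h0 : Le K (FP s t (∅ : Set S)) (FP s t ∅) := by
    have : Le K (FP s t (∅ : Set PUnit.{u + 1})) (FP s t ∅) := by
      obtain ⟨g, hg, e⟩ := fp_one (L := L) h.sub PUnit.unit
      exact (e ▸ (hg.le_iff h.sub).1 h).left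
    rcases isEmpty_or_nonempty S with _ | ⟨⟨j⟩⟩
    · refine (xs_map (L := L) (A := s) (D := fun _ : S => t \ s) (D' := fun _ : PUnit => t \ s)
        (β := fun _ => PUnit.unit) (Z := ∅) (Z' := ∅) (bijOn_empty _) fun _ _ => rfl).ok.2 this
    · exact (h1 j).left
  refine (zorn_le fp_pcs (empty_subset b) h0 fun c _ _ hc j _ hj => ?_).right
  have e : FP s t (insert j c) = FP s t c ∪ FP s t {j} := by
    ext ⟨x, _ | i⟩
    · simp [fp_none]
    · simp only [fp_some, mem_insert_iff, mem_union, mem_singleton_iff]; tauto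
  rw [e]
  refine free_le hF hc (h1 j) ?_ fun n R v hv hm => ?_
  · rintro ⟨x, _ | i⟩ ⟨h2, h3⟩
    · exact fp_none.2 (fp_none.1 h2)
    · exact absurd ((fp_some.1 h3).1 ▸ (fp_some.1 h2).1) hj
  · rw [← e] at hm
    by_cases hk : ∃ k, (v k).ix = some j
    · obtain ⟨k, hk⟩ := hk
      exact Or.inr (fp_tuple hv hm hk)
    · refine Or.inl fun k => ?_
      have h2 := hm k
      have h3 : (v k).ix ≠ some j := fun h => hk ⟨k, h⟩
      rcases e' : v k with ⟨x, _ | i⟩ <;> rw [e'] at h2 h3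
      · exact fp_none.2 (fp_none.1 h2)
      · exact fp_some.2 ⟨(fp_some.1 h2).1.resolve_left fun h => h3 (congrArg some h),
          (fp_some.1 h2).2⟩

theorem fp_sparse (hl : ℵ₀ ≤ l) {s t : Set N} (h : s ⊆ t) (ht : #t ≤ l) (b : Set S) :
    Sparse L l (sub L (FP s t b)) := by
  have key : ∀ x : sub L (FP s t b), l < #{y | Adj L x y} → x.1 ∈ FP s t (∅ : Set S) := by
    rintro ⟨⟨x, _ | j⟩, hx⟩ hlt
    · exact fp_none.2 (fp_none.1 hx)
    · have k1 : ∀ y, Adj L (⟨⟨x, some j⟩, hx⟩ : sub L (FP s t b)) y → y.1 ∈ FP s t {j} := by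
        rintro y ⟨n, R, v, hv, ⟨k, hk⟩, ⟨k', rfl⟩⟩
        exact fp_tuple (v := fun k => (v k).1) hv (fun k => (v k).2) (k₀ := k) (by rw [hk]) k'
      have k2 : #{y | Adj L (⟨⟨x, some j⟩, hx⟩ : sub L (FP s t b)) y} ≤ #(FP s t {j}) :=
        mk_le_of_injective (f := fun y => ⟨y.1.1, k1 _ y.2⟩)
          fun a b h => Subtype.ext (Subtype.ext (congrArg Subtype.val h :))
      exact absurd (k2.trans (mk_fp_le hl h ht (by simpa using one_le_aleph0.trans hl))) hlt.not_ge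
  exact le_trans (mk_le_of_injective (β := FP s t (∅ : Set S)) (f := fun x => ⟨x.1.1, key _ x.2⟩)
    fun a b h => Subtype.ext (Subtype.ext (congrArg Subtype.val h :))) (mk_fp_le hl h ht (by simp))

omit [L.Structure N] in
theorem mk_fp_eq {s t : Set N} (hκ : ℵ₀ ≤ κ) (h : s ⊆ t) (hne : (t \ s).Nonempty) (ht : #t ≤ κ) :
    #(FP s t (univ : Set κ.out)) = κ := by
  have hb0 : #(univ : Set κ.out) = κ := by rw [mk_univ, mk_out]
  exact le_antisymm (mk_fp_le hκ h ht hb0.le) (hb0.ge.trans (le_mk_xs fun _ _ => hne))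

theorem free_sparse (hK : K.LSle l) (hκ : l < κ) (hcat : K.Cat κ) (hF : K.FreeAP)
    (N : Type u) [L.Structure N] (hN : K.mem N) : Sparse L l N := by
  have hinf := hK.1.trans hκ.le
  have h1 : ∀ (M : Type u) [L.Structure M], K.mem M → #M = κ → Sparse L l M := by
    intro M _ hM hc
    have : Nonempty M := mk_ne_zero_iff.1 (hc ▸ (zero_le.trans_lt hκ).ne')
    obtain ⟨s, -, hs, hsc⟩ := ls_le hK (mem_iff.1 hM) (empty_subset _) le_rfl (by simp)
    obtain ⟨x, -, hx⟩ := exists_notMem (E := univ) (hsc.trans_lt (by rwa [mk_univ, hc]))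
    obtain ⟨t, ht, ht', htc⟩ := ls_le hK (mem_iff.1 hM) (subset_univ (insert x s)) le_rfl
      (mk_insert_le.trans (add_le_of_le hK.1 hsc (one_le_aleph0.trans hK.1)))
    have hst := (subset_insert _ _).trans ht
    obtain ⟨g, hg⟩ := cat_piso hcat (mem_iff.1 hM) (fp_ok hF (hs.coh ht' hst) (univ : Set κ.out))
      (mk_univ.trans hc) (mk_fp_eq hinf hst ⟨x, ht (mem_insert _ _), hx⟩ (htc.trans hκ.le))
    exact sparse_piso hg subset_rfl (fp_sparse hK.1 hst htc _)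
  rcases le_total κ #N with h | h
  · exact sparse_up hK hκ h1 hN h
  rcases le_or_gt #N l with h' | h'
  · exact (mk_set_le _).trans h'
  obtain ⟨s, -, hs, hsc⟩ := ls_le hK (mem_iff.1 hN) (empty_subset _) le_rfl (by simp)
  obtain ⟨x, -, hx⟩ := exists_notMem (E := univ) (hsc.trans_lt (by rwa [mk_univ]))
  obtain ⟨j⟩ : Nonempty κ.out := mk_ne_zero_iff.1 (by
    rw [mk_out]; exact (zero_le.trans_lt hκ).ne')
  obtain ⟨g, hg, -⟩ := fp_one (L := L) (subset_univ s) j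
  exact sparse_piso hg (fp_pcs.mono (subset_univ _)) (h1 _ (le_self_iff.1 (fp_ok hF hs univ))
    (mk_fp_eq hinf (subset_univ _) ⟨x, trivial, hx⟩ (mk_univ.le.trans h)))

end Vale.Agent.P307S
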