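import Vale.Agent.P307.SBas

/-! P307: families of subsets built from pieces. -/

open Cardinal hiding univ
open FirstOrder FirstOrder.Language Set

universe u

namespace Vale.Agent.P307S

/-- `F a` is the union of a base and of the pieces indexed by `a`. -/
def Pcs {J M : Type u} (F : Set J → Set M) : Prop :=
  ∀ a x, x ∈ F a ↔ x ∈ F ∅ ∨ ∃ j ∈ a, x ∈ F {j}

section
variable {J M : Type u} {F : Set J → Set M}

theorem Pcs.mono (hF : Pcs F) {a b : Set J} (h : a ⊆ b) : F a ⊆ F b := by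
  intro x hx
  rcases (hF a x).1 hx with h1 | ⟨j, hj, h1⟩
  · exact (hF b x).2 (Or.inl h1)
  · exact (hF b x).2 (Or.inr ⟨j, h hj, h1⟩)

theorem Pcs.iUnion (hF : Pcs F) {ι : Sort*} [Nonempty ι] (a : ι → Set J) :
    F (⋃ i, a i) = ⋃ i, F (a i) := by
  refine Subset.antisymm (fun x hx => ?_) (iUnion_subset fun i => hF.mono (subset_iUnion a i))
  rcases (hF _ x).1 hx with h1 | ⟨j, hj, h1⟩
  · exact mem_iUnion.2 ⟨Classical.arbitrary ι, (hF _ x).2 (Or.inl h1)⟩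
  · obtain ⟨i, hi⟩ := mem_iUnion.1 hj
    exact mem_iUnion.2 ⟨i, (hF _ x).2 (Or.inr ⟨j, hi, h1⟩)⟩

/-- Supports of small sets are small. -/
theorem Pcs.supp (hF : Pcs F) {b : Set J} {s : Set M} (hs : s ⊆ F b) :
    ∃ a, a ⊆ b ∧ #a ≤ #s ∧ s ⊆ F a := by
  have : ∀ x : {x // x ∈ s ∧ x ∉ F ∅}, ∃ j ∈ b, x.1 ∈ F {j} := fun x =>
    ((hF b x).1 (hs x.2.1)).resolve_left x.2.2
  choose j hj hx using this
  refine ⟨range j, range_subset_iff.2 hj, mk_range_le.trans (mk_le_mk_of_subset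
    (s := {x | x ∈ s ∧ x ∉ F ∅}) fun x hx => hx.1), fun x hxs => ?_⟩
  by_cases h : x ∈ F ∅
  · exact (hF _ x).2 (Or.inl h)
  · exact (hF _ x).2 (Or.inr ⟨j ⟨x, hxs, h⟩, mem_range_self _, hx ⟨x, hxs, h⟩⟩)

end

/-- Closing off a small set in countably many steps. -/
theorem exists_seq {α : Type u} {σ : Cardinal.{u}} (hσ : ℵ₀ ≤ σ) (P : Set α → Prop)
    (R : Set α → Set α → Prop)
    (h : ∀ Y, P Y → #Y ≤ σ → ∃ Y', P Y' ∧ #Y' ≤ σ ∧ Y ⊆ Y' ∧ R Y Y') (Y₀ : Set α) (h₀ : P Y₀)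
    (hc : #Y₀ ≤ σ) : ∃ s : ℕ → Set α, s 0 = Y₀ ∧ Monotone s ∧ (∀ n, P (s n) ∧ R (s n) (s (n + 1))) ∧
      #(⋃ n, s n) ≤ σ := by
  choose! f hf using h
  have key : ∀ n, P (f^[n] Y₀) ∧ #(f^[n] Y₀) ≤ σ := by
    intro n
    induction n with
    | zero => exact ⟨h₀, hc⟩
    | succ n ih =>
      rw [Function.iterate_succ_apply']
      exact ⟨(hf _ ih.1 ih.2).1, (hf _ ih.1 ih.2).2.1⟩
  refine ⟨fun n => f^[n] Y₀, rfl, monotone_nat_of_le_succ fun n => ?_, fun n => ⟨(key n).1, ?_⟩, ?_⟩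
  · simp only [Function.iterate_succ_apply']
    exact (hf _ (key n).1 (key n).2).2.2.1
  · simp only [Function.iterate_succ_apply']
    exact (hf _ (key n).1 (key n).2).2.2.2
  · have e : (⋃ n, f^[n] Y₀) = ⋃ n : ULift.{u} ℕ, f^[n.down] Y₀ := by
      ext x
      simp only [mem_iUnion]
      exact ⟨fun ⟨n, hn⟩ => ⟨⟨n⟩, hn⟩, fun ⟨n, hn⟩ => ⟨n.down, hn⟩⟩
    rw [e]
    refine (mk_iUnion_le _).trans (mul_le_of_le hσ ?_ (ciSup_le' fun n => (key _).2))
    simpa using hσ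

variable {L : FirstOrder.Language.{u, u}} [L.IsRelational] {K : AEC L}
variable {M J : Type u} [L.Structure M] {F : Set J → Set M}

theorem zorn_le (hF : Pcs F) {a b : Set J} (hab : a ⊆ b) (h0 : Le K (F a) (F a))
    (h : ∀ c, a ⊆ c → c ⊆ b → Le K (F a) (F c) → ∀ j ∈ b, j ∉ c → Le K (F c) (F (insert j c))) :
    Le K (F a) (F b) := by
  let P := {c : Set J // a ⊆ c ∧ c ⊆ b ∧ Le K (F a) (F c)}
  let r : P → P → Prop := fun c d => c.1 ⊆ d.1 ∧ Le K (F c.1) (F d.1)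
  have : Nonempty P := ⟨⟨a, subset_rfl, hab, h0⟩⟩
  obtain ⟨m, hm⟩ := exists_maximal_of_nonempty_chains_bounded (r := r) (fun c hc hne => by
      have : Nonempty c := hne.to_subtype
      have ht : ∀ x y : c, Le K (F x.1.1) (F y.1.1) ∨ Le K (F y.1.1) (F x.1.1) := by
        intro x y
        by_cases hxy : x.1 = y.1
        · rw [hxy]; exact Or.inl y.1.2.2.2.right
        · exact (hc x.2 y.2 hxy).imp And.right And.right
      have hU : ∀ x : c, Le K (F x.1.1) (F (⋃ y : c, y.1.1)) := fun x => by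
        rw [hF.iUnion]; exact chain_le (fun y : c => F y.1.1) ht x
      obtain ⟨x⟩ := this
      refine ⟨⟨⋃ y : c, y.1.1, x.1.2.1.trans (subset_iUnion (fun y : c => y.1.1) x),
        iUnion_subset fun y => y.1.2.2.1, x.1.2.2.2.trans (hU x)⟩, fun y hy => ?_⟩
      exact ⟨subset_iUnion (fun y : c => y.1.1) ⟨y, hy⟩, hU ⟨y, hy⟩⟩)
    (fun h1 h2 => ⟨h1.1.trans h2.1, h1.2.trans h2.2⟩)
  have e : m.1 = b := by
    refine Subset.antisymm m.2.2.1 fun j hj => ?_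
    by_contra hjm
    have h1 := h m.1 m.2.1 m.2.2.1 m.2.2.2 j hj hjm
    have h2 := hm ⟨insert j m.1, m.2.1.trans (subset_insert _ _), insert_subset hj m.2.2.1,
      m.2.2.2.trans h1⟩ ⟨subset_insert _ _, h1⟩
    exact hjm (h2.1 (mem_insert _ _))
  rw [← e]; exact m.2.2.2

theorem pow_le (hF : Pcs F) {σ : Cardinal.{u}} (hσ : ℵ₀ ≤ σ) (h0 : Le K (F ∅) (F ∅))
    (h : ∀ c : Set J, #c ≤ σ → ∀ j, j ∉ c → Le K (F c) (F (insert j c))) (b : Set J) :
    ∀ a, a ⊆ b → Le K (F a) (F b) := by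
  have small : ∀ a b : Set J, a ⊆ b → #b ≤ σ → Le K (F a) (F a) → Le K (F a) (F b) :=
    fun a b hab hb ha => zorn_le hF hab ha fun c _ hcb _ j _ hj =>
      h c ((mk_le_mk_of_subset hcb).trans hb) j hj
  induction hk : #b using WellFoundedLT.induction generalizing b with
  | ind k ih =>
  intro a hab
  by_cases hb : #b ≤ σ
  · exact small a b hab hb (small ∅ a (empty_subset _)
      ((mk_le_mk_of_subset hab).trans hb) h0).right
  have hinf : ℵ₀ ≤ #b := hσ.trans (not_le.1 hb).le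
  obtain ⟨_, _, ho⟩ := exists_ord_eq_type_lt b
  have : Nonempty b := mk_ne_zero_iff.1 (aleph0_pos.trans_le hinf).ne'
  let B : b → Set J := fun i => Subtype.val '' Iic i
  have hB : ∀ i, #(B i) < k := fun i => hk ▸ mk_image_le.trans_lt (mk_Iic_lt i ho hinf)
  have hmono : ∀ i j, B i ⊆ B j ∨ B j ⊆ B i := fun i j =>
    (le_total i j).imp (fun h => image_mono (Iic_subset_Iic.2 h))
      fun h => image_mono (Iic_subset_Iic.2 h)
  have hU : ⋃ i, B i = b := by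
    refine Subset.antisymm (iUnion_subset fun i => ?_) fun x hx =>
      mem_iUnion.2 ⟨⟨x, hx⟩, ⟨x, hx⟩, mem_Iic.2 le_rfl, rfl⟩
    rintro _ ⟨y, -, rfl⟩; exact y.2
  have h1 : ∀ i, Le K (F (B i)) (F b) := fun i => by
    have := chain_le (fun i => F (B i)) (fun i j => (hmono i j).imp
      (fun h => ih _ (hB j) _ rfl _ h) fun h => ih _ (hB i) _ rfl _ h) i
    rwa [← hF.iUnion, hU] at this
  have h2 := smooth_le (fun i => F (a ∩ B i)) (fun i j => (hmono i j).imp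
    (fun h => hF.mono (inter_subset_inter_right _ h)) fun h => hF.mono (inter_subset_inter_right _ h))
    fun i => (ih _ (hB i) _ rfl _ inter_subset_right).trans (h1 i)
  rwa [← hF.iUnion, ← inter_iUnion, hU, inter_eq_left.2 hab] at h2

end Vale.Agent.P307S
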