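import Vale.Agent.P307.SClub

/-! P307: standard pairs and the two cardinal argument. -/

open Cardinal hiding univ
open FirstOrder FirstOrder.Language Set

universe u

namespace Vale.Agent.P307S

variable {L : FirstOrder.Language.{u, u}} [L.IsRelational] {K : AEC L}
variable {N I S : Type u} [L.Structure N] {A : Set N} {D : I → Set N} {l κ : Cardinal.{u}}

variable (K) in
/-- A strong pair of index sets with saturated colours. -/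
structure SP (A : Set N) (D : I → Set N) (σ : Cardinal.{u}) (Z₀ Z₁ : Set I) : Prop where
  sub : Z₀ ⊆ Z₁
  le : Le K (XS A D Z₀) (XS A D Z₁)
  card : #Z₁ ≤ σ
  sat : ∀ i ∈ Z₁ \ Z₀, σ ≤ mu D Z₀ (D i)
  ne : (Z₁ \ Z₀).Nonempty

/-- The blown up structure. -/
def BU (A : Set N) (D : I → Set N) (Z₀ Z₁ : Set I) (b : Set S) : Set (W N (W I S)) :=
  XS A (fun p : W I S => D p.pt) (FP Z₀ Z₁ b)

omit [L.Structure N] in
theorem bu_pcs {Z₀ Z₁ : Set I} : Pcs (BU A D Z₀ Z₁ : Set S → _) := xs_pcs.comp fp_pcs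

theorem Tmpl.xs_le (hT : Tmpl L l A D) {σ : Cardinal.{u}} (hσ : ℵ₀ ≤ σ) (hl : l ≤ σ) {I' : Type u}
    {c : I' → Set N} (hc : ∀ i, c i ∈ range D) (Z : Set I') (hZ : #Z ≤ σ) : #(XS A c Z) ≤ σ :=
  mk_xs_le hσ (hT.cA.trans hl) hZ fun i => by
    obtain ⟨j, hj⟩ := hc i
    rw [← hj]; exact (hT.cD j).trans hl

theorem SP.mk_le {σ τ : Cardinal.{u}} {Z₀ Z₁ : Set I} (h : SP K A D σ Z₀ Z₁) (hT : Tmpl L l A D)
    (hσ : ℵ₀ ≤ τ) (hl : l ≤ τ) (hτ : σ ≤ τ) (b : Set S) (hb : #b ≤ τ) : #(BU A D Z₀ Z₁ b) ≤ τ :=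
  hT.xs_le hσ hl (fun _ => mem_range_self _) _ (mk_fp_le hσ h.sub (h.card.trans hτ) hb)

theorem SP.mk_eq {σ : Cardinal.{u}} {Z₀ Z₁ : Set I} (h : SP K A D σ Z₀ Z₁) (hT : Tmpl L l A D)
    (hσ : ℵ₀ ≤ σ) (hl : l ≤ σ) (b : Set S) (hb : σ ≤ #b) : #(BU A D Z₀ Z₁ b) = #b :=
  le_antisymm (h.mk_le hT (hσ.trans hb) (hl.trans hb) hb b le_rfl)
    ((le_mk_xs (A := Z₀) (D := fun _ => Z₁ \ Z₀) fun _ _ => h.ne).trans
      (le_mk_xs fun p _ => hT.ne p.pt))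

theorem SP.ok {σ : Cardinal.{u}} {Z₀ Z₁ : Set I} (h : SP K A D σ Z₀ Z₁) (hσ : ℵ₀ ≤ σ) (b : Set S) :
    Le K (BU A D Z₀ Z₁ b) (BU A D Z₀ Z₁ b) :=
  have : Nonempty I := ⟨h.ne.some⟩
  big hσ h.sub h.le h.card h.sat b

theorem exists_std (hK : K.LSle l) (hT : Tmpl L l A D) (hN : Le K (XS A D univ) (XS A D univ))
    (hI : 2 ^ l < #I) : ∃ Z₀ Z₁, SP K A D (2 ^ l) Z₀ Z₁ ∧
      (∀ C, mu D univ C ≤ 2 ^ l → mu D Z₀ C = mu D univ C ∧ mu D (Z₁ \ Z₀) C = 0) ∧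
      ∀ C, 2 ^ l < mu D univ C → mu D (Z₁ \ Z₀) C ≠ 0 := by
  have hl := (cantor l).le
  have hν := hK.1.trans hl
  have hc := hT.xs_le hν hl (c := D) fun _ => mem_range_self _
  obtain ⟨Y, -, hY1, hY2⟩ := sel D hν hT.cT le_rfl univ
  obtain ⟨Z₀, h1, -, h2, h3⟩ := pcs_ls hK hl xs_pcs hc hN
    (subset_univ ({i | mu D univ (D i) ≤ 2 ^ l} ∪ Y))
    ((mk_union_le _ _).trans (add_le_of_le hν (few D hν hT.cT) hY1))
  obtain ⟨Y', h4, h5, h6⟩ := sel D hν hT.cT (one_le_aleph0.trans hν) Z₀ᶜ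
  obtain ⟨Z₁, h7, -, h8, h9⟩ := pcs_ls hK hl xs_pcs hc hN (subset_univ (Z₀ ∪ Y'))
    ((mk_union_le _ _).trans (add_le_of_le hν h2 h5))
  have hs : Z₀ ⊆ Z₁ := subset_union_left.trans h7
  have hb : ∀ i, i ∉ Z₀ → 2 ^ l < mu D univ (D i) := fun i hi =>
    not_le.1 fun h => hi (h1 (Or.inl h))
  have hbig : ∀ C, 2 ^ l < mu D univ C → mu D (Z₁ \ Z₀) C ≠ 0 := by
    intro C hC
    obtain ⟨i, hi, hi'⟩ := exists_notMem (h2.trans_lt hC)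
    have := h6 C (Cardinal.one_le_iff_ne_zero.2 (mu_ne_zero.2 ⟨i, hi', hi.2⟩))
    obtain ⟨j, hj, hj'⟩ := mu_ne_zero.1 (Cardinal.one_le_iff_ne_zero.1 this)
    exact mu_ne_zero.2 ⟨j, ⟨h7 (Or.inr hj), h4 hj⟩, hj'⟩
  refine ⟨Z₀, Z₁, ⟨hs, h3.coh h9 (xs_pcs.mono hs), h8, fun i hi => (hY2 _ (hb i hi.2).le).trans
    (mu_mono _ (subset_union_right.trans h1) _), ?_⟩, fun C hC => ⟨?_, ?_⟩, hbig⟩
  · obtain ⟨i, -, hi⟩ := exists_notMem (E := univ) (h2.trans_lt (by rwa [mk_univ]))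
    obtain ⟨j, hj, -⟩ := mu_ne_zero.1 (hbig _ (hb i hi))
    exact ⟨j, hj⟩
  · refine le_antisymm (mu_mono _ (subset_univ _) _) (mk_le_mk_of_subset fun i hi => ⟨?_, hi.2⟩)
    exact h1 (Or.inl (hi.2 ▸ hC :))
  · by_contra h
    obtain ⟨j, hj, rfl⟩ := mu_ne_zero.1 h
    exact (hb j hj.2).not_ge hC

theorem swap_arg [Nonempty N] (hl : ℵ₀ ≤ l) (hT : Tmpl L l A D) {I' : Type u} {c : I' → Set N}
    (hc : ∀ i, c i ∈ range D) {Z Z' B : Set I'} {φ : W N I' → W N I'}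
    (hφ : PIso L φ (XS A c Z) (XS A c Z')) {C : Set N} {σ : Cardinal.{u}} (hσ : l ≤ σ)
    (hB : #B ≤ σ) (hE : σ < mu c Z C) : ∃ j ∈ Z' \ B, mu c Z' (c j) ≤ mu c Z C := by
  classical
  have hσ' := hl.trans hσ
  obtain ⟨i₀, -, hi₀⟩ := mu_ne_zero.1 (zero_le.trans_lt hE).ne'
  obtain ⟨x, hx⟩ : C.Nonempty := by
    obtain ⟨j, hj⟩ := hc i₀
    rw [← hi₀, ← hj]; exact hT.ne j
  obtain ⟨a, -, ha1, ha2⟩ := (xs_pcs (A := A) (D := c)).supp (b := Z') (s := φ '' XS A c ∅)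
    (hφ.1.mapsTo.mono_left (xs_pcs.mono (empty_subset _))).image_subset
  have ha : #a ≤ l := ha1.trans (mk_image_le.trans (hT.xs_le hl le_rfl hc ∅ (by simp)))
  have hm : ∀ i ∈ {i | i ∈ Z ∧ c i = C}, (⟨x, some i⟩ : W N I') ∈ XS A c Z := fun i hi =>
    xs_some.2 ⟨hi.1, hi.2 ▸ hx⟩
  have hinj : InjOn (fun i => φ ⟨x, some i⟩) {i | i ∈ Z ∧ c i = C} := fun i hi j hj h =>
    Option.some.inj (congrArg W.ix (hφ.1.injOn (hm i hi) (hm j hj) h))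
  obtain ⟨_, ⟨i, hi, rfl⟩, hni⟩ := exists_notMem (Y := XS A c (a ∪ B))
    (E := (fun i => φ ⟨x, some i⟩) '' {i | i ∈ Z ∧ c i = C}) (by
      rw [mk_image_eq_of_injOn _ _ hinj]
      exact (hT.xs_le hσ' hσ hc _ ((mk_union_le _ _).trans
        (add_le_of_le hσ' (ha.trans hσ) hB))).trans_lt hE)
  have hp := hφ.1.mapsTo (hm i hi)
  change φ ⟨x, some i⟩ ∉ _ at hni
  rcases e : φ ⟨x, some i⟩ with ⟨y, _ | j⟩
  · rw [e] at hp hni
    exact absurd (xs_none.2 (xs_none.1 hp)) hni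
  rw [e] at hp hni
  obtain ⟨hj, hy⟩ := xs_some.1 hp
  have hja : j ∉ a ∪ B := fun h => hni (xs_some.2 ⟨h, hy⟩)
  refine ⟨j, ⟨hj, fun h => hja (Or.inr h)⟩, ?_⟩
  obtain ⟨ψ, hψ, hl', hr'⟩ := hφ.inv
  have key : ∀ j' ∈ {j' | j' ∈ Z' ∧ c j' = c j}, j' ∉ a →
      ψ ⟨y, some j'⟩ ∈ XS (∅ : Set N) c {i | i ∈ Z ∧ c i = C} := by
    intro j' hj' hj'a
    have hβ : BijOn (_root_.Equiv.swap j j') Z' Z' := (_root_.Equiv.swap j j').bijOn fun k => by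
      by_cases h1 : k = j
      · simp [h1, hj, hj'.1]
      by_cases h2 : k = j'
      · simp [h2, hj, hj'.1]
      rw [_root_.Equiv.swap_apply_of_ne_of_ne h1 h2]
    have hs := xs_map (L := L) (A := A) (D := c) (D' := c) hβ fun k _ => by
      by_cases h1 : k = j
      · simp [h1, hj'.2]
      by_cases h2 : k = j'
      · simp [h2, hj'.2]
      rw [_root_.Equiv.swap_apply_of_ne_of_ne h1 h2]
    obtain ⟨i', h1, h2⟩ := hT.red c hc Z _ (hψ.comp (hs.comp hφ)) (fun z hz => by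
      have h3 := ha2 (mem_image_of_mem φ (xs_none.2 hz))
      have h4 : (φ ⟨z, none⟩).ix.map (_root_.Equiv.swap j j') = (φ ⟨z, none⟩).ix := by
        rcases e' : φ ⟨z, none⟩ with ⟨w, _ | k⟩
        · rfl
        · rw [e'] at h3
          have hk := (xs_some.1 h3).1
          exact congrArg some (_root_.Equiv.swap_apply_of_ne_of_ne
            (fun h => hja (Or.inl (h ▸ hk))) fun h => hj'a (h ▸ hk))
      simp only [h4]
      exact hl' _ (xs_none.2 hz)) x i (hm i hi)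
    simp only [e, Option.map_some, _root_.Equiv.swap_apply_left] at h1
    have h5 := hψ.1.mapsTo (xs_some.2 ⟨hj'.1, hj'.2 ▸ hy⟩ : (⟨y, some j'⟩ : W N I') ∈ _)
    rw [show ψ ⟨y, some j'⟩ = ⟨(ψ ⟨y, some j'⟩).pt, some i'⟩ from W.ext rfl h1] at h5 ⊢
    exact xs_some.2 ⟨⟨(xs_some.1 h5).1, h2.trans hi.2⟩, (xs_some.1 h5).2⟩
  have hτ := hσ'.trans hE.le
  have hlτ := hσ.trans hE.le
  have hsub : {j' | j' ∈ Z' ∧ c j' = c j} ⊆ a ∪ ({j' | j' ∈ Z' ∧ c j' = c j} \ a) :=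
    fun k hk => (em (k ∈ a)).imp id fun h => ⟨hk, h⟩
  refine (mk_le_mk_of_subset hsub).trans ((mk_union_le _ _).trans
    (add_le_of_le hτ (ha.trans hlτ) ?_))
  have hT2 : #(XS (∅ : Set N) c {i | i ∈ Z ∧ c i = C}) ≤ mu c Z C :=
    mk_xs_le hτ (by simp) le_rfl fun i => by
      obtain ⟨j, hj⟩ := hc i
      rw [← hj]; exact (hT.cD j).trans hlτ
  refine le_trans (mk_le_of_injective (f := fun j' => ⟨_, key j'.1 j'.2.1 j'.2.2⟩)
    fun j₁ j₂ h => ?_) hT2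
  have hy' : ∀ j' ∈ {j' | j' ∈ Z' ∧ c j' = c j}, (⟨y, some j'⟩ : W N I') ∈ XS A c Z' :=
    fun j' h => xs_some.2 ⟨h.1, h.2.symm ▸ hy⟩
  have := hψ.1.injOn (hy' _ j₁.2.1) (hy' _ j₂.2.1) (congrArg Subtype.val h)
  exact Subtype.ext (Option.some.inj (congrArg W.ix this))

/-- No two cardinal models. -/
theorem full [Nonempty N] (hK : K.LSle l) (hκ : Order.succ (Order.succ (2 ^ l)) ≤ κ)
    (hcat : K.Cat κ) (hT : Tmpl L l A D) (hN : Le K (XS A D univ) (XS A D univ)) {C : Set N}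
    (hC : 2 ^ l < mu D univ C) : mu D univ C = #I := by
  have hCI : mu D univ C ≤ #I := (mu_le _ _ _).trans mk_univ.le
  by_contra hne
  have hθ := lt_of_le_of_ne hCI hne
  have hl := (cantor l).le
  have hν := hK.1.trans hl
  have hνρ : (2 : Cardinal.{u}) ^ l < Order.succ (2 ^ l) := Order.lt_succ _
  have hρκ : Order.succ (2 ^ l) < κ := (Order.lt_succ _).trans_le hκ
  have hρθ := Order.succ_le_of_lt hC
  generalize Order.succ ((2 : Cardinal.{u}) ^ l) = ρ at *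
  have hρ := hν.trans hνρ.le
  have hlρ := hl.trans hνρ.le
  obtain ⟨Y, -, hY1, hY2⟩ := sel D hρ (hT.cT.trans hνρ.le) le_rfl univ
  obtain ⟨Z', h1, -, h2, h3⟩ := pcs_ls hK (hlρ.trans hρθ) xs_pcs
    (hT.xs_le (hρ.trans hρθ) (hlρ.trans hρθ) (c := D) fun _ => mem_range_self _) hN
    (subset_univ ({i | mu D univ (D i) ≤ mu D univ C} ∪ Y))
    ((mk_union_le _ _).trans (add_le_of_le (hρ.trans hρθ)
      (few D (hρ.trans hρθ) (hT.cT.trans hC.le)) (hY1.trans hρθ)))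
  obtain ⟨i₀, -, hi₀⟩ := exists_notMem (E := univ) (h2.trans_lt (by rwa [mk_univ]))
  have hc := hT.xs_le hρ hlρ (c := D) fun _ => mem_range_self _
  obtain ⟨Z₁, ⟨h4, h5⟩, h6, h7⟩ := ((club_le hK hlρ xs_pcs hc h3.left).inter hρ
    (club_le hK hlρ xs_pcs hc hN)).1 (insert i₀ Y) (mk_insert_le.trans
      (add_le_of_le hρ hY1 (one_le_aleph0.trans hρ)))
  have h4' : Le K (XS A D (Z₁ ∩ Z')) (XS A D Z') := h4
  have h5' : Le K (XS A D (Z₁ ∩ univ)) (XS A D univ) := h5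
  rw [inter_univ] at h5'
  have hb : ∀ i ∈ Z₁ \ (Z₁ ∩ Z'), mu D univ C < mu D univ (D i) := fun i hi =>
    not_le.1 fun h => hi.2 ⟨hi.1, h1 (Or.inl h)⟩
  have hYZ : Y ⊆ Z₁ ∩ Z' := subset_inter ((subset_insert _ _).trans h6)
    (subset_union_right.trans h1)
  have sp : SP K A D ρ (Z₁ ∩ Z') Z₁ := ⟨inter_subset_left,
    (h4'.trans h3).coh h5' (xs_pcs.mono inter_subset_left), h7,
    fun i hi => (hY2 _ (hρθ.trans (hb i hi).le)).trans (mu_mono _ hYZ _),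
    ⟨i₀, h6 (mem_insert _ _), fun h => hi₀ h.2⟩⟩
  obtain ⟨U₀, U₁, sq, -, -⟩ := exists_std hK hT hN (hC.trans hθ)
  have hb0 : #(univ : Set κ.out) = κ := by rw [mk_univ, mk_out]
  obtain ⟨φ, hφ⟩ := cat_piso hcat (sp.ok hρ (univ : Set κ.out)) (sq.ok hν (univ : Set κ.out))
    ((sp.mk_eq hT hρ hlρ _ (hb0.symm ▸ hρκ.le)).trans hb0)
    ((sq.mk_eq hT hν hl _ (hb0.symm ▸ (hνρ.trans hρκ).le)).trans hb0)
  have hz : mu D (Z₁ \ (Z₁ ∩ Z')) C = 0 := by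
    by_contra h
    obtain ⟨i, hi, rfl⟩ := mu_ne_zero.1 h
    exact (hb i hi).false
  have hmu : mu (fun p : W I κ.out => D p.pt) (FP (Z₁ ∩ Z') Z₁ univ) C = mu D (Z₁ ∩ Z') C := by
    rw [mu_fp, hz, zero_mul, add_zero]
  obtain ⟨j, hj, hj'⟩ := swap_arg hK.1 hT (fun _ => mem_range_self _) hφ (C := C) hl
    (B := FP U₀ U₁ ∅) (mk_fp_le hν sq.sub sq.card (by simp))
    (hmu ▸ hνρ.trans_le ((hY2 C hρθ).trans (mu_mono _ hYZ _)))
  rw [hmu, mu_fp, hb0] at hj'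
  have hj2 : j.pt ∈ U₁ \ U₀ := by
    obtain ⟨k, _ | s⟩ := j
    · exact absurd (fp_none.2 (fp_none.1 hj.1)) hj.2
    · exact (fp_some.1 hj.1).2
  have h8 : κ ≤ mu D (U₁ \ U₀) (D j.pt) * κ := le_mul_left (mu_ne_zero.2 ⟨_, hj2, rfl⟩)
  exact hρκ.not_ge ((h8.trans (le_add_self.trans hj')).trans ((mu_le _ _ _).trans
    ((mk_le_mk_of_subset inter_subset_left).trans h7)))

end Vale.Agent.P307S
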